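import Crest.Agent.R332.Defs
import Crest.Agent.Lib.KyFan.BorsukUlam

/-! Brouwer fixed point theorem for bounded maps. -/

set_option autoImplicit false
open scoped Matrix.Norms.L2Operator ComplexOrder MatrixOrder Topology
open Matrix MeasureTheory Filter Set
open Crest.MathPhysics.LiebThirring

namespace Crest.Agent.R332

/-- A bounded continuous self-map of a finite-dimensional real normed space has a fixed point. -/
theorem exists_fixed_of_bounded {E : Type*} [NormedAddCommGroup E] [NormedSpace ℝ E]
    [FiniteDimensional ℝ E] (g : E → E) (hg : Continuous g) (R : ℝ) (hR : ∀ x, ‖g x‖ ≤ R) :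
    ∃ x, g x = x := by
  have hcont : Continuous fun q : E × ℝ => q.2 • g (q.2⁻¹ • q.1) := by
    rw [continuous_iff_continuousAt]
    rintro ⟨x, t⟩
    by_cases ht : t = 0
    · subst ht
      unfold ContinuousAt
      simp only [zero_smul]
      refine squeeze_zero_norm (a := fun q : E × ℝ => ‖q.2‖ * R) (fun q => ?_) ?_
      · rw [norm_smul]
        exact mul_le_mul_of_nonneg_left (hR _) (norm_nonneg _)
      · have : Continuous fun q : E × ℝ => ‖q.2‖ * R := by fun_prop
        simpa using this.tendsto (x, 0)
    · exact continuousAt_snd.smul (hg.continuousAt.comp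
        ((continuousAt_snd.inv₀ ht).smul continuousAt_fst))
  obtain ⟨⟨x, t⟩, hq, h0⟩ := Crest.Agent.Lib.KyFan.borsukUlam (E := E × ℝ) (F := E) (by simp)
    (fun q => q.1 - q.2 • g (q.2⁻¹ • q.1)) (continuous_fst.sub hcont).continuousOn
    (fun q _ => by
      simp only [Prod.fst_neg, Prod.snd_neg, inv_neg, neg_smul, smul_neg, neg_neg]
      abel)
  simp only [sub_eq_zero] at h0
  have ht : t ≠ 0 := by
    rintro rfl
    rw [zero_smul] at h0
    subst h0
    simp [Prod.norm_def] at hq
  refine ⟨t⁻¹ • x, ?_⟩
  conv_rhs => rw [h0, smul_smul, inv_mul_cancel₀ ht, one_smul]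

end Crest.Agent.R332
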