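import Crest.Agent.R332.Defs

/-! Bounded, globally Lipschitz ODEs depending continuously on a parameter. -/

set_option autoImplicit false
open scoped Matrix.Norms.L2Operator ComplexOrder MatrixOrder Topology
open Matrix MeasureTheory Filter Set
open Crest.MathPhysics.LiebThirring

namespace Crest.Agent.R332

theorem exists_param_flow {E P : Type*} [NormedAddCommGroup E] [NormedSpace ℝ E]
    [FiniteDimensional ℝ E] [PseudoMetricSpace P] [ProperSpace P]
    (v : P → ℝ → E → E) (hv : Continuous fun q : P × ℝ × E => v q.1 q.2.1 q.2.2)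
    (a b : ℝ) (hab : a ≤ b)
    (hlip : ∀ p, ∃ C : NNReal, ∀ t ∈ Icc a b, LipschitzWith C (v p t))
    (hbd : ∀ p₀, ∃ C : ℝ, ∀ᶠ p in 𝓝 p₀, ∀ t ∈ Icc a b, ∀ y, ‖v p t y‖ ≤ C)
    (y₀ : P → E) (hy₀ : Continuous y₀) :
    ∃ y : P → ℝ → E, (∀ p, y p a = y₀ p) ∧
      (∀ p, ∀ t ∈ Icc a b, HasDerivWithinAt (y p) (v p t (y p t)) (Icc a b) t) ∧
      Continuous fun p => y p b := by
  have hex : ∀ p, ∃ y : ℝ → E, y a = y₀ p ∧
      ∀ t ∈ Icc a b, HasDerivWithinAt y (v p t (y t)) (Icc a b) t := by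
    intro p
    obtain ⟨K, hK⟩ := hlip p
    obtain ⟨C, hC⟩ := hbd p
    have hC' := hC.self_of_nhds
    have hpl : IsPicardLindelof (v p) (⟨a, left_mem_Icc.2 hab⟩ : Icc a b) (y₀ p)
        (C.toNNReal * (b - a).toNNReal) 0 C.toNNReal K := by
      refine ⟨fun t ht => (hK t ht).lipschitzOnWith, fun x _ => ?_, fun t ht x _ => ?_, ?_⟩
      · exact (hv.comp (by fun_prop : Continuous fun t : ℝ => (p, t, x))).continuousOn
      · exact (hC' t ht x).trans (Real.le_coe_toNNReal C)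
      · simp [hab]
    exact hpl.exists_eq_forall_mem_Icc_hasDerivWithinAt₀
  choose y hya hyd using hex
  refine ⟨y, hya, hyd, continuous_iff_continuousAt.2 fun p₀ => ?_⟩
  obtain ⟨K, hK⟩ := hlip p₀
  obtain ⟨C, hC⟩ := hbd p₀
  have hyc : ∀ p, ContinuousOn (y p) (Icc a b) := fun p t ht => (hyd p t ht).continuousWithinAt
  have hyd' : ∀ p, ∀ t ∈ Ico a b, HasDerivWithinAt (y p) (v p t (y p t)) (Ici t) t :=
    fun p t ht => (hyd p t (Ico_subset_Icc_self ht)).mono_of_mem_nhdsWithin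
      (Icc_mem_nhdsGE_of_mem ht)
  -- the Gronwall bound tends to zero
  have hG : Tendsto (fun ε : ℝ => gronwallBound ε K (ε + 0) (b - a)) (𝓝 0) (𝓝 0) := by
    have : Continuous fun ε : ℝ => gronwallBound ε K (ε + 0) (b - a) := by
      unfold gronwallBound
      split_ifs <;> fun_prop
    simpa [gronwallBound_ε0_δ0] using this.tendsto 0
  rw [ContinuousAt, Metric.tendsto_nhds]
  intro η hη
  obtain ⟨ε, hεG, hε⟩ : ∃ ε : ℝ, gronwallBound ε K (ε + 0) (b - a) < η ∧ 0 < ε :=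
    (((hG.eventually (gt_mem_nhds hη)).filter_mono nhdsWithin_le_nhds).and
      (self_mem_nhdsWithin (s := Ioi (0 : ℝ)))).exists
  have hcomp : IsCompact (Icc a b ×ˢ Metric.closedBall (y₀ p₀) (C * (b - a) + ε)) :=
    isCompact_Icc.prod (isCompact_closedBall _ _)
  have hunif : ∀ᶠ p in 𝓝 p₀, ∀ q ∈ Icc a b ×ˢ Metric.closedBall (y₀ p₀) (C * (b - a) + ε),
      dist (v p q.1 q.2) (v p₀ q.1 q.2) < ε := by
    refine hcomp.eventually_forall_of_forall_eventually fun q _ => ?_
    have : Continuous fun z : P × ℝ × E => dist (v z.1 z.2.1 z.2.2) (v p₀ z.2.1 z.2.2) :=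
      hv.dist (hv.comp (by fun_prop : Continuous fun z : P × ℝ × E => (p₀, z.2)))
    exact this.continuousAt.eventually_lt continuousAt_const (by simpa using hε)
  have hinit : ∀ᶠ p in 𝓝 p₀, dist (y₀ p) (y₀ p₀) < ε :=
    Metric.tendsto_nhds.1 hy₀.continuousAt ε hε
  filter_upwards [hC, hunif, hinit] with p hCp hup hip
  have hC0 : 0 ≤ C := (norm_nonneg _).trans (hCp a (left_mem_Icc.2 hab) 0)
  have hball : ∀ t ∈ Icc a b, y p t ∈ Metric.closedBall (y₀ p₀) (C * (b - a) + ε) := by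
    intro t ht
    have h1 := norm_image_sub_le_of_norm_deriv_le_segment' (hyd p)
      (fun s hs => hCp s (Ico_subset_Icc_self hs) _) t ht
    rw [hya, ← dist_eq_norm] at h1
    have h2 : C * (t - a) ≤ C * (b - a) := mul_le_mul_of_nonneg_left (by linarith [ht.2]) hC0
    exact (dist_triangle _ (y₀ p) _).trans (by linarith)
  have := dist_le_of_approx_trajectories_ODE_of_mem (v := v p₀) (s := fun _ => univ) (K := K)
    (εf := ε) (εg := 0) (δ := ε)
    (fun t ht => (hK t (Ico_subset_Icc_self ht)).lipschitzOnWith) (hyc p) (hyd' p)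
    (fun t ht => (hup (t, y p t) ⟨Ico_subset_Icc_self ht, hball t (Ico_subset_Icc_self ht)⟩).le)
    (fun _ _ => trivial) (hyc p₀) (hyd' p₀) (fun t _ => by simp) (fun _ _ => trivial)
    (by rw [hya, hya]; exact hip.le) b (right_mem_Icc.2 hab)
  exact this.trans_lt hεG

end Crest.Agent.R332
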