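import Crest.Agent.R332.Defs

/-! Matrix toolkit for row 332: traces, Frobenius norm, double-eigenbasis (Klein) lemma. -/

set_option autoImplicit false
open scoped Matrix.Norms.L2Operator ComplexOrder MatrixOrder
open Matrix MeasureTheory

namespace Crest.Agent.R332

variable {l m n : ℕ}

/-! ### `rtr` -/

@[simp] lemma rtr_zero : rtr (0 : Mat n n) = 0 := by simp [rtr]
lemma rtr_add (A B : Mat n n) : rtr (A + B) = rtr A + rtr B := by simp [rtr]
lemma rtr_sub (A B : Mat n n) : rtr (A - B) = rtr A - rtr B := by simp [rtr]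
lemma rtr_neg (A : Mat n n) : rtr (-A) = -rtr A := by simp [rtr]
lemma rtr_smul (c : ℝ) (A : Mat n n) : rtr (c • A) = c * rtr A := by simp [rtr]
lemma rtr_one : rtr (1 : Mat n n) = n := by simp [rtr]
lemma rtr_sum {ι : Type*} (t : Finset ι) (A : ι → Mat n n) :
    rtr (∑ i ∈ t, A i) = ∑ i ∈ t, rtr (A i) := by simp [rtr, Matrix.trace_sum]
lemma rtr_mul_comm (A : Mat m n) (B : Mat n m) : rtr (A * B) = rtr (B * A) := by
  simp [rtr, Matrix.trace_mul_comm A B]
lemma rtr_conjTranspose (A : Mat n n) : rtr Aᴴ = rtr A := by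
  simp [rtr, Matrix.trace_conjTranspose]
lemma rtr_eq_sum (A : Mat n n) : rtr A = ∑ i, (A i i).re := by simp [rtr, Matrix.trace]
lemma rtr_diagonal (d : Fin n → ℝ) : rtr (diagonal fun i => (d i : ℂ)) = ∑ i, d i := by
  simp [rtr]

/-- `rtr` as a continuous `ℝ`-linear map. -/
noncomputable def rtrL (n : ℕ) : Mat n n →L[ℝ] ℝ :=
  LinearMap.toContinuousLinearMap
    { toFun := rtr, map_add' := rtr_add, map_smul' := fun c A => by simp [rtr_smul] }

@[simp] lemma rtrL_apply (A : Mat n n) : rtrL n A = rtr A := rfl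

@[fun_prop] lemma continuous_rtr : Continuous (rtr : Mat n n → ℝ) := (rtrL n).continuous

lemma rtr_nonneg {A : Mat n n} (hA : A.PosSemidef) : 0 ≤ rtr A :=
  (Complex.nonneg_iff.1 hA.trace_nonneg).1

lemma rtr_mono {A B : Mat n n} (h : A ≤ B) : rtr A ≤ rtr B := by
  have := rtr_nonneg (Matrix.le_iff.1 h)
  rw [rtr_sub] at this; linarith

/-! ### spectral decomposition -/

/-- The eigenvector matrix. -/
noncomputable def eigU {A : Mat n n} (hA : A.IsHermitian) : Mat n n := hA.eigenvectorUnitary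

lemma eigU_mul_conj {A : Mat n n} (hA : A.IsHermitian) : eigU hA * (eigU hA)ᴴ = 1 :=
  (Unitary.mul_star_self_of_mem hA.eigenvectorUnitary.2)

lemma eigU_conj_mul {A : Mat n n} (hA : A.IsHermitian) : (eigU hA)ᴴ * eigU hA = 1 :=
  (Unitary.star_mul_self_of_mem hA.eigenvectorUnitary.2)

lemma cfc_eq_diag {A : Mat n n} (hA : A.IsHermitian) (f : ℝ → ℝ) :
    cfc f A = eigU hA * (diagonal fun i => (f (hA.eigenvalues i) : ℂ)) * (eigU hA)ᴴ := by
  rw [hA.cfc_eq, Matrix.IsHermitian.cfc, Unitary.conjStarAlgAut_apply]; rfl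

lemma eq_diag {A : Mat n n} (hA : A.IsHermitian) :
    A = eigU hA * (diagonal fun i => (hA.eigenvalues i : ℂ)) * (eigU hA)ᴴ := by
  have := cfc_eq_diag hA (fun x => x)
  rwa [cfc_id' ℝ A hA.isSelfAdjoint] at this

lemma contOn_spec (f : ℝ → ℝ) (A : Mat n n) : ContinuousOn f (spectrum ℝ A) :=
  (Matrix.finite_real_spectrum (A := A)).continuousOn f

lemma cfc_herm (f : ℝ → ℝ) (A : Mat n n) : (cfc f A).IsHermitian :=
  (cfc_predicate (R := ℝ) f A : IsSelfAdjoint (cfc f A))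

lemma mem_spec_iff {A : Mat n n} (hA : A.IsHermitian) {x : ℝ} :
    x ∈ spectrum ℝ A ↔ ∃ i, hA.eigenvalues i = x := by
  rw [hA.spectrum_real_eq_range_eigenvalues]; rfl

lemma rtr_cfc {A : Mat n n} (hA : A.IsHermitian) (f : ℝ → ℝ) :
    rtr (cfc f A) = ∑ i, f (hA.eigenvalues i) := by
  rw [cfc_eq_diag hA, rtr_mul_comm, ← Matrix.mul_assoc, eigU_conj_mul, Matrix.one_mul, rtr_diagonal]

lemma rtr_eq_sum_eig {A : Mat n n} (hA : A.IsHermitian) : rtr A = ∑ i, hA.eigenvalues i := by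
  have := rtr_cfc hA (fun x => x)
  rwa [cfc_id' ℝ A hA.isSelfAdjoint] at this

/-- products, sums, compositions: no continuity side conditions for matrices -/
lemma cfc_mul' (f g : ℝ → ℝ) (A : Mat n n) : cfc (fun x => f x * g x) A = cfc f A * cfc g A :=
  cfc_mul f g A (contOn_spec _ _) (contOn_spec _ _)

lemma cfc_add' (f g : ℝ → ℝ) (A : Mat n n) : cfc (fun x => f x + g x) A = cfc f A + cfc g A :=
  cfc_add A f g (contOn_spec _ _) (contOn_spec _ _)

lemma cfc_sub' (f g : ℝ → ℝ) (A : Mat n n) : cfc (fun x => f x - g x) A = cfc f A - cfc g A :=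
  cfc_sub f g A (contOn_spec _ _) (contOn_spec _ _)

lemma cfc_const_mul' (c : ℝ) (f : ℝ → ℝ) (A : Mat n n) :
    cfc (fun x => c * f x) A = c • cfc f A :=
  cfc_const_mul c f A (contOn_spec _ _)

lemma cfc_const' (c : ℝ) {A : Mat n n} (hA : A.IsHermitian) :
    cfc (fun _ : ℝ => c) A = c • (1 : Mat n n) := by
  rw [cfc_const c A hA.isSelfAdjoint, Algebra.algebraMap_eq_smul_one]

lemma cfc_id'' {A : Mat n n} (hA : A.IsHermitian) : cfc (fun x : ℝ => x) A = A :=
  cfc_id' ℝ A hA.isSelfAdjoint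

lemma cfc_cfc (g f : ℝ → ℝ) {A : Mat n n} (hA : A.IsHermitian) :
    cfc g (cfc f A) = cfc (fun x => g (f x)) A :=
  (cfc_comp' g f A ((Matrix.finite_real_spectrum (A := A)).image f |>.continuousOn g)
    (contOn_spec _ _) hA.isSelfAdjoint).symm

lemma cfc_comm (f g : ℝ → ℝ) (A : Mat n n) : cfc f A * cfc g A = cfc g A * cfc f A := by
  rw [← cfc_mul', ← cfc_mul']; simp_rw [mul_comm]

lemma cfc_congr' {f g : ℝ → ℝ} {A : Mat n n} (h : ∀ x ∈ spectrum ℝ A, f x = g x) :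
    cfc f A = cfc g A := cfc_congr h

lemma cfc_psd {f : ℝ → ℝ} {A : Mat n n} (h : ∀ x ∈ spectrum ℝ A, 0 ≤ f x) :
    (cfc f A).PosSemidef := Matrix.nonneg_iff_posSemidef.1 (cfc_nonneg h)

lemma spec_cfc {A : Mat n n} (hA : A.IsHermitian) (f : ℝ → ℝ) {y : ℝ}
    (hy : y ∈ spectrum ℝ (cfc f A)) : ∃ x ∈ spectrum ℝ A, f x = y := by
  rw [cfc_map_spectrum f A hA.isSelfAdjoint (contOn_spec _ _)] at hy
  exact hy

lemma spec_nonneg {A : Mat n n} (hA : A.PosSemidef) {x : ℝ} (hx : x ∈ spectrum ℝ A) : 0 ≤ x := by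
  obtain ⟨i, rfl⟩ := (mem_spec_iff hA.1).1 hx
  exact hA.eigenvalues_nonneg i

lemma spec_abs_le (A : Mat n n) {x : ℝ} (hx : x ∈ spectrum ℝ A) : |x| ≤ ‖A‖ := by
  rcases Nat.eq_zero_or_pos n with rfl | hn
  · exact absurd hx (by simp)
  · have : Nonempty (Fin n) := ⟨⟨0, hn⟩⟩
    exact spectrum.norm_le_norm_of_mem hx

lemma norm_cfc_le' {f : ℝ → ℝ} {A : Mat n n} {c : ℝ} (hc : 0 ≤ c)
    (h : ∀ x ∈ spectrum ℝ A, |f x| ≤ c) : ‖cfc f A‖ ≤ c := norm_cfc_le hc h

lemma norm_le_of_spec {A : Mat n n} (hA : A.IsHermitian) {c : ℝ} (hc : 0 ≤ c)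
    (h : ∀ x ∈ spectrum ℝ A, |x| ≤ c) : ‖A‖ ≤ c := by
  have := norm_cfc_le' (f := fun x => x) hc h
  rwa [cfc_id'' hA] at this

/-- lower spectral bound from the Loewner order -/
lemma le_spec_of_le {A : Mat n n} (hA : A.IsHermitian) {c : ℝ}
    (h : (A - c • (1 : Mat n n)).PosSemidef) {x : ℝ} (hx : x ∈ spectrum ℝ A) : c ≤ x := by
  have e : A - c • (1 : Mat n n) = cfc (fun x => x - c) A := by
    rw [cfc_sub', cfc_id'' hA, cfc_const' c hA]
  have hx' : x - c ∈ spectrum ℝ (A - c • (1 : Mat n n)) := by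
    rw [e, cfc_map_spectrum _ A hA.isSelfAdjoint (contOn_spec _ _)]
    exact ⟨x, hx, rfl⟩
  linarith [spec_nonneg h hx']

lemma spec_le_of_le {A : Mat n n} (hA : A.IsHermitian) {c : ℝ}
    (h : (c • (1 : Mat n n) - A).PosSemidef) {x : ℝ} (hx : x ∈ spectrum ℝ A) : x ≤ c := by
  have e : c • (1 : Mat n n) - A = cfc (fun x => c - x) A := by
    rw [cfc_sub', cfc_id'' hA, cfc_const' c hA]
  have hx' : c - x ∈ spectrum ℝ (c • (1 : Mat n n) - A) := by
    rw [e, cfc_map_spectrum _ A hA.isSelfAdjoint (contOn_spec _ _)]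
    exact ⟨x, hx, rfl⟩
  linarith [spec_nonneg h hx']

lemma psd_sub_of_spec {A : Mat n n} (hA : A.IsHermitian) {c : ℝ}
    (h : ∀ x ∈ spectrum ℝ A, c ≤ x) : (A - c • (1 : Mat n n)).PosSemidef := by
  have e : A - c • (1 : Mat n n) = cfc (fun x => x - c) A := by
    rw [cfc_sub', cfc_id'' hA, cfc_const' c hA]
  rw [e]; exact cfc_psd fun x hx => sub_nonneg.2 (h x hx)

lemma psd_sub_of_spec' {A : Mat n n} (hA : A.IsHermitian) {c : ℝ}
    (h : ∀ x ∈ spectrum ℝ A, x ≤ c) : (c • (1 : Mat n n) - A).PosSemidef := by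
  have e : c • (1 : Mat n n) - A = cfc (fun x => c - x) A := by
    rw [cfc_sub', cfc_id'' hA, cfc_const' c hA]
  rw [e]; exact cfc_psd fun x hx => sub_nonneg.2 (h x hx)

lemma norm_one_le : ‖(1 : Mat n n)‖ ≤ 1 := by
  have := norm_cfc_le' (f := fun _ => (1 : ℝ)) (A := (0 : Mat n n)) zero_le_one (by simp)
  rwa [cfc_const' 1 isHermitian_zero, one_smul] at this

lemma norm_mul_le' (A : Mat l m) (B : Mat m n) : ‖A * B‖ ≤ ‖A‖ * ‖B‖ := Matrix.l2_opNorm_mul A B

lemma norm_conjT (A : Mat m n) : ‖Aᴴ‖ = ‖A‖ := Matrix.l2_opNorm_conjTranspose A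

/-- unitary conjugation commutes with the functional calculus -/
lemma cfc_conj {U A : Mat n n} (hU : U * Uᴴ = 1) (hA : A.IsHermitian) (f : ℝ → ℝ) :
    cfc f (U * A * Uᴴ) = U * cfc f A * Uᴴ := by
  have hU' : U ∈ unitary (Mat n n) := by
    rw [Unitary.mem_iff]
    exact ⟨mul_eq_one_comm.1 hU, hU⟩
  have h := StarAlgHomClass.map_cfc (R := ℝ) (S := ℂ)
    (Unitary.conjStarAlgAut ℂ (Mat n n) ⟨U, hU'⟩) f A (contOn_spec _ _)
    (by
      have : (Unitary.conjStarAlgAut ℂ (Mat n n) ⟨U, hU'⟩ : Mat n n → Mat n n) =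
          fun X => U * X * Uᴴ := by
        funext X; rw [Unitary.conjStarAlgAut_apply]; rfl
      rw [this]; fun_prop) hA.isSelfAdjoint
    (hA.isSelfAdjoint.map _)
  simp only [Unitary.conjStarAlgAut_apply] at h
  exact h.symm

/-! ### Frobenius norm -/

lemma fro2_eq_sum (A : Mat m n) : fro2 A = ∑ i, ∑ j, ‖A i j‖ ^ 2 := by
  rw [fro2, rtr_eq_sum, Finset.sum_comm]
  refine Finset.sum_congr rfl fun j _ => ?_
  simp only [Matrix.mul_apply, conjTranspose_apply, Complex.re_sum]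
  refine Finset.sum_congr rfl fun i _ => ?_
  rw [Complex.star_def, Complex.conj_mul', ← Complex.ofReal_pow, Complex.ofReal_re]

lemma fro2_nonneg (A : Mat m n) : 0 ≤ fro2 A := rtr_nonneg (posSemidef_conjTranspose_mul_self A)

lemma fro2_eq' (A : Mat m n) : fro2 A = rtr (A * Aᴴ) := rtr_mul_comm _ _

lemma fro2_conjT (A : Mat m n) : fro2 Aᴴ = fro2 A := by
  rw [fro2, conjTranspose_conjTranspose, fro2_eq']

lemma fro2_eq_zero {A : Mat m n} (h : fro2 A = 0) : A = 0 := by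
  rw [fro2_eq_sum, Finset.sum_eq_zero_iff_of_nonneg (fun i _ => by positivity)] at h
  ext i j
  have := (Finset.sum_eq_zero_iff_of_nonneg (fun j _ => by positivity)).1 (h i (Finset.mem_univ _))
    j (Finset.mem_univ _)
  simpa using this

@[simp] lemma fro2_zero : fro2 (0 : Mat m n) = 0 := by simp [fro2]

lemma fro2_neg (A : Mat m n) : fro2 (-A) = fro2 A := by simp [fro2]

lemma fro2_smul (c : ℝ) (A : Mat m n) : fro2 (c • A) = c ^ 2 * fro2 A := by
  simp only [fro2, conjTranspose_smul, star_trivial, Matrix.smul_mul, Matrix.mul_smul, rtr_smul]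
  ring

lemma fro2_add (A B : Mat m n) : fro2 (A + B) = fro2 A + 2 * rtr (Aᴴ * B) + fro2 B := by
  have : rtr (Bᴴ * A) = rtr (Aᴴ * B) := by rw [← rtr_conjTranspose]; simp
  simp only [fro2, conjTranspose_add, Matrix.add_mul, Matrix.mul_add, rtr_add, this]
  ring

lemma fro2_sub (A B : Mat m n) : fro2 (A - B) = fro2 A - 2 * rtr (Aᴴ * B) + fro2 B := by
  rw [sub_eq_add_neg, fro2_add, fro2_neg, Matrix.mul_neg, rtr_neg]; ring

@[fun_prop] lemma continuous_fro2 : Continuous (fro2 : Mat m n → ℝ) := by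
  unfold fro2
  exact continuous_rtr.comp (continuous_id.matrix_conjTranspose.matrix_mul continuous_id)

lemma fro_nonneg (A : Mat m n) : 0 ≤ fro A := Real.sqrt_nonneg _

lemma fro_sq (A : Mat m n) : fro A ^ 2 = fro2 A := Real.sq_sqrt (fro2_nonneg A)

@[fun_prop] lemma continuous_fro : Continuous (fro : Mat m n → ℝ) :=
  Real.continuous_sqrt.comp continuous_fro2

lemma fro_conjT (A : Mat m n) : fro Aᴴ = fro A := by rw [fro, fro2_conjT, fro]

lemma fro_neg (A : Mat m n) : fro (-A) = fro A := by rw [fro, fro2_neg, fro]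

lemma fro_sub_comm (A B : Mat m n) : fro (A - B) = fro (B - A) := by rw [← fro_neg, neg_sub]

lemma fro_smul (c : ℝ) (A : Mat m n) : fro (c • A) = |c| * fro A := by
  rw [fro, fro2_smul, Real.sqrt_mul (sq_nonneg c), Real.sqrt_sq_eq_abs, fro]

/-- Cauchy–Schwarz. -/
lemma abs_rtr_mul_le (A : Mat m n) (B : Mat n m) : |rtr (A * B)| ≤ fro A * fro B := by
  have key : ∀ t : ℝ, 0 ≤ fro2 B * (t * t) + 2 * rtr (A * B) * t + fro2 A := by
    intro t
    have h := fro2_nonneg (Aᴴ + t • B)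
    rw [fro2_add, fro2_smul, fro2_conjT, conjTranspose_conjTranspose, Matrix.mul_smul,
      rtr_smul] at h
    nlinarith
  have hd := discrim_le_zero key
  rw [discrim] at hd
  have h2 : rtr (A * B) ^ 2 ≤ (fro A * fro B) ^ 2 := by
    rw [mul_pow, fro_sq, fro_sq]; nlinarith
  exact abs_le_of_sq_le_sq' h2 (mul_nonneg (fro_nonneg _) (fro_nonneg _)) |> abs_le.2

lemma fro_add_le (A B : Mat m n) : fro (A + B) ≤ fro A + fro B := by
  have h := abs_rtr_mul_le Aᴴ B
  rw [fro_conjT] at h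
  have h2 : fro (A + B) ^ 2 ≤ (fro A + fro B) ^ 2 := by
    rw [fro_sq, fro2_add, add_sq, fro_sq, fro_sq]
    nlinarith [le_abs_self (rtr (Aᴴ * B))]
  exact (abs_le_of_sq_le_sq' h2 (add_nonneg (fro_nonneg _) (fro_nonneg _))).2

lemma fro_sub_le (A B : Mat m n) : fro (A - B) ≤ fro A + fro B := by
  rw [sub_eq_add_neg]; simpa [fro_neg] using fro_add_le A (-B)

lemma fro2_add_le (A B : Mat m n) : fro2 (A + B) ≤ 2 * fro2 A + 2 * fro2 B := by
  have h1 := fro2_add A B
  have h2 := fro2_sub A B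
  have h3 := fro2_nonneg (A - B)
  linarith

lemma norm_le_rtr {A : Mat n n} (hA : A.PosSemidef) : ‖A‖ ≤ rtr A := by
  refine norm_le_of_spec hA.1 (rtr_nonneg hA) fun x hx => ?_
  obtain ⟨i, rfl⟩ := (mem_spec_iff hA.1).1 hx
  rw [abs_of_nonneg (hA.eigenvalues_nonneg i), rtr_eq_sum_eig hA.1]
  exact Finset.single_le_sum (fun j _ => hA.eigenvalues_nonneg j) (Finset.mem_univ i)

lemma rtr_mul_nonneg {A B : Mat n n} (hA : A.PosSemidef) (hB : B.PosSemidef) :
    0 ≤ rtr (A * B) := by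
  have e : A = cfc Real.sqrt A * cfc Real.sqrt A := by
    rw [← cfc_mul', cfc_congr' (g := fun x => x) fun x hx => Real.mul_self_sqrt (spec_nonneg hA hx),
      cfc_id'' hA.1]
  have h := rtr_nonneg (hB.conjTranspose_mul_mul_same (cfc Real.sqrt A))
  rw [(cfc_herm Real.sqrt A).eq, rtr_mul_comm, ← Matrix.mul_assoc, ← e] at h
  exact h

lemma norm_entry_le (A : Mat m n) (i : Fin m) (j : Fin n) : ‖A i j‖ ≤ ‖A‖ := by
  have h := Matrix.l2_opNorm_mulVec A (EuclideanSpace.single j (1 : ℂ))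
  rw [PiLp.norm_single, norm_one, mul_one] at h
  refine le_trans ?_ h
  have h2 := PiLp.norm_apply_le
    ((EuclideanSpace.equiv (Fin m) ℂ).symm (A *ᵥ (EuclideanSpace.single j (1 : ℂ)).ofLp)) i
  simpa using h2

lemma abs_rtr_le (A : Mat n n) : |rtr A| ≤ n * ‖A‖ := by
  rw [rtr_eq_sum]
  refine (Finset.abs_sum_le_sum_abs _ _).trans ?_
  calc ∑ i, |(A i i).re| ≤ ∑ _i : Fin n, ‖A‖ :=
        Finset.sum_le_sum fun i _ => (Complex.abs_re_le_norm _).trans (norm_entry_le A i i)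
    _ = n * ‖A‖ := by simp

lemma fro_mul_le_left (A : Mat l m) (B : Mat m n) : fro (A * B) ≤ ‖A‖ * fro B := by
  have h1 : ((‖A‖ ^ 2) • (1 : Mat m m) - Aᴴ * A).PosSemidef :=
    psd_sub_of_spec' (isHermitian_conjTranspose_mul_self A) fun x hx => by
      have := spec_abs_le _ hx
      rw [Matrix.l2_opNorm_conjTranspose_mul_self] at this
      nlinarith [le_abs_self x]
  have h2 := rtr_nonneg (h1.conjTranspose_mul_mul_same B)
  have h3 : fro (A * B) ^ 2 ≤ (‖A‖ * fro B) ^ 2 := by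
    rw [mul_pow, fro_sq, fro_sq, fro2, fro2, conjTranspose_mul]
    simp only [Matrix.mul_sub, Matrix.sub_mul, Matrix.mul_smul, Matrix.smul_mul, Matrix.mul_one,
      rtr_sub, rtr_smul, Matrix.mul_assoc] at h2 ⊢
    linarith
  exact (abs_le_of_sq_le_sq' h3 (mul_nonneg (norm_nonneg _) (fro_nonneg _))).2

lemma fro_mul_le_right (A : Mat l m) (B : Mat m n) : fro (A * B) ≤ fro A * ‖B‖ := by
  rw [← fro_conjT, conjTranspose_mul, mul_comm]
  simpa [norm_conjT, fro_conjT] using fro_mul_le_left Bᴴ Aᴴ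

lemma norm_le_fro (A : Mat m n) : ‖A‖ ≤ fro A := by
  have h := norm_le_rtr (posSemidef_conjTranspose_mul_self A)
  rw [Matrix.l2_opNorm_conjTranspose_mul_self] at h
  exact Real.le_sqrt_of_sq_le (by rw [sq]; exact h)

lemma fro2_le_norm (A : Mat m n) : fro2 A ≤ n * ‖A‖ ^ 2 := by
  have h := abs_rtr_le (Aᴴ * A)
  rw [Matrix.l2_opNorm_conjTranspose_mul_self] at h
  rw [sq]; exact (le_abs_self _).trans h

/-- `|tr (A B)| ≤ ‖A‖ tr B` for Hermitian `A` and positive semidefinite `B`. -/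
lemma abs_rtr_mul_le_norm {A B : Mat n n} (hA : A.IsHermitian) (hB : B.PosSemidef) :
    |rtr (A * B)| ≤ ‖A‖ * rtr B := by
  have h1 := rtr_mul_nonneg (psd_sub_of_spec' hA (c := ‖A‖)
    fun x hx => (le_abs_self x).trans (spec_abs_le _ hx)) hB
  have h2 := rtr_mul_nonneg (psd_sub_of_spec hA (c := -‖A‖)
    fun x hx => (abs_le.1 (spec_abs_le _ hx)).1) hB
  simp only [Matrix.sub_mul, Matrix.smul_mul, Matrix.one_mul, rtr_sub, rtr_smul] at h1 h2
  rw [abs_le]; constructor <;> linarith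

/-! ### The double eigenbasis lemma -/

/-- Master lemma: `tr (f(X) Z g(Y) Z*) = ∑ w_{ij} f(x_i) g(y_j)` with weights `w ≥ 0` that do not
depend on `f, g`. -/
theorem exists_weights {X : Mat m m} {Y : Mat n n} (hX : X.IsHermitian) (hY : Y.IsHermitian)
    (Z : Mat m n) : ∃ w : Fin m → Fin n → ℝ, (∀ i j, 0 ≤ w i j) ∧ ∀ f g : ℝ → ℝ,
      rtr (cfc f X * Z * cfc g Y * Zᴴ) =
        ∑ i, ∑ j, w i j * (f (hX.eigenvalues i) * g (hY.eigenvalues j)) := by
  refine ⟨fun i j => ‖((eigU hX)ᴴ * Z * eigU hY) i j‖ ^ 2, fun i j => by positivity, fun f g => ?_⟩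
  set Z' := (eigU hX)ᴴ * Z * eigU hY with hZ'
  have e : rtr (cfc f X * Z * cfc g Y * Zᴴ) =
      rtr ((diagonal fun i => (f (hX.eigenvalues i) : ℂ)) * Z' *
        (diagonal fun j => (g (hY.eigenvalues j) : ℂ)) * Z'ᴴ) := by
    rw [cfc_eq_diag hX, cfc_eq_diag hY, hZ']
    simp only [conjTranspose_mul, conjTranspose_conjTranspose, Matrix.mul_assoc]
    rw [rtr_mul_comm (eigU hX)]
    simp only [Matrix.mul_assoc]
  rw [e, rtr_eq_sum]
  refine Finset.sum_congr rfl fun i _ => ?_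
  rw [Matrix.mul_apply, Complex.re_sum]
  refine Finset.sum_congr rfl fun j _ => ?_
  rw [mul_diagonal, diagonal_mul, conjTranspose_apply]
  have : (f (hX.eigenvalues i) : ℂ) * Z' i j * (g (hY.eigenvalues j) : ℂ) * star (Z' i j) =
      ((‖Z' i j‖ ^ 2 * (f (hX.eigenvalues i) * g (hY.eigenvalues j)) : ℝ) : ℂ) := by
    push_cast
    rw [← Complex.mul_conj', Complex.star_def]; ring
  rw [this, Complex.ofReal_re]

/-- Klein's lemma with four terms:  a scalar inequality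
`f₁(x) + g₁(y) + f₂(x) g₂(y) + f₃(x) g₃(y) ≥ 0` on the spectra gives the trace inequality. -/
theorem klein {X Y : Mat n n} (hX : X.IsHermitian) (hY : Y.IsHermitian)
    (f₁ g₁ f₂ g₂ f₃ g₃ : ℝ → ℝ)
    (h : ∀ x ∈ spectrum ℝ X, ∀ y ∈ spectrum ℝ Y, 0 ≤ f₁ x + g₁ y + f₂ x * g₂ y + f₃ x * g₃ y) :
    0 ≤ rtr (cfc f₁ X) + rtr (cfc g₁ Y) + rtr (cfc f₂ X * cfc g₂ Y) +
      rtr (cfc f₃ X * cfc g₃ Y) := by
  obtain ⟨w, hw, hfg⟩ := exists_weights hX hY (1 : Mat n n)
  simp only [Matrix.mul_one, conjTranspose_one] at hfg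
  have e1 := hfg f₁ (fun _ => 1)
  have e2 := hfg (fun _ => 1) g₁
  rw [cfc_const' 1 hY, one_smul, Matrix.mul_one] at e1
  rw [cfc_const' 1 hX, one_smul, Matrix.one_mul] at e2
  rw [e1, e2, hfg, hfg]
  simp only [← Finset.sum_add_distrib]
  refine Finset.sum_nonneg fun i _ => Finset.sum_nonneg fun j _ => ?_
  have := mul_nonneg (hw i j) (h _ (hX.eigenvalues_mem_spectrum_real i) _
    (hY.eigenvalues_mem_spectrum_real j))
  linarith

/-- `‖f(X) Z - Z g(Y)‖_F² = ∑ w_{ij} (f(x_i) - g(y_j))²`. -/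
theorem exists_weights_fro2 {X : Mat m m} {Y : Mat n n} (hX : X.IsHermitian) (hY : Y.IsHermitian)
    (Z : Mat m n) : ∃ w : Fin m → Fin n → ℝ, (∀ i j, 0 ≤ w i j) ∧ ∀ f g : ℝ → ℝ,
      fro2 (cfc f X * Z - Z * cfc g Y) =
        ∑ i, ∑ j, w i j * (f (hX.eigenvalues i) - g (hY.eigenvalues j)) ^ 2 := by
  obtain ⟨w, hw, hfg⟩ := exists_weights hX hY Z
  refine ⟨w, hw, fun f g => ?_⟩
  have e1 := hfg (fun x => f x * f x) (fun _ => 1)
  have e2 := hfg (fun _ => 1) (fun x => g x * g x)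
  have e3 := hfg f g
  rw [cfc_const' 1 hY, one_smul, Matrix.mul_one, cfc_mul'] at e1
  rw [cfc_const' 1 hX, one_smul, Matrix.one_mul, cfc_mul'] at e2
  have a1 : fro2 (cfc f X * Z) = rtr (cfc f X * cfc f X * Z * Zᴴ) := by
    rw [fro2, conjTranspose_mul, (cfc_herm f X).eq, Matrix.mul_assoc, rtr_mul_comm]
    simp only [Matrix.mul_assoc]
  have a2 : fro2 (Z * cfc g Y) = rtr (Z * (cfc g Y * cfc g Y) * Zᴴ) := by
    rw [fro2_eq', conjTranspose_mul, (cfc_herm g Y).eq]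
    simp only [Matrix.mul_assoc]
  have a3 : rtr ((cfc f X * Z)ᴴ * (Z * cfc g Y)) = rtr (cfc f X * Z * cfc g Y * Zᴴ) := by
    rw [conjTranspose_mul, (cfc_herm f X).eq, Matrix.mul_assoc, rtr_mul_comm]
    simp only [Matrix.mul_assoc]
  rw [fro2_sub, a1, a2, a3, e1, e2, e3, Finset.mul_sum]
  simp only [← Finset.sum_add_distrib, ← Finset.sum_sub_distrib, Finset.mul_sum]
  refine Finset.sum_congr rfl fun i _ => Finset.sum_congr rfl fun j _ => by ring

/-- Frobenius–Lipschitz bound: `‖f(X) Z - Z g(Y)‖_F ≤ C ‖φ(X) Z - Z ψ(Y)‖_F`. -/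
theorem fro_cfc_comm_le {X : Mat m m} {Y : Mat n n} (hX : X.IsHermitian) (hY : Y.IsHermitian)
    (Z : Mat m n) (f g φ ψ : ℝ → ℝ) {C : ℝ} (hC : 0 ≤ C)
    (h : ∀ x ∈ spectrum ℝ X, ∀ y ∈ spectrum ℝ Y, |f x - g y| ≤ C * |φ x - ψ y|) :
    fro (cfc f X * Z - Z * cfc g Y) ≤ C * fro (cfc φ X * Z - Z * cfc ψ Y) := by
  obtain ⟨w, hw, hfg⟩ := exists_weights_fro2 hX hY Z
  have h3 : fro (cfc f X * Z - Z * cfc g Y) ^ 2 ≤ (C * fro (cfc φ X * Z - Z * cfc ψ Y)) ^ 2 := by
    rw [mul_pow, fro_sq, fro_sq, hfg, hfg, Finset.mul_sum]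
    refine Finset.sum_le_sum fun i _ => ?_
    rw [Finset.mul_sum]
    refine Finset.sum_le_sum fun j _ => ?_
    have h1 := h _ (hX.eigenvalues_mem_spectrum_real i) _ (hY.eigenvalues_mem_spectrum_real j)
    have h2 := pow_le_pow_left₀ (abs_nonneg _) h1 2
    rw [mul_pow, sq_abs, sq_abs] at h2
    nlinarith [mul_le_mul_of_nonneg_left h2 (hw i j)]
  exact (abs_le_of_sq_le_sq' h3 (mul_nonneg hC (fro_nonneg _))).2

/-- Intertwining. -/
theorem cfc_intertwine {X : Mat m m} {Y : Mat n n} (hX : X.IsHermitian) (hY : Y.IsHermitian)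
    {Z : Mat m n} (h : X * Z = Z * Y) (f : ℝ → ℝ) : cfc f X * Z = Z * cfc f Y := by
  obtain ⟨w, hw, hfg⟩ := exists_weights_fro2 hX hY Z
  have h0 := hfg (fun x => x) (fun x => x)
  rw [cfc_id'' hX, cfc_id'' hY, h, sub_self, fro2_zero, eq_comm,
    Finset.sum_eq_zero_iff_of_nonneg (fun i _ => Finset.sum_nonneg fun j _ =>
      mul_nonneg (hw i j) (sq_nonneg _))] at h0
  rw [← sub_eq_zero]
  apply fro2_eq_zero
  rw [hfg]
  refine Finset.sum_eq_zero fun i _ => Finset.sum_eq_zero fun j _ => ?_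
  have := (Finset.sum_eq_zero_iff_of_nonneg (fun j _ => mul_nonneg (hw i j) (sq_nonneg _))).1
    (h0 i (Finset.mem_univ _)) j (Finset.mem_univ _)
  rcases mul_eq_zero.1 this with h1 | h1
  · rw [h1, zero_mul]
  · have : hX.eigenvalues i = hY.eigenvalues j := sub_eq_zero.1 (pow_eq_zero_iff two_ne_zero |>.1 h1)
    rw [this]; simp

lemma cfc_diagonal (d : Fin n → ℝ) (f : ℝ → ℝ) :
    cfc f (diagonal fun i => (d i : ℂ) : Mat n n) = diagonal fun i => (f (d i) : ℂ) := by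
  have hD : (diagonal fun i => (d i : ℂ) : Mat n n).IsHermitian :=
    isHermitian_diagonal_of_self_adjoint _ (by
      ext i; simp [Pi.star_apply])
  ext i j
  have hY : ((d j) • (1 : Mat 1 1)).IsHermitian := by
    rw [← cfc_const' (d j) (isHermitian_zero (n := Fin 1) (α := ℂ))]; exact cfc_herm _ _
  have h := cfc_intertwine hD hY (Z := Matrix.of fun k _ => if k = j then (1 : ℂ) else 0) (by
    ext k l
    simp only [diagonal_mul, Matrix.mul_smul, Matrix.mul_one, of_apply, Matrix.smul_apply]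
    split_ifs with hk <;> simp [hk]) f
  have e : cfc f ((d j) • (1 : Mat 1 1)) = f (d j) • (1 : Mat 1 1) := by
    rw [← Algebra.algebraMap_eq_smul_one, cfc_algebraMap, Algebra.algebraMap_eq_smul_one]
  rw [e, Matrix.mul_smul, Matrix.mul_one] at h
  have := congrFun (congrFun h i) 0
  simp only [Matrix.mul_apply, of_apply, mul_ite, mul_one, mul_zero, Finset.sum_ite_eq',
    Finset.mem_univ, if_true, Matrix.smul_apply] at this
  rw [this, diagonal_apply]
  split_ifs with hk <;> simp [hk]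

theorem cfc_mul_self (Φ : Mat m n) (f : ℝ → ℝ) :
    cfc f (Φ * Φᴴ) * Φ = Φ * cfc f (Φᴴ * Φ) :=
  cfc_intertwine (isHermitian_mul_conjTranspose_self Φ) (isHermitian_conjTranspose_mul_self Φ)
    (Matrix.mul_assoc _ _ _) f

theorem rtr_cfc_swap (Φ : Mat m n) (f : ℝ → ℝ) (hf : f 0 = 0) :
    rtr (cfc f (Φ * Φᴴ)) = rtr (cfc f (Φᴴ * Φ)) := by
  have key : ∀ {k : ℕ} {A : Mat k k}, A.IsHermitian →
      cfc f A = cfc (fun t => f t / t) A * A := by
    intro k A hA
    conv_rhs => rw [← cfc_id'' hA, cfc_cfc _ _ hA, ← cfc_mul']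
    refine cfc_congr' fun x _ => ?_
    rcases eq_or_ne x 0 with rfl | hx
    · simp [hf]
    · field_simp
  rw [key (isHermitian_mul_conjTranspose_self Φ), key (isHermitian_conjTranspose_mul_self Φ),
    ← Matrix.mul_assoc, cfc_mul_self, rtr_mul_comm, ← Matrix.mul_assoc, rtr_mul_comm]

/-! ### powers -/

lemma mpow_herm (A : Mat n n) (t : ℝ) : (mpow A t).IsHermitian := cfc_herm _ _

lemma mpow_psd {A : Mat n n} (hA : A.PosSemidef) (t : ℝ) : (mpow A t).PosSemidef :=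
  cfc_psd fun _ hx => Real.rpow_nonneg (spec_nonneg hA hx) t

lemma mpow_mpow {A : Mat n n} (hA : A.PosSemidef) (a b : ℝ) :
    mpow (mpow A a) b = mpow A (a * b) := by
  rw [mpow, mpow, cfc_cfc _ _ hA.1, mpow]
  exact cfc_congr' fun x hx => (Real.rpow_mul (spec_nonneg hA hx) a b).symm

lemma mpow_one {A : Mat n n} (hA : A.IsHermitian) : mpow A 1 = A := by
  simp only [mpow, Real.rpow_one]; exact cfc_id'' hA

lemma mpow_add {A : Mat n n} (hA : A.PosSemidef) {a b : ℝ} (ha : 0 ≤ a) (hb : 0 ≤ b) :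
    mpow A (a + b) = mpow A a * mpow A b := by
  rw [mpow, mpow, mpow, ← cfc_mul']
  exact cfc_congr' fun x hx => Real.rpow_add_of_nonneg (spec_nonneg hA hx) ha hb

lemma mpow_zero_left {t : ℝ} (ht : t ≠ 0) : mpow (0 : Mat n n) t = 0 := by
  rw [mpow, cfc_apply_zero, Real.zero_rpow ht, map_zero]

lemma norm_mpow_le {A : Mat n n} (hA : A.PosSemidef) {t c : ℝ} (ht : 0 ≤ t) (h : ‖A‖ ≤ c) :
    ‖mpow A t‖ ≤ c ^ t := by
  refine norm_cfc_le' (Real.rpow_nonneg ((norm_nonneg _).trans h) t) fun x hx => ?_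
  have h0 := spec_nonneg hA hx
  rw [abs_of_nonneg (Real.rpow_nonneg h0 t)]
  exact Real.rpow_le_rpow h0 ((le_abs_self x).trans ((spec_abs_le _ hx).trans h)) ht

lemma norm_rpow_le_rtr_mpow {A : Mat n n} (hA : A.PosSemidef) {t : ℝ} (ht : 0 < t) :
    ‖A‖ ^ t ≤ rtr (mpow A t) := by
  have hT := rtr_nonneg (mpow_psd hA t)
  have h1 : ‖mpow (mpow A t) t⁻¹‖ ≤ rtr (mpow A t) ^ t⁻¹ :=
    norm_mpow_le (mpow_psd hA t) (inv_nonneg.2 ht.le) (norm_le_rtr (mpow_psd hA t))
  rw [mpow_mpow hA, mul_inv_cancel₀ ht.ne', mpow_one hA.1] at h1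
  have := Real.rpow_le_rpow (norm_nonneg _) h1 ht.le
  rwa [← Real.rpow_mul hT, inv_mul_cancel₀ ht.ne', Real.rpow_one] at this

/-- continuity of the functional calculus along Hermitian families with spectrum in an open set on
which `f` is continuous (any topological parameter space). -/
theorem continuous_cfc_of {T : Type*} [TopologicalSpace T] {A : T → Mat n n} (hA : Continuous A)
    (hH : ∀ t, (A t).IsHermitian) {f : ℝ → ℝ} {S : Set ℝ} (hSo : IsOpen S) (hf : ContinuousOn f S)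
    (hS : ∀ t, spectrum ℝ (A t) ⊆ S) : Continuous fun t => cfc f (A t) :=
  Continuous.cfc_of_mem_nhdsSet f (hSo.mem_nhdsSet.2 (Set.iUnion_subset hS)) hA
    (fun t => (hH t).isSelfAdjoint) hf

/-- filter version for globally continuous `f` -/
theorem tendsto_cfc_of {T : Type*} {F : Filter T} {A : T → Mat n n} {A₀ : Mat n n}
    (hA : Filter.Tendsto A F (nhds A₀)) (hH : ∀ᶠ t in F, (A t).IsHermitian) (h₀ : A₀.IsHermitian)
    {f : ℝ → ℝ} (hf : Continuous f) :
    Filter.Tendsto (fun t => cfc f (A t)) F (nhds (cfc f A₀)) := by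
  refine Filter.Tendsto.cfc (s := Set.Icc (-(‖A₀‖ + 1)) (‖A₀‖ + 1)) isCompact_Icc f hA ?_
    (hH.mono fun t ht => ht.isSelfAdjoint) ?_ h₀.isSelfAdjoint hf.continuousOn
  · have : ∀ᶠ t in F, ‖A t‖ < ‖A₀‖ + 1 := hA.norm.eventually (gt_mem_nhds (lt_add_one _))
    filter_upwards [this] with t ht x hx
    exact abs_le.1 ((spec_abs_le _ hx).trans ht.le)
  · intro x hx
    exact abs_le.1 ((spec_abs_le _ hx).trans (by linarith))

theorem continuous_mpow {T : Type*} [TopologicalSpace T] {A : T → Mat n n} (hA : Continuous A)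
    (hP : ∀ t, (A t).IsHermitian) {r : ℝ} (hr : 0 ≤ r) : Continuous fun t => mpow (A t) r :=
  continuous_cfc_of hA hP isOpen_univ
    (Real.continuous_rpow_const hr).continuousOn (fun _ => Set.subset_univ _)

lemma young_scalar {s : ℝ} (hs : 0 < s) (hs1 : s ≤ 1) {a b : ℝ} (ha : 0 ≤ a) (hb : 0 ≤ b) :
    a * b ≤ (1 - s) / (s + 1) * a ^ (s + 1) +
      2 * s / (s + 1) * (a ^ ((s + 1) / 2) * b ^ ((s + 1) / (2 * s))) := by
  have hs' : 0 < s + 1 := by linarith
  have h := Real.geom_mean_le_arith_mean2_weighted (w₁ := (1 - s) / (s + 1)) (w₂ := 2 * s / (s + 1))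
    (p₁ := a ^ (s + 1)) (p₂ := a ^ ((s + 1) / 2) * b ^ ((s + 1) / (2 * s)))
    (div_nonneg (by linarith) hs'.le) (by positivity) (by positivity) (by positivity)
    (by field_simp; ring)
  refine le_trans (le_of_eq ?_) h
  rw [Real.mul_rpow (by positivity) (by positivity), ← Real.rpow_mul ha, ← Real.rpow_mul ha,
    ← Real.rpow_mul hb, ← mul_assoc, ← Real.rpow_add_of_nonneg ha
      (mul_nonneg hs'.le (div_nonneg (by linarith) hs'.le)) (by positivity)]
  have e1 : (s + 1) * ((1 - s) / (s + 1)) + (s + 1) / 2 * (2 * s / (s + 1)) = 1 := by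
    field_simp; ring
  have e2 : (s + 1) / (2 * s) * (2 * s / (s + 1)) = 1 := by field_simp
  rw [e1, e2, Real.rpow_one, Real.rpow_one]

/-- Trace Young inequality with a stability term (`p = s + 1 ∈ (1,2]`, `p' = (s+1)/s`). -/
theorem young_stab {s : ℝ} (hs : 0 < s) (hs1 : s ≤ 1) {W ρ : Mat n n} (hW : W.PosSemidef)
    (hρ : ρ.PosSemidef) :
    s / (s + 1) * fro2 (mpow W ((s + 1) / 2) - mpow ρ ((s + 1) / (2 * s))) ≤
      rtr (mpow W (s + 1)) / (s + 1) + s / (s + 1) * rtr (mpow ρ ((s + 1) / s)) - rtr (W * ρ) := by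
  have hs' : 0 < s + 1 := by linarith
  have h := klein hW.1 hρ.1 (fun a => (1 - s) / (s + 1) * a ^ (s + 1)) (fun _ => 0)
    (fun a => -1 * a) (fun b => b) (fun a => 2 * s / (s + 1) * a ^ ((s + 1) / 2))
    (fun b => b ^ ((s + 1) / (2 * s))) (fun a ha b hb => by
      have := young_scalar hs hs1 (spec_nonneg hW ha) (spec_nonneg hρ hb)
      linarith)
  rw [cfc_const_mul', cfc_const_mul', cfc_const_mul', cfc_id'' hW.1, cfc_id'' hρ.1,
    cfc_const' 0 hρ.1] at h
  simp only [Matrix.smul_mul, rtr_smul, zero_mul] at h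
  have e1 : fro2 (mpow W ((s + 1) / 2)) = rtr (mpow W (s + 1)) := by
    rw [fro2, (mpow_herm _ _).eq, ← mpow_add hW (by positivity) (by positivity), add_halves]
  have e2 : fro2 (mpow ρ ((s + 1) / (2 * s))) = rtr (mpow ρ ((s + 1) / s)) := by
    rw [fro2, (mpow_herm _ _).eq, ← mpow_add hρ (by positivity) (by positivity)]
    congr 2; field_simp; ring
  rw [fro2_sub, e1, e2, (mpow_herm _ _).eq]
  simp only [mpow] at h ⊢
  have e3 : ∀ x y z w : ℝ, 0 ≤ (1 - s) / (s + 1) * x + 0 + -1 * w + 2 * s / (s + 1) * z →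
      s / (s + 1) * (x - 2 * z + y) ≤ x / (s + 1) + s / (s + 1) * y - w := by
    intro x y z w h
    have : x / (s + 1) + s / (s + 1) * y - w - s / (s + 1) * (x - 2 * z + y) =
      (1 - s) / (s + 1) * x + 0 + -1 * w + 2 * s / (s + 1) * z := by field_simp; ring
    linarith
  exact e3 _ _ _ _ h

/-! ### calculus -/

lemma hd_iff {A : ℝ → Mat m n} {A' : Mat m n} {x : ℝ} :
    HasDerivAt A A' x ↔ ∀ i j, HasDerivAt (fun y => A y i j) (A' i j) x :=
  ⟨fun h i j => hasDerivAt_pi.1 (hasDerivAt_pi.1 h i) j,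
    fun h => hasDerivAt_pi.2 fun i => hasDerivAt_pi.2 fun j => h i j⟩

lemma hd_mul {A : ℝ → Mat l m} {B : ℝ → Mat m n} {A' : Mat l m} {B' : Mat m n} {x : ℝ}
    (hA : HasDerivAt A A' x) (hB : HasDerivAt B B' x) :
    HasDerivAt (fun y => A y * B y) (A' * B x + A x * B') x := by
  rw [hd_iff] at hA hB ⊢
  intro i j
  simp only [Matrix.mul_apply, Matrix.add_apply, ← Finset.sum_add_distrib]
  exact HasDerivAt.fun_sum fun k _ => (hA i k).mul (hB k j)

lemma hd_conjT {A : ℝ → Mat m n} {A' : Mat m n} {x : ℝ} (hA : HasDerivAt A A' x) :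
    HasDerivAt (fun y => (A y)ᴴ) A'ᴴ x := by
  rw [hd_iff] at hA ⊢
  intro i j
  exact (hA j i).star

lemma hd_rtr {A : ℝ → Mat n n} {A' : Mat n n} {x : ℝ} (hA : HasDerivAt A A' x) :
    HasDerivAt (fun y => rtr (A y)) (rtr A') x :=
  (rtrL n).hasFDerivAt.comp_hasDerivAt x hA

/-- Derivative of a trace function `tr f(X(t))` for `f` with a quadratic Taylor remainder on a set
`S` containing the spectra. -/
theorem hasDerivWithinAt_rtr_cfc {X : ℝ → Mat n n} {X' : Mat n n} {x : ℝ} {T : Set ℝ}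
    (hX : HasDerivWithinAt X X' T x) {S : Set ℝ}
    (hH : ∀ᶠ y in nhdsWithin x T, (X y).IsHermitian ∧ spectrum ℝ (X y) ⊆ S)
    (hx : (X x).IsHermitian ∧ spectrum ℝ (X x) ⊆ S) {f f' : ℝ → ℝ} {C : ℝ}
    (hf : ∀ a ∈ S, ∀ b ∈ S, |f a - f b - f' b * (a - b)| ≤ C * (a - b) ^ 2) :
    HasDerivWithinAt (fun y => rtr (cfc f (X y))) (rtr (cfc f' (X x) * X')) T x := by
  have key : ∀ Y : Mat n n, Y.IsHermitian → spectrum ℝ Y ⊆ S →
      |rtr (cfc f Y) - rtr (cfc f (X x)) - rtr (cfc f' (X x) * (Y - X x))| ≤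
        C * fro2 (Y - X x) := by
    intro Y hY hYS
    obtain ⟨w, hw, hfg⟩ := exists_weights hY hx.1 (1 : Mat n n)
    obtain ⟨hX0, hXS⟩ := hx
    simp only [Matrix.mul_one, conjTranspose_one] at hfg
    have e1 := hfg f (fun _ => 1)
    have e2 := hfg (fun _ => 1) f
    have e3 := hfg (fun t => t) f'
    have e4 := hfg (fun _ => 1) (fun t => f' t * t)
    have e5 := hfg (fun t => t * t) (fun _ => 1)
    have e6 := hfg (fun _ => 1) (fun t => t * t)
    have e7 := hfg (fun t => t) (fun t => t)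
    rw [cfc_const' 1 hX0, one_smul, Matrix.mul_one] at e1 e5
    rw [cfc_const' 1 hY, one_smul, Matrix.one_mul] at e2 e4 e6
    rw [cfc_mul', cfc_id'' hX0] at e4 e6
    rw [cfc_mul', cfc_id'' hY] at e5
    rw [cfc_id'' hY] at e3 e7
    rw [cfc_id'' hX0] at e7
    rw [Matrix.mul_sub, rtr_sub, rtr_mul_comm _ Y, fro2_sub, fro2, fro2, hY.eq, hX0.eq, e1, e2, e3,
      e4, e5, e6, e7]
    simp only [Finset.mul_sum, ← Finset.sum_add_distrib, ← Finset.sum_sub_distrib]
    refine (Finset.abs_sum_le_sum_abs _ _).trans (Finset.sum_le_sum fun i _ => ?_)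
    refine (Finset.abs_sum_le_sum_abs _ _).trans (Finset.sum_le_sum fun j _ => ?_)
    have h1 := hf _ (hYS (hY.eigenvalues_mem_spectrum_real i)) _
      (hXS (hX0.eigenvalues_mem_spectrum_real j))
    have h2 := mul_le_mul_of_nonneg_left h1 (hw i j)
    rw [← abs_of_nonneg (hw i j), ← abs_mul, abs_of_nonneg (hw i j)] at h2
    refine le_trans (le_of_eq ?_) (h2.trans (le_of_eq ?_))
    · congr 1; ring
    · ring
  have hlin : HasDerivWithinAt (fun y => rtr (cfc f' (X x) * (X y - X x)))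
      (rtr (cfc f' (X x) * X')) T x := by
    have h1 : HasDerivWithinAt (fun y => cfc f' (X x) * (X y - X x)) (cfc f' (X x) * X') T x :=
      (hX.sub_const (X x)).const_mul _
    exact (rtrL n).hasFDerivAt.comp_hasDerivWithinAt x h1
  have hrem : HasDerivWithinAt (fun y => rtr (cfc f (X y)) - rtr (cfc f (X x)) -
      rtr (cfc f' (X x) * (X y - X x))) 0 T x := by
    rw [hasDerivWithinAt_iff_isLittleO]
    simp only [sub_self, Matrix.mul_zero, rtr_zero, smul_zero, sub_zero]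
    have hO : (fun y => X y - X x) =O[nhdsWithin x T] fun y => y - x :=
      hX.hasFDerivWithinAt.isBigO_sub
    have ho : (fun y => X y - X x) =o[nhdsWithin x T] fun _ => (1 : ℝ) := by
      rw [Asymptotics.isLittleO_one_iff]
      have := hX.continuousWithinAt.tendsto.sub_const (X x)
      simpa using this
    have h3 : (fun y => ‖X y - X x‖ * ‖X y - X x‖) =o[nhdsWithin x T] fun y => y - x := by
      simpa using ho.norm_left.mul_isBigO hO.norm_left
    refine Asymptotics.IsBigO.trans_isLittleO ?_ h3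
    refine Asymptotics.IsBigO.of_bound (|C| * n) ?_
    filter_upwards [hH] with y hy
    rw [Real.norm_eq_abs, Real.norm_eq_abs, abs_of_nonneg (by positivity : 0 ≤ ‖X y - X x‖ * _)]
    refine (key _ hy.1 hy.2).trans ?_
    have := fro2_le_norm (X y - X x)
    calc C * fro2 (X y - X x) ≤ |C| * fro2 (X y - X x) :=
          mul_le_mul_of_nonneg_right (le_abs_self C) (fro2_nonneg _)
      _ ≤ |C| * (n * ‖X y - X x‖ ^ 2) := mul_le_mul_of_nonneg_left this (abs_nonneg C)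
      _ = _ := by ring
  have := (hrem.add hlin).add_const (rtr (cfc f (X x)))
  rw [zero_add] at this
  refine this.congr (fun y _ => ?_) ?_ <;> simp

theorem hasDerivAt_rtr_cfc {X : ℝ → Mat n n} {X' : Mat n n} {x : ℝ} (hX : HasDerivAt X X' x)
    {S : Set ℝ} (hH : ∀ᶠ y in nhds x, (X y).IsHermitian ∧ spectrum ℝ (X y) ⊆ S)
    {f f' : ℝ → ℝ} {C : ℝ} (hf : ∀ a ∈ S, ∀ b ∈ S, |f a - f b - f' b * (a - b)| ≤ C * (a - b) ^ 2) :
    HasDerivAt (fun y => rtr (cfc f (X y))) (rtr (cfc f' (X x) * X')) x := by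
  rw [← hasDerivWithinAt_univ] at hX ⊢
  exact hasDerivWithinAt_rtr_cfc hX (by simpa using hH) hH.self_of_nhds hf

/-! ### the band `-K ≤ F ≤ K` -/

namespace Band
variable {K F : Mat n n}

lemma psd (h : Band K F) : K.PosSemidef := by
  have h1 := (h.1.add h.2).smul (a := (1 / 2 : ℝ)) (by norm_num)
  have e : (1 / 2 : ℝ) • (K - F + (K + F)) = K := by
    rw [show K - F + (K + F) = (2 : ℝ) • K by rw [two_smul]; abel, smul_smul]; norm_num
  rwa [e] at h1

lemma hermF (h : Band K F) : F.IsHermitian := by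
  have := h.2.1.sub h.psd.1
  simpa using this

lemma neg (h : Band K F) : Band K (-F) := ⟨by simpa using h.2, by simpa [sub_eq_add_neg] using h.1⟩

lemma norm_le (h : Band K F) : ‖F‖ ≤ ‖K‖ := by
  have hK := psd_sub_of_spec' h.psd.1 (c := ‖K‖) fun x hx => (le_abs_self x).trans (spec_abs_le _ hx)
  refine norm_le_of_spec h.hermF (norm_nonneg _) fun x hx => abs_le.2 ⟨?_, ?_⟩
  · refine le_spec_of_le h.hermF ?_ hx
    have := hK.add h.2
    rwa [show ‖K‖ • (1 : Mat n n) - K + (K + F) = F - (-‖K‖) • (1 : Mat n n) by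
      rw [neg_smul]; abel] at this
  · refine spec_le_of_le h.hermF ?_ hx
    have := hK.add h.1
    rwa [show ‖K‖ • (1 : Mat n n) - K + (K - F) = ‖K‖ • (1 : Mat n n) - F by abel] at this

lemma hermU (h : Band K F) : (UU K F).IsHermitian := by
  unfold UU
  refine IsHermitian.sub ?_ ?_
  · simpa [h.psd.1.eq] using isHermitian_conjTranspose_mul_self K
  · simpa [h.hermF.eq] using isHermitian_conjTranspose_mul_self F

lemma rtr_UU_nonneg (h : Band K F) : 0 ≤ rtr (UU K F) := by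
  have := rtr_mul_nonneg h.1 h.2
  simp only [Matrix.sub_mul, Matrix.mul_add, rtr_sub, rtr_add, rtr_mul_comm F K] at this
  rw [UU, rtr_sub]; linarith

/-- the spectrum of `k + F` lies in `[λ / (2 √(c² + λ)), 2 √(c² + λ)]` when `‖K‖ ≤ c`. -/
lemma spec_add (h : Band K F) {c l : ℝ} (hc : ‖K‖ ≤ c) (hl : 0 < l) :
    spectrum ℝ (kk K l + F) ⊆ Set.Icc (l / (2 * √(c ^ 2 + l))) (2 * √(c ^ 2 + l)) := by
  have hK := h.psd
  have hc0 : 0 ≤ c := (norm_nonneg _).trans hc
  have hH : (kk K l + F).IsHermitian := (cfc_herm _ _).add h.hermF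
  have hr : 0 < √(c ^ 2 + l) := Real.sqrt_pos.2 (by positivity)
  have hcr : c ≤ √(c ^ 2 + l) := Real.le_sqrt_of_sq_le (by linarith)
  have hsq : ∀ t ∈ spectrum ℝ K, √(t ^ 2 + l) ≤ √(c ^ 2 + l) := fun t ht =>
    Real.sqrt_le_sqrt (by
      have := (spec_abs_le _ ht).trans hc
      nlinarith [sq_abs t, abs_nonneg t])
  intro x hx
  constructor
  · refine le_spec_of_le hH ?_ hx
    have h1 : (cfc (fun t : ℝ => √(t ^ 2 + l) - t - l / (2 * √(c ^ 2 + l))) K).PosSemidef :=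
      cfc_psd fun t ht => by
        have ht0 := spec_nonneg hK ht
        have htc : t ≤ c := (le_abs_self t).trans ((spec_abs_le _ ht).trans hc)
        have h2 := hsq t ht
        have h3 : √(t ^ 2 + l) ^ 2 = t ^ 2 + l := Real.sq_sqrt (by positivity)
        have h4 : t ≤ √(t ^ 2 + l) := Real.le_sqrt_of_sq_le (by linarith)
        rw [sub_nonneg, div_le_iff₀ (by positivity)]
        nlinarith
    rw [cfc_sub', cfc_sub', cfc_id'' hK.1, cfc_const' _ hK.1] at h1
    have := h1.add h.2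
    convert this using 1
    unfold kk; abel
  · refine spec_le_of_le hH ?_ hx
    have h1 : (cfc (fun t : ℝ => 2 * √(c ^ 2 + l) - √(t ^ 2 + l) - t) K).PosSemidef :=
      cfc_psd fun t ht => by
        have htc : t ≤ c := (le_abs_self t).trans ((spec_abs_le _ ht).trans hc)
        have h2 := hsq t ht
        linarith
    rw [cfc_sub', cfc_sub', cfc_id'' hK.1, cfc_const' _ hK.1] at h1
    have := h1.add h.1
    convert this using 1
    unfold kk; abel

lemma spec_sub (h : Band K F) {c l : ℝ} (hc : ‖K‖ ≤ c) (hl : 0 < l) :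
    spectrum ℝ (kk K l - F) ⊆ Set.Icc (l / (2 * √(c ^ 2 + l))) (2 * √(c ^ 2 + l)) := by
  simpa [sub_eq_add_neg] using h.neg.spec_add hc hl

lemma herm_add (h : Band K F) (l : ℝ) : (kk K l + F).IsHermitian := (cfc_herm _ _).add h.hermF

lemma herm_sub (h : Band K F) (l : ℝ) : (kk K l - F).IsHermitian := (cfc_herm _ _).sub h.hermF

end Band

lemma band_self {K : Mat n n} (hK : K.PosSemidef) : Band K K :=
  ⟨by simpa using PosSemidef.zero, hK.add hK⟩

lemma kk_herm (K : Mat n n) (l : ℝ) : (kk K l).IsHermitian := cfc_herm _ _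

lemma kk_mul_self {K : Mat n n} (hK : K.IsHermitian) {l : ℝ} (hl : 0 ≤ l) :
    kk K l * kk K l = K * K + l • (1 : Mat n n) := by
  rw [kk, ← cfc_mul', cfc_congr' (g := fun t => t * t + l) fun t _ => by
    rw [Real.mul_self_sqrt (by positivity), sq], cfc_add', cfc_mul', cfc_id'' hK, cfc_const' _ hK]

lemma norm_kk_le {K : Mat n n} {c l : ℝ} (hc : ‖K‖ ≤ c) : ‖kk K l‖ ≤ √(c ^ 2 + l) := by
  refine norm_cfc_le' (Real.sqrt_nonneg _) fun t ht => ?_
  rw [abs_of_nonneg (Real.sqrt_nonneg _)]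
  refine Real.sqrt_le_sqrt ?_
  have := (spec_abs_le _ ht).trans hc
  nlinarith [sq_abs t, abs_nonneg t]

lemma LL_herm (K F : Mat n n) (l : ℝ) : (LL K F l).IsHermitian := by
  refine ((cfc_herm _ _).add (cfc_herm _ _)).sub ?_
  rw [← cfc_const' _ (isHermitian_zero (n := Fin n) (α := ℂ))]; exact cfc_herm _ _

/-- joint continuity of `k` and `L` -/
theorem continuous_kk {T : Type*} [TopologicalSpace T] (K : Mat n n) {l : T → ℝ}
    (hl : Continuous l) : Continuous fun t => kk K (l t) := by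
  by_cases hK : K.IsHermitian
  · simp only [kk, cfc_eq_diag hK]
    refine (continuous_const.matrix_mul (Continuous.matrix_diagonal ?_)).matrix_mul continuous_const
    fun_prop
  · have : ∀ t, kk K (l t) = 0 := fun t => cfc_apply_of_not_predicate K hK
    simp only [this]; exact continuous_const

theorem continuous_LL {T : Type*} [TopologicalSpace T] {K : Mat n n} {F : T → Mat n n} {l : T → ℝ}
    (hF : Continuous F) (hl : Continuous l) (hb : ∀ t, Band K (F t)) (hl0 : ∀ t, 0 < l t) :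
    Continuous fun t => LL K (F t) (l t) := by
  have key : ∀ {G : T → Mat n n}, Continuous G → (∀ t, Band K (G t)) →
      Continuous fun t => cfc Real.log (kk K (l t) + G t) := by
    intro G hG hGb
    refine continuous_cfc_of ((continuous_kk K hl).add hG) (fun t => (hGb t).herm_add _)
      isOpen_Ioi (Real.continuousOn_log.mono fun x hx => ne_of_gt hx) fun t x hx => ?_
    have := ((hGb t).spec_add le_rfl (hl0 t) hx).1
    have h0 := hl0 t
    have : 0 < l t / (2 * √(‖K‖ ^ 2 + l t)) := by positivity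
    exact lt_of_lt_of_le this ‹_›
  have h1 := key hF hb
  have h2 := key hF.neg fun t => (hb t).neg
  simp only [Pi.neg_apply, ← sub_eq_add_neg] at h2
  exact (h1.add h2).sub ((hl.log fun t => (hl0 t).ne').smul continuous_const)

namespace Data
variable {s : ℝ} (D : Data s m)

lemma cΦ : Continuous D.Φ := continuous_iff_continuousAt.2 fun x => (D.hΦ x).continuousAt

lemma cF : Continuous D.F := continuous_iff_continuousAt.2 fun x => (D.hF x).continuousAt

lemma psdK : D.K.PosSemidef := (D.band 0).psd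

lemma psdM (x : ℝ) : (D.M x).PosSemidef := mpow_psd (posSemidef_conjTranspose_mul_self _) _

lemma psdρ (x : ℝ) : (D.ρ x).PosSemidef := posSemidef_self_mul_conjTranspose _

lemma cM (hs : 0 < s) : Continuous D.M :=
  continuous_mpow (D.cΦ.matrix_conjTranspose.matrix_mul D.cΦ)
    (fun _ => isHermitian_conjTranspose_mul_self _) (inv_nonneg.2 hs.le)

lemma M_zero (hs : 0 < s) {x : ℝ} (hx : D.L ≤ |x|) : D.M x = 0 := by
  rw [M, D.supp x hx]; simpa using mpow_zero_left (inv_ne_zero hs.ne')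

lemma U_zero {x : ℝ} (hx : D.L ≤ |x|) : UU D.K (D.F x) = 0 := by
  rcases le_abs.1 hx with h | h
  · rw [D.right x h]; simp [UU]
  · rw [D.left x (by linarith)]; simp [UU]

/-- `tr M^{p} = tr ρ^{p'}`. -/
lemma rtr_M_pow (hs : 0 < s) (x : ℝ) :
    rtr (mpow (D.M x) (s + 1)) = rtr (mpow (D.ρ x) ((s + 1) / s)) := by
  rw [M, mpow_mpow (posSemidef_conjTranspose_mul_self _), ρ, mpow, mpow,
    rtr_cfc_swap _ (fun t => t ^ ((s + 1) / s)) (Real.zero_rpow (by positivity)), div_eq_inv_mul]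

end Data

lemma Data.d1_nonneg {s : ℝ} (hs : 0 < s) (hs1 : s < 1) {m : ℕ} (D : Data s m) {W : ℝ → Mat m m}
    (hWp : ∀ x, (W x).PosSemidef) (x : ℝ) : 0 ≤ D.d1 W x := by
  have h := young_stab hs hs1.le (hWp x) (D.psdρ x)
  rw [← D.rtr_M_pow hs] at h
  exact le_trans (mul_nonneg (by positivity) (fro2_nonneg _)) h

end Crest.Agent.R332
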