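import Crest.Agent.R332.Basic

/-! Boundary terms of the λ-integration. -/

set_option autoImplicit false
open scoped Matrix.Norms.L2Operator ComplexOrder MatrixOrder Topology
open Matrix MeasureTheory Filter Set
open Crest.MathPhysics.LiebThirring

namespace Crest.Agent.R332

lemma bd_norm_UU {n : ℕ} {K F : Mat n n} (h : Band K F) : ‖UU K F‖ ≤ 2 * ‖K‖ ^ 2 := by
  have h1 := h.norm_le
  have h2 : ‖K * K‖ ≤ ‖K‖ * ‖K‖ := norm_mul_le' _ _
  have h3 : ‖F * F‖ ≤ ‖F‖ * ‖F‖ := norm_mul_le' _ _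
  have h4 : ‖F‖ * ‖F‖ ≤ ‖K‖ * ‖K‖ := mul_self_le_mul_self (norm_nonneg _) h1
  have h5 : ‖UU K F‖ ≤ ‖K * K‖ + ‖F * F‖ := norm_sub_le _ _
  nlinarith

lemma bd_norm_smul_one {n : ℕ} (c : ℝ) : ‖c • (1 : Mat n n)‖ ≤ |c| := by
  rw [norm_smul, Real.norm_eq_abs]
  exact mul_le_of_le_one_right (abs_nonneg _) norm_one_le

lemma bd_abs_log_le {l r R x : ℝ} (hl : 0 < l) (hr : 0 < r) (hrR : r ≤ R)
    (hx : x ∈ Icc (l / (2 * r)) (2 * r)) : |Real.log x| ≤ |Real.log l| + Real.log (2 * R) := by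
  have h0 : 0 < l / (2 * r) := by positivity
  have hx0 : 0 < x := lt_of_lt_of_le h0 hx.1
  have h1 : Real.log (2 * r) ≤ Real.log (2 * R) :=
    Real.log_le_log (by positivity) (by linarith)
  have h2 : Real.log x ≤ Real.log (2 * r) := Real.log_le_log hx0 hx.2
  have h3 : Real.log (l / (2 * r)) ≤ Real.log x := Real.log_le_log h0 hx.1
  rw [Real.log_div hl.ne' (by positivity)] at h3
  have h4 := neg_abs_le (Real.log l)
  have h5 := abs_nonneg (Real.log l)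
  rw [abs_le]; constructor <;> linarith

theorem boundary_zero {s : ℝ} (hs : 0 < s) {n : ℕ} (K : Mat n n) {ε : ℝ} (hε : 0 < ε) :
    ∀ᶠ l in 𝓝[>] (0 : ℝ), ∀ F, Band K F → HH s K F l ≤ ε := by
  set R : ℝ := √(‖K‖ ^ 2 + 1) with hR
  have hR1 : 1 ≤ R := by
    rw [hR]; apply Real.le_sqrt_of_sq_le; nlinarith [sq_nonneg ‖K‖]
  set A : ℝ := Real.log (2 * R) with hA
  have hA0 : 0 ≤ A := Real.log_nonneg (by linarith)
  set B : ℝ := n * (2 * ‖K‖ ^ 2 + 1) with hB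
  have hB0 : 0 ≤ B := by positivity
  have t1 : Tendsto (fun l : ℝ => |Real.log l * l ^ s|) (𝓝[>] 0) (𝓝 0) := by
    simpa using (tendsto_log_mul_rpow_nhdsGT_zero hs).abs
  have t2 : Tendsto (fun l : ℝ => l ^ s) (𝓝[>] 0) (𝓝 0) := by
    have := (Real.continuousAt_rpow_const 0 s (Or.inr hs.le)).tendsto
    rw [Real.zero_rpow hs.ne'] at this
    exact this.mono_left nhdsWithin_le_nhds
  have t3 : Tendsto (fun l : ℝ => B * (3 * |Real.log l * l ^ s| + 2 * A * l ^ s)) (𝓝[>] 0)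
      (𝓝 0) := by
    simpa using ((t1.const_mul 3).add (t2.const_mul (2 * A))).const_mul B
  have e1 : ∀ᶠ l in 𝓝[>] (0 : ℝ), l ∈ Ioc (0 : ℝ) 1 := Ioc_mem_nhdsGT one_pos
  filter_upwards [e1, t3.eventually (ge_mem_nhds hε)] with l hl hle F hF
  have hl0 : 0 < l := hl.1
  have hr0 : 0 < √(‖K‖ ^ 2 + l) := Real.sqrt_pos.2 (by positivity)
  have hrR : √(‖K‖ ^ 2 + l) ≤ R := Real.sqrt_le_sqrt (by linarith [hl.2])
  have c0 : 0 ≤ |Real.log l| + A := by positivity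
  have n1 : ‖cfc Real.log (kk K l + F)‖ ≤ |Real.log l| + A :=
    norm_cfc_le' c0 fun x hx => bd_abs_log_le hl0 hr0 hrR (hF.spec_add le_rfl hl0 hx)
  have n2 : ‖cfc Real.log (kk K l - F)‖ ≤ |Real.log l| + A :=
    norm_cfc_le' c0 fun x hx => bd_abs_log_le hl0 hr0 hrR (hF.spec_sub le_rfl hl0 hx)
  have n3 : ‖LL K F l‖ ≤ 3 * |Real.log l| + 2 * A := by
    have a1 : ‖LL K F l‖ ≤ ‖cfc Real.log (kk K l + F) + cfc Real.log (kk K l - F)‖ +
        ‖(Real.log l) • (1 : Mat n n)‖ := norm_sub_le _ _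
    have a2 := norm_add_le (cfc Real.log (kk K l + F)) (cfc Real.log (kk K l - F))
    have a3 := bd_norm_smul_one (n := n) (Real.log l)
    linarith
  have n4 : ‖UU K F + l • (1 : Mat n n)‖ ≤ 2 * ‖K‖ ^ 2 + 1 := by
    have a1 := norm_add_le (UU K F) (l • (1 : Mat n n))
    have a2 := bd_norm_smul_one (n := n) l
    have a3 := bd_norm_UU hF
    rw [abs_of_pos hl0] at a2
    linarith [hl.2]
  have n5 : JJ K F l ≤ B * (3 * |Real.log l| + 2 * A) := by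
    have a1 := abs_rtr_le (LL K F l * (UU K F + l • (1 : Mat n n)))
    have a2 := norm_mul_le' (LL K F l) (UU K F + l • (1 : Mat n n))
    have a3 : ‖LL K F l‖ * ‖UU K F + l • (1 : Mat n n)‖ ≤
        (3 * |Real.log l| + 2 * A) * (2 * ‖K‖ ^ 2 + 1) :=
      mul_le_mul n3 n4 (norm_nonneg _) (by positivity)
    have a4 : (n : ℝ) * ‖LL K F l * (UU K F + l • (1 : Mat n n))‖ ≤
        n * ((3 * |Real.log l| + 2 * A) * (2 * ‖K‖ ^ 2 + 1)) :=
      mul_le_mul_of_nonneg_left (a2.trans a3) (Nat.cast_nonneg _)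
    have a5 := le_abs_self (rtr (LL K F l * (UU K F + l • (1 : Mat n n))))
    calc JJ K F l ≤ n * ((3 * |Real.log l| + 2 * A) * (2 * ‖K‖ ^ 2 + 1)) := a5.trans (a1.trans a4)
      _ = B * (3 * |Real.log l| + 2 * A) := by rw [hB]; ring
  have hp : 0 ≤ l ^ s := Real.rpow_nonneg hl0.le s
  have n6 : JJ K F l - rtr (UU K F) ≤ B * (3 * |Real.log l| + 2 * A) := by
    linarith [hF.rtr_UU_nonneg]
  calc HH s K F l ≤ l ^ s * (B * (3 * |Real.log l| + 2 * A)) := mul_le_mul_of_nonneg_left n6 hp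
    _ = B * (3 * |Real.log l * l ^ s| + 2 * A * l ^ s) := by
        rw [abs_mul, abs_of_nonneg hp]; ring
    _ ≤ ε := hle

/-- scalar Taylor bounds for the logarithm -/
lemma bd_log1 {σ C t : ℝ} (hσ : 0 < σ) (hC : 2 * C ≤ σ) (ht : |t - σ| ≤ C) :
    |Real.log t - Real.log σ - σ⁻¹ * (t - σ)| ≤ 2 * C ^ 2 / σ ^ 2 := by
  set x : ℝ := -(σ⁻¹ * (t - σ)) with hx
  have hC0 : 0 ≤ C := (abs_nonneg _).trans ht
  have hxa : |x| ≤ C / σ := by
    rw [hx, abs_neg, abs_mul, abs_of_pos (inv_pos.2 hσ), div_eq_inv_mul]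
    exact mul_le_mul_of_nonneg_left ht (inv_pos.2 hσ).le
  have hh : C / σ ≤ 1 / 2 := by rw [div_le_iff₀ hσ]; linarith
  have hx1 : |x| < 1 := by linarith
  have ht0 : 0 < t := by have := (abs_le.1 ht).1; linarith
  have e : 1 - x = t / σ := by rw [hx]; field_simp; ring
  have := Real.abs_log_sub_add_sum_range_le hx1 1
  rw [e, Real.log_div ht0.ne' hσ.ne'] at this
  simp only [Finset.range_one, Finset.sum_singleton, zero_add, pow_one, Nat.cast_zero, div_one]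
    at this
  have e2 : Real.log t - Real.log σ - σ⁻¹ * (t - σ) = x + (Real.log t - Real.log σ) := by
    rw [hx]; ring
  rw [e2]
  refine this.trans ?_
  rw [div_le_iff₀ (by linarith)]
  have h2 : |x| ^ 2 ≤ (C / σ) ^ 2 := pow_le_pow_left₀ (abs_nonneg _) hxa 2
  have h3 : 2 * C ^ 2 / σ ^ 2 = 2 * (C / σ) ^ 2 := by ring
  rw [h3]
  norm_num
  rw [← sq_abs x]
  nlinarith [sq_nonneg (C / σ)]

lemma bd_log3 {σ C t : ℝ} (hσ : 0 < σ) (hC : 2 * C ≤ σ) (ht : |t - σ| ≤ C) :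
    |Real.log t - Real.log σ - σ⁻¹ * (t - σ) + (2 * σ ^ 2)⁻¹ * ((t - σ) * (t - σ)) -
      (3 * σ ^ 3)⁻¹ * ((t - σ) * (t - σ) * (t - σ))| ≤ 2 * C ^ 4 / σ ^ 4 := by
  set x : ℝ := -(σ⁻¹ * (t - σ)) with hx
  have hC0 : 0 ≤ C := (abs_nonneg _).trans ht
  have hxa : |x| ≤ C / σ := by
    rw [hx, abs_neg, abs_mul, abs_of_pos (inv_pos.2 hσ), div_eq_inv_mul]
    exact mul_le_mul_of_nonneg_left ht (inv_pos.2 hσ).le
  have hh : C / σ ≤ 1 / 2 := by rw [div_le_iff₀ hσ]; linarith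
  have hx1 : |x| < 1 := by linarith
  have ht0 : 0 < t := by have := (abs_le.1 ht).1; linarith
  have e : 1 - x = t / σ := by rw [hx]; field_simp; ring
  have := Real.abs_log_sub_add_sum_range_le hx1 3
  rw [e, Real.log_div ht0.ne' hσ.ne'] at this
  simp only [Finset.sum_range_succ, Finset.range_zero, Finset.sum_empty, zero_add, pow_one,
    Nat.cast_zero, div_one] at this
  have e2 : Real.log t - Real.log σ - σ⁻¹ * (t - σ) + (2 * σ ^ 2)⁻¹ * ((t - σ) * (t - σ)) -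
      (3 * σ ^ 3)⁻¹ * ((t - σ) * (t - σ) * (t - σ)) =
      x + x ^ (1 + 1) / (((1 : ℕ) : ℝ) + 1) + x ^ (2 + 1) / (((2 : ℕ) : ℝ) + 1) +
        (Real.log t - Real.log σ) := by
    rw [hx]; push_cast; field_simp; ring
  rw [e2]
  refine this.trans ?_
  rw [div_le_iff₀ (by linarith)]
  have h2 : |x| ^ 4 ≤ (C / σ) ^ 4 := pow_le_pow_left₀ (abs_nonneg _) hxa 4
  have h3 : 2 * C ^ 4 / σ ^ 4 = 2 * (C / σ) ^ 4 := by ring
  rw [h3]
  have h4 : 0 ≤ (C / σ) ^ 4 := by positivity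
  nlinarith

/-- matrix Taylor bounds for the logarithm -/
lemma bd_mlog {n : ℕ} {X : Mat n n} (hX : X.IsHermitian) {σ C : ℝ} (hσ : 0 < σ) (hC : 2 * C ≤ σ)
    (hn : ‖X‖ ≤ C) :
    ‖cfc Real.log (σ • (1 : Mat n n) + X) - Real.log σ • (1 : Mat n n) - σ⁻¹ • X‖ ≤
        2 * C ^ 2 / σ ^ 2 ∧
      ‖cfc Real.log (σ • (1 : Mat n n) + X) - Real.log σ • (1 : Mat n n) - σ⁻¹ • X +
        (2 * σ ^ 2)⁻¹ • (X * X) - (3 * σ ^ 3)⁻¹ • (X * X * X)‖ ≤ 2 * C ^ 4 / σ ^ 4 := by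
  have e0 : σ • (1 : Mat n n) + X = cfc (fun t : ℝ => σ + t) X := by
    rw [cfc_add', cfc_const' σ hX, cfc_id'' hX]
  have e1 : cfc Real.log (σ • (1 : Mat n n) + X) = cfc (fun t : ℝ => Real.log (σ + t)) X := by
    rw [e0, cfc_cfc _ _ hX]
  have hsp : ∀ t ∈ spectrum ℝ X, |σ + t - σ| ≤ C := fun t ht => by
    rw [add_sub_cancel_left]; exact (spec_abs_le X ht).trans hn
  constructor
  · have e : cfc Real.log (σ • (1 : Mat n n) + X) - Real.log σ • (1 : Mat n n) - σ⁻¹ • X =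
        cfc (fun t : ℝ => Real.log (σ + t) - Real.log σ - σ⁻¹ * t) X := by
      rw [cfc_sub', cfc_sub', cfc_const_mul', cfc_const' _ hX, cfc_id'' hX, e1]
    rw [e]
    refine norm_cfc_le' (by positivity) fun t ht => ?_
    simpa using bd_log1 hσ hC (hsp t ht)
  · have e : cfc Real.log (σ • (1 : Mat n n) + X) - Real.log σ • (1 : Mat n n) - σ⁻¹ • X +
        (2 * σ ^ 2)⁻¹ • (X * X) - (3 * σ ^ 3)⁻¹ • (X * X * X) =
        cfc (fun t : ℝ => Real.log (σ + t) - Real.log σ - σ⁻¹ * t + (2 * σ ^ 2)⁻¹ * (t * t) -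
          (3 * σ ^ 3)⁻¹ * (t * t * t)) X := by
      rw [cfc_sub', cfc_add', cfc_sub', cfc_sub', cfc_const_mul', cfc_const_mul', cfc_const_mul',
        cfc_mul', cfc_mul' (fun t => t * t), cfc_mul', cfc_const' _ hX, cfc_id'' hX, e1]
    rw [e]
    refine norm_cfc_le' (by positivity) fun t ht => ?_
    have := bd_log3 hσ hC (hsp t ht)
    simp only [add_sub_cancel_left] at this
    exact this

lemma bd_top_bound {n : ℕ} {K F : Mat n n} (hF : Band K F) {l : ℝ} (hl1 : 1 ≤ l)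
    (hl : 2 * (‖K‖ ^ 2 + ‖K‖) ≤ √l) :
    -((n : ℝ) * (16 * (‖K‖ ^ 2 + ‖K‖ + 1) ^ 4) / l) ≤ JJ K F l - rtr (UU K F) := by
  have hK := hF.psd
  have hl0 : 0 < l := by linarith
  set σ : ℝ := √l with hσ
  have hσ1 : 1 ≤ σ := Real.le_sqrt_of_sq_le (by linarith)
  have hσ0 : 0 < σ := by linarith
  have hσ2 : σ ^ 2 = l := Real.sq_sqrt hl0.le
  set κ : ℝ := ‖K‖ with hκ
  have hκ0 : 0 ≤ κ := norm_nonneg _
  set C : ℝ := κ ^ 2 + κ with hC
  have hC0 : 0 ≤ C := by positivity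
  set D : Mat n n := kk K l - σ • (1 : Mat n n) with hD
  have eD : D = cfc (fun t : ℝ => √(t ^ 2 + l) - σ) K := by
    rw [cfc_sub', cfc_const' _ hK.1]; rfl
  have hDh : D.IsHermitian := by rw [eD]; exact cfc_herm _ _
  have nD : ‖D‖ ≤ κ ^ 2 / σ := by
    rw [eD]
    refine norm_cfc_le' (by positivity) fun t ht => ?_
    have h1 : |t| ≤ κ := spec_abs_le K ht
    have h2 : t ^ 2 ≤ κ ^ 2 := by rw [← sq_abs]; exact pow_le_pow_left₀ (abs_nonneg _) h1 2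
    have h3 : σ ≤ √(t ^ 2 + l) := Real.sqrt_le_sqrt (by nlinarith [sq_nonneg t])
    have h4 : √(t ^ 2 + l) ≤ σ + κ ^ 2 / σ := by
      apply Real.sqrt_le_iff.2 ⟨by positivity, ?_⟩
      have : (σ + κ ^ 2 / σ) ^ 2 = σ ^ 2 + 2 * κ ^ 2 + (κ ^ 2 / σ) ^ 2 := by field_simp; ring
      rw [this]; nlinarith [sq_nonneg (κ ^ 2 / σ), sq_nonneg κ]
    rw [abs_of_nonneg (by linarith)]; linarith
  have nF : ‖F‖ ≤ κ := hF.norm_le
  have nU : ‖UU K F‖ ≤ 2 * κ ^ 2 := bd_norm_UU hF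
  clear_value D C κ σ
  have nD' : ‖D‖ ≤ κ ^ 2 := nD.trans (div_le_self (by positivity) hσ1)
  have ek : kk K l = σ • (1 : Mat n n) + D := by rw [hD]; abel
  have ea : kk K l + F = σ • (1 : Mat n n) + (D + F) := by rw [ek]; abel
  have eb : kk K l - F = σ • (1 : Mat n n) + (D - F) := by rw [ek]; abel
  have na : ‖D + F‖ ≤ C := (norm_add_le _ _).trans (by linarith)
  have nb : ‖D - F‖ ≤ C := (norm_sub_le _ _).trans (by linarith)
  obtain ⟨a1, a3⟩ := bd_mlog (hDh.add hF.hermF) hσ0 hl na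
  obtain ⟨b1, b3⟩ := bd_mlog (hDh.sub hF.hermF) hσ0 hl nb
  rw [← ea] at a1 a3
  rw [← eb] at b1 b3
  set La := cfc Real.log (kk K l + F) with hLa
  set Lb := cfc Real.log (kk K l - F) with hLb
  have elog : Real.log l = 2 * Real.log σ := by
    rw [← hσ2, Real.log_pow]; norm_num
  have eL : LL K F l = La + Lb - (2 * Real.log σ) • (1 : Mat n n) := by
    rw [LL, elog]
  clear_value La Lb
  -- norm of `L`
  have nL : ‖LL K F l‖ ≤ (2 * κ ^ 2 + 4 * C ^ 2) / l := by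
    have e : LL K F l = (La - Real.log σ • (1 : Mat n n) - σ⁻¹ • (D + F)) +
        (Lb - Real.log σ • (1 : Mat n n) - σ⁻¹ • (D - F)) + (2 * σ⁻¹) • D := by
      rw [eL]; module
    have h1 : ‖(2 * σ⁻¹) • D‖ ≤ 2 * κ ^ 2 / σ ^ 2 := by
      rw [norm_smul, Real.norm_eq_abs, abs_of_pos (by positivity)]
      calc 2 * σ⁻¹ * ‖D‖ ≤ 2 * σ⁻¹ * (κ ^ 2 / σ) := by gcongr
        _ = 2 * κ ^ 2 / σ ^ 2 := by field_simp
    rw [e]
    refine (norm_add₃_le).trans ?_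
    rw [← hσ2]
    have : (2 * κ ^ 2 + 4 * C ^ 2) / σ ^ 2 =
        2 * C ^ 2 / σ ^ 2 + 2 * C ^ 2 / σ ^ 2 + 2 * κ ^ 2 / σ ^ 2 := by ring
    rw [this]; linarith
  -- the algebraic identity `2σ D + D² = K²`
  have eK : K * K = (2 * σ) • D + D * D := by
    have h1 := kk_mul_self hK.1 hl0.le
    rw [ek] at h1
    have h2 : (σ • (1 : Mat n n) + D) * (σ • (1 : Mat n n) + D) =
        (σ ^ 2) • (1 : Mat n n) + ((2 * σ) • D + D * D) := by
      simp only [Matrix.add_mul, Matrix.mul_add, Matrix.smul_mul, Matrix.mul_smul, Matrix.one_mul,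
        Matrix.mul_one]
      module
    rw [h2, hσ2, add_comm] at h1
    exact (add_right_cancel h1).symm
  set Ea := La - Real.log σ • (1 : Mat n n) - σ⁻¹ • (D + F) +
    (2 * σ ^ 2)⁻¹ • ((D + F) * (D + F)) - (3 * σ ^ 3)⁻¹ • ((D + F) * (D + F) * (D + F)) with hEa
  set Eb := Lb - Real.log σ • (1 : Mat n n) - σ⁻¹ • (D - F) +
    (2 * σ ^ 2)⁻¹ • ((D - F) * (D - F)) - (3 * σ ^ 3)⁻¹ • ((D - F) * (D - F) * (D - F)) with hEb
  set T : Mat n n := D * D * D + D * F * F + F * D * F + F * F * D with hT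
  clear_value Ea Eb T
  have eM : l • LL K F l - UU K F =
      l • (Ea + Eb) - (2 : ℝ) • (D * D) + (2 / (3 * σ)) • T := by
    have q2 : (D + F) * (D + F) + (D - F) * (D - F) = (2 : ℝ) • (D * D) + (2 : ℝ) • (F * F) := by
      simp only [Matrix.add_mul, Matrix.mul_add, Matrix.sub_mul, Matrix.mul_sub]
      module
    have q3 : (D + F) * (D + F) * (D + F) + (D - F) * (D - F) * (D - F) = (2 : ℝ) • T := by
      simp only [hT, Matrix.add_mul, Matrix.mul_add, Matrix.sub_mul, Matrix.mul_sub]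
      module
    have e1 : Ea + Eb = LL K F l - (2 * σ⁻¹) • D +
        (2 * σ ^ 2)⁻¹ • ((D + F) * (D + F) + (D - F) * (D - F)) -
        (3 * σ ^ 3)⁻¹ • ((D + F) * (D + F) * (D + F) + (D - F) * (D - F) * (D - F)) := by
      rw [hEa, hEb, eL]; module
    rw [e1, q2, q3, UU, eK, ← hσ2]
    have c1 : σ ^ 2 * (2 * σ⁻¹) = 2 * σ := by field_simp
    have c2 : σ ^ 2 * ((2 * σ ^ 2)⁻¹ * 2) = 1 := by field_simp
    have c3 : σ ^ 2 * ((3 * σ ^ 3)⁻¹ * 2) = 2 / (3 * σ) := by field_simp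
    simp only [smul_add, smul_sub, smul_smul, c1, c2, c3]
    module
  have nDD : ‖D * D‖ ≤ κ ^ 4 / l := by
    calc ‖D * D‖ ≤ ‖D‖ * ‖D‖ := norm_mul_le' _ _
      _ ≤ (κ ^ 2 / σ) * (κ ^ 2 / σ) := mul_self_le_mul_self (norm_nonneg _) nD
      _ = κ ^ 4 / l := by rw [← hσ2]; field_simp
  have n3 : ∀ X Y Z : Mat n n, ‖X * Y * Z‖ ≤ ‖X‖ * ‖Y‖ * ‖Z‖ := fun X Y Z =>
    (norm_mul_le' _ _).trans (mul_le_mul_of_nonneg_right (norm_mul_le' _ _) (norm_nonneg _))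
  have nDC : ‖D‖ ≤ C := by linarith
  have nFC : ‖F‖ ≤ C := by linarith [sq_nonneg κ]
  have nT : ‖T‖ ≤ 4 * (κ ^ 2 / σ * C ^ 2) := by
    have d0 := norm_nonneg D
    have f0 := norm_nonneg F
    have k0 : 0 ≤ κ ^ 2 / σ := by positivity
    have t1 : ‖D * D * D‖ ≤ κ ^ 2 / σ * C ^ 2 := (n3 _ _ _).trans (by
      calc ‖D‖ * ‖D‖ * ‖D‖ ≤ κ ^ 2 / σ * C * C := by gcongr
        _ = _ := by ring)
    have t2 : ‖D * F * F‖ ≤ κ ^ 2 / σ * C ^ 2 := (n3 _ _ _).trans (by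
      calc ‖D‖ * ‖F‖ * ‖F‖ ≤ κ ^ 2 / σ * C * C := by gcongr
        _ = _ := by ring)
    have t3 : ‖F * D * F‖ ≤ κ ^ 2 / σ * C ^ 2 := (n3 _ _ _).trans (by
      calc ‖F‖ * ‖D‖ * ‖F‖ ≤ C * (κ ^ 2 / σ) * C := by gcongr
        _ = _ := by ring)
    have t4 : ‖F * F * D‖ ≤ κ ^ 2 / σ * C ^ 2 := (n3 _ _ _).trans (by
      calc ‖F‖ * ‖F‖ * ‖D‖ ≤ C * C * (κ ^ 2 / σ) := by gcongr
        _ = _ := by ring)
    have s1 := norm_add_le (D * D * D + D * F * F + F * D * F) (F * F * D)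
    have s2 := norm_add_le (D * D * D + D * F * F) (F * D * F)
    have s3 := norm_add_le (D * D * D) (D * F * F)
    rw [hT]; linarith
  set Q : ℝ := C + 1 with hQ
  clear_value Q
  have nM : ‖l • LL K F l - UU K F‖ ≤ (4 * C ^ 4 + 2 * κ ^ 4 + 3 * (κ ^ 2 * C ^ 2)) / l := by
    rw [eM]
    have h1 : ‖l • (Ea + Eb)‖ ≤ 4 * C ^ 4 / l := by
      rw [norm_smul, Real.norm_eq_abs, abs_of_pos hl0]
      have := norm_add_le Ea Eb
      calc l * ‖Ea + Eb‖ ≤ l * (2 * C ^ 4 / σ ^ 4 + 2 * C ^ 4 / σ ^ 4) := by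
            gcongr; linarith
        _ = 4 * C ^ 4 / l := by rw [← hσ2]; field_simp; ring
    have h2 : ‖(2 : ℝ) • (D * D)‖ ≤ 2 * κ ^ 4 / l := by
      rw [norm_smul, Real.norm_eq_abs, abs_of_pos two_pos, mul_div_assoc]
      linarith
    have h3 : ‖(2 / (3 * σ)) • T‖ ≤ 3 * (κ ^ 2 * C ^ 2) / l := by
      rw [norm_smul, Real.norm_eq_abs, abs_of_pos (by positivity)]
      calc 2 / (3 * σ) * ‖T‖ ≤ 2 / (3 * σ) * (4 * (κ ^ 2 / σ * C ^ 2)) := by gcongr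
        _ = 8 / 3 * (κ ^ 2 * C ^ 2) / l := by rw [← hσ2]; field_simp; ring
        _ ≤ 3 * (κ ^ 2 * C ^ 2) / l := by gcongr; norm_num
    have h4 := norm_add_le (l • (Ea + Eb) - (2 : ℝ) • (D * D)) ((2 / (3 * σ)) • T)
    have h5 := norm_sub_le (l • (Ea + Eb)) ((2 : ℝ) • (D * D))
    have : (4 * C ^ 4 + 2 * κ ^ 4 + 3 * (κ ^ 2 * C ^ 2)) / l =
        4 * C ^ 4 / l + 2 * κ ^ 4 / l + 3 * (κ ^ 2 * C ^ 2) / l := by ring
    rw [this]; linarith
  have nLU : ‖LL K F l * UU K F‖ ≤ (4 * κ ^ 4 + 8 * (κ ^ 2 * C ^ 2)) / l := by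
    calc ‖LL K F l * UU K F‖ ≤ ‖LL K F l‖ * ‖UU K F‖ := norm_mul_le' _ _
      _ ≤ (2 * κ ^ 2 + 4 * C ^ 2) / l * (2 * κ ^ 2) :=
          mul_le_mul nL nU (norm_nonneg _) (by positivity)
      _ = _ := by ring
  have eJ : JJ K F l - rtr (UU K F) = rtr (LL K F l * UU K F + (l • LL K F l - UU K F)) := by
    rw [JJ, rtr_add, rtr_sub, Matrix.mul_add, rtr_add, Matrix.mul_smul, Matrix.mul_one]; ring
  have nAll : ‖LL K F l * UU K F + (l • LL K F l - UU K F)‖ ≤ 16 * Q ^ 4 / l := by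
    refine (norm_add_le _ _).trans ((add_le_add nLU nM).trans ?_)
    rw [← add_div]
    gcongr
    have hκκ : κ ^ 2 ≤ C := by linarith
    have hκ4' : κ ^ 4 ≤ C ^ 2 := by
      calc κ ^ 4 = (κ ^ 2) ^ 2 := by ring
        _ ≤ C ^ 2 := pow_le_pow_left₀ (by positivity) hκκ 2
    have hκC' : κ ^ 2 * C ^ 2 ≤ C ^ 3 := by
      calc κ ^ 2 * C ^ 2 ≤ C * C ^ 2 := by gcongr
        _ = C ^ 3 := by ring
    have : Q ^ 4 = C ^ 4 + 4 * C ^ 3 + 6 * C ^ 2 + 4 * C + 1 := by rw [hQ]; ring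
    rw [this]
    linarith [pow_nonneg hC0 2, pow_nonneg hC0 3, pow_nonneg hC0 4]
  rw [eJ]
  have h1 := abs_rtr_le (LL K F l * UU K F + (l • LL K F l - UU K F))
  have h2 := neg_abs_le (rtr (LL K F l * UU K F + (l • LL K F l - UU K F)))
  have h3 : (n : ℝ) * ‖LL K F l * UU K F + (l • LL K F l - UU K F)‖ ≤ n * (16 * Q ^ 4 / l) :=
    mul_le_mul_of_nonneg_left nAll (Nat.cast_nonneg _)
  have h4 : (n : ℝ) * (16 * Q ^ 4) / l = n * (16 * Q ^ 4 / l) := by ring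
  rw [h4]; linarith

theorem boundary_top {s : ℝ} (hs1 : s < 1) {n : ℕ} (K : Mat n n) {ε : ℝ} (hε : 0 < ε) :
    ∀ᶠ l in atTop, ∀ F, Band K F → -ε ≤ HH s K F l := by
  set M : ℝ := (n : ℝ) * (16 * (‖K‖ ^ 2 + ‖K‖ + 1) ^ 4) with hM
  have t1 : Tendsto (fun l : ℝ => M * l ^ (-(1 - s))) atTop (𝓝 0) := by
    simpa using (tendsto_rpow_neg_atTop (sub_pos.2 hs1)).const_mul M
  have t2 : Tendsto (fun l : ℝ => √l) atTop atTop := Real.tendsto_sqrt_atTop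
  filter_upwards [t1.eventually (ge_mem_nhds hε), eventually_ge_atTop 1,
    t2.eventually_ge_atTop (2 * (‖K‖ ^ 2 + ‖K‖))] with l h1 h2 h3 F hF
  have hl0 : 0 < l := by linarith
  have hb := bd_top_bound hF h2 h3
  have hp : 0 ≤ l ^ s := Real.rpow_nonneg hl0.le s
  have e : l ^ s * -(M / l) = -(M * l ^ (-(1 - s))) := by
    rw [neg_sub, Real.rpow_sub_one hl0.ne']; field_simp
  calc -ε ≤ -(M * l ^ (-(1 - s))) := by linarith
    _ = l ^ s * -(M / l) := e.symm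
    _ ≤ HH s K F l := mul_le_mul_of_nonneg_left hb hp

end Crest.Agent.R332
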