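import Crest.Agent.R332.Basic

/-! Choice of the weights of the trial family. -/

set_option autoImplicit false
open scoped Matrix.Norms.L2Operator ComplexOrder MatrixOrder Topology
open Matrix MeasureTheory Filter Set
open Crest.MathPhysics.LiebThirring

namespace Crest.Agent.R332

/-- The trace inequality for a weight of product form `p(A) g(K*K)`. -/
lemma choice_key {n : ℕ} {A K : Mat n n} (hA : A.IsHermitian) (hK : K.PosSemidef) {γ c η : ℝ}
    (p g : ℝ → ℝ)
    (h : ∀ q : ℝ, 0 ≤ q → ∀ t : ℝ, 0 ≤ (c * q ^ γ + η) + (-c) * (max (-t) 0) ^ γ +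
      ((-1) * (g q * q * g q)) * (p t * p t) + ((-1) * (g q * g q)) * (p t * t * p t)) :
    c * negMoment A γ - n * η ≤ c * rtr (mpow K (2 * γ)) -
      rtr (K * K * ((cfc p A * cfc g (Kᴴ * K))ᴴ * (cfc p A * cfc g (Kᴴ * K)))) -
      rtr ((cfc p A * cfc g (Kᴴ * K))ᴴ * A * (cfc p A * cfc g (Kᴴ * K))) := by
  have hKK : Kᴴ * K = K * K := by rw [hK.1.eq]
  have hQ : (Kᴴ * K).PosSemidef := posSemidef_conjTranspose_mul_self K
  have hpow : mpow K (2 * γ) = cfc (fun q : ℝ => q ^ γ) (Kᴴ * K) := by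
    have e : Kᴴ * K = cfc (fun k : ℝ => k * k) K := by
      rw [cfc_mul', cfc_id'' hK.1, hKK]
    rw [e, cfc_cfc _ _ hK.1, mpow]
    refine cfc_congr' fun x hx => ?_
    rw [Real.rpow_mul (spec_nonneg hK hx), Real.rpow_two, sq]
  rw [← hKK, hpow]
  generalize Kᴴ * K = Q at hQ
  have hk := klein hQ.1 hA (fun q => c * q ^ γ + η) (fun t => (-c) * (max (-t) 0) ^ γ)
    (fun q => (-1) * (g q * q * g q)) (fun t => p t * p t) (fun q => (-1) * (g q * g q))
    (fun t => p t * t * p t) (fun x hx y _ => h x (spec_nonneg hQ hx) y)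
  rw [cfc_add', cfc_const_mul', cfc_const' η hQ.1, cfc_const_mul', cfc_const_mul',
    cfc_const_mul', cfc_mul', cfc_mul', cfc_mul', cfc_mul', cfc_mul', cfc_mul', cfc_id'' hQ.1,
    cfc_id'' hA, rtr_add, rtr_smul, rtr_smul, rtr_smul, rtr_one, Matrix.smul_mul, Matrix.smul_mul,
    rtr_smul, rtr_smul] at hk
  rw [conjTranspose_mul, (cfc_herm p A).eq, (cfc_herm g Q).eq]
  have e1 : rtr (Q * (cfc g Q * cfc p A * (cfc p A * cfc g Q))) =
      rtr (cfc g Q * Q * cfc g Q * (cfc p A * cfc p A)) := by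
    have : Q * (cfc g Q * cfc p A * (cfc p A * cfc g Q)) =
        (Q * cfc g Q * (cfc p A * cfc p A)) * cfc g Q := by simp only [Matrix.mul_assoc]
    rw [this, rtr_mul_comm]; simp only [Matrix.mul_assoc]
  have e2 : rtr (cfc g Q * cfc p A * A * (cfc p A * cfc g Q)) =
      rtr (cfc g Q * cfc g Q * (cfc p A * A * cfc p A)) := by
    have : cfc g Q * cfc p A * A * (cfc p A * cfc g Q) =
        (cfc g Q * (cfc p A * A * cfc p A)) * cfc g Q := by simp only [Matrix.mul_assoc]
    rw [this, rtr_mul_comm]; simp only [Matrix.mul_assoc]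
  rw [e1, e2]
  have e3 : negMoment A γ = rtr (cfc (fun t : ℝ => (max (-t) 0) ^ γ) A) := rfl
  rw [e3]
  linarith

lemma choice_exists {n : ℕ} {A : Mat n n} (hA : A.IsHermitian) {γ c ε η G : ℝ}
    (hη : n * η ≤ ε) (p g : ℝ → ℝ) (hg : Continuous g) (hG : ∀ q, |g q| ≤ G)
    (h : ∀ q : ℝ, 0 ≤ q → ∀ t : ℝ, 0 ≤ (c * q ^ γ + η) + (-c) * (max (-t) 0) ^ γ +
      ((-1) * (g q * q * g q)) * (p t * p t) + ((-1) * (g q * g q)) * (p t * t * p t)) :
    ∃ (B : Mat n n → Mat n n) (C : ℝ), Continuous B ∧ (∀ K, ‖B K‖ ≤ C) ∧ ∀ K : Mat n n,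
      K.PosSemidef → c * negMoment A γ - ε ≤
        c * rtr (mpow K (2 * γ)) - rtr (K * K * ((B K)ᴴ * B K)) - rtr ((B K)ᴴ * A * B K) := by
  refine ⟨fun K => cfc p A * cfc g (Kᴴ * K), ‖cfc p A‖ * G, ?_, fun K => ?_, fun K hK => ?_⟩
  · refine Continuous.matrix_mul continuous_const ?_
    exact continuous_cfc_of (continuous_id.matrix_conjTranspose.matrix_mul continuous_id)
      (fun K => isHermitian_conjTranspose_mul_self K) isOpen_univ hg.continuousOn
      (fun _ => subset_univ _)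
  · refine (norm_mul_le' _ _).trans (mul_le_mul_of_nonneg_left ?_ (norm_nonneg _))
    exact norm_cfc_le' ((abs_nonneg _).trans (hG 0)) fun x _ => hG x
  · have := choice_key hA hK p g h
    linarith

/-- tangent line inequality, convex case -/
lemma rpow_tangent_convex {γ a q : ℝ} (hγ : 1 ≤ γ) (ha : 0 < a) (hq : 0 ≤ q) :
    a ^ γ + γ * a ^ (γ - 1) * (q - a) ≤ q ^ γ := by
  have h1 : (-1 : ℝ) ≤ q / a - 1 := by have := div_nonneg hq ha.le; linarith
  have h2 := one_add_mul_self_le_rpow_one_add h1 hγ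
  rw [add_sub_cancel, Real.div_rpow hq ha.le, le_div_iff₀ (Real.rpow_pos_of_pos ha _)] at h2
  rw [Real.rpow_sub_one ha.ne']
  refine le_trans (le_of_eq ?_) h2
  field_simp

/-- tangent line inequality, concave case -/
lemma rpow_tangent_concave {γ a q : ℝ} (hγ0 : 0 ≤ γ) (hγ : γ ≤ 1) (ha : 0 ≤ a) (hq : 0 < q) :
    a ^ γ ≤ q ^ γ + γ * q ^ (γ - 1) * (a - q) := by
  have h1 : (-1 : ℝ) ≤ a / q - 1 := by have := div_nonneg ha hq.le; linarith
  have h2 := rpow_one_add_le_one_add_mul_self h1 hγ0 hγ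
  rw [add_sub_cancel, Real.div_rpow ha hq.le, div_le_iff₀ (Real.rpow_pos_of_pos hq _)] at h2
  rw [Real.rpow_sub_one hq.ne']
  refine le_trans h2 (le_of_eq ?_)
  field_simp

theorem exists_weight {n : ℕ} {A : Mat n n} (hA : A.IsHermitian) {γ c ε : ℝ} (hγ : 0 < γ)
    (hc : 0 < c) (hε : 0 < ε) :
    ∃ (B : Mat n n → Mat n n) (C : ℝ), Continuous B ∧ (∀ K, ‖B K‖ ≤ C) ∧ ∀ K : Mat n n,
      K.PosSemidef → c * negMoment A γ - ε ≤
        c * rtr (mpow K (2 * γ)) - rtr (K * K * ((B K)ᴴ * B K)) - rtr ((B K)ᴴ * A * B K) := by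
  rcases le_or_gt 1 γ with h1 | h1
  · refine choice_exists hA (η := 0) (G := 1) (by simpa using hε.le)
      (fun t => if t < 0 then √(c * γ * (-t) ^ (γ - 1)) else 0) (fun _ => 1) continuous_const
      (fun _ => by simp) fun q hq t => ?_
    by_cases ht : t < 0
    · have ha : 0 < -t := by linarith
      have hs := Real.mul_self_sqrt (x := c * γ * (-t) ^ (γ - 1)) (by positivity)
      have h2 := mul_le_mul_of_nonneg_left (rpow_tangent_convex h1 ha hq) hc.le
      simp only [if_pos ht, max_eq_left ha.le]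
      rw [mul_right_comm _ t, hs]
      nlinarith
    · have ha : -t ≤ 0 := by linarith
      simp only [if_neg ht, max_eq_right ha, Real.zero_rpow hγ.ne']
      have : 0 ≤ c * q ^ γ := by positivity
      linarith
  · obtain ⟨δ, hδ, hδε⟩ : ∃ δ : ℝ, 0 < δ ∧ n * (c * δ ^ γ) ≤ ε := by
      refine ⟨(ε / (c * (n + 1))) ^ γ⁻¹, by positivity, ?_⟩
      rw [Real.rpow_inv_rpow (by positivity) hγ.ne']
      have : (n : ℝ) * (c * (ε / (c * (n + 1)))) = ε * (n / (n + 1)) := by field_simp
      rw [this]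
      exact mul_le_of_le_one_right hε.le (div_le_one_of_le₀ (by linarith) (by positivity))
    refine choice_exists hA (η := c * δ ^ γ) (G := √(c * γ * δ ^ (γ - 1))) hδε
      (fun t => if t < 0 then 1 else 0) (fun q => √(c * γ * (max q 0 + δ) ^ (γ - 1))) ?_
      (fun q => ?_) fun q hq t => ?_
    · refine Real.continuous_sqrt.comp (continuous_const.mul ?_)
      refine Continuous.rpow_const (by fun_prop) fun q => Or.inl ?_
      have := le_max_right q 0
      linarith
    · rw [abs_of_nonneg (Real.sqrt_nonneg _)]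
      refine Real.sqrt_le_sqrt (mul_le_mul_of_nonneg_left ?_ (by positivity))
      refine Real.rpow_le_rpow_of_nonpos hδ ?_ (by linarith)
      have := le_max_right q 0
      linarith
    · by_cases ht : t < 0
      · have ha : 0 < -t := by linarith
        have hs := Real.mul_self_sqrt (x := c * γ * (q + δ) ^ (γ - 1)) (by positivity)
        have h2 := rpow_tangent_concave (a := -t + δ) (q := q + δ) hγ.le h1.le (by positivity)
          (by positivity)
        have h3 : (-t) ^ γ ≤ (-t + δ) ^ γ := Real.rpow_le_rpow ha.le (by linarith) hγ.le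
        have h4 := Real.rpow_add_le_add_rpow hq hδ.le hγ.le h1.le
        have h5 : (-t) ^ γ ≤ q ^ γ + δ ^ γ + γ * (q + δ) ^ (γ - 1) * (-t - q) := by
          have : -t + δ - (q + δ) = -t - q := by ring
          rw [this] at h2
          linarith
        have h6 := mul_le_mul_of_nonneg_left h5 hc.le
        simp only [if_pos ht, max_eq_left ha.le, max_eq_left hq]
        rw [mul_right_comm _ q, hs]
        nlinarith
      · have ha : -t ≤ 0 := by linarith
        simp only [if_neg ht, max_eq_right ha, Real.zero_rpow hγ.ne']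
        have : 0 ≤ c * q ^ γ + c * δ ^ γ := by positivity
        linarith

end Crest.Agent.R332
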