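import Crest.Agent.R332.Defs

/-! Scalar integrals. -/

set_option autoImplicit false
open scoped Matrix.Norms.L2Operator ComplexOrder MatrixOrder Topology
open Matrix MeasureTheory Filter Set
open Crest.MathPhysics.LiebThirring

namespace Crest.Agent.R332

namespace Scalars

theorem log_one_add_le_rpow {u e : ℝ} (hu : 0 ≤ u) (he : 0 < e) (he1 : e ≤ 1) :
    Real.log (1 + u) ≤ u ^ e / e := by
  have h1 : (1 + u) ^ e ≤ 1 + u ^ e := by
    have := Real.rpow_add_le_add_rpow (a := 1) (b := u) zero_le_one hu he.le he1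
    simpa using this
  have h2 : Real.log ((1 + u) ^ e) ≤ (1 + u) ^ e - 1 :=
    Real.log_le_sub_one_of_pos (Real.rpow_pos_of_pos (by linarith) _)
  rw [Real.log_rpow (by linarith)] at h2
  rw [le_div_iff₀ he]
  linarith

theorem measurable_g (s u : ℝ) :
    Measurable (fun l : ℝ => l ^ (s - 1) * Real.log (1 + u / l)) := by
  fun_prop

theorem g_nonneg (s : ℝ) {u l : ℝ} (hu : 0 ≤ u) (hl : 0 < l) :
    0 ≤ l ^ (s - 1) * Real.log (1 + u / l) :=
  mul_nonneg (Real.rpow_nonneg hl.le _)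
    (Real.log_nonneg (by have := div_nonneg hu hl.le; linarith))

theorem integrableOn_g_one {s : ℝ} (hs : 0 < s) (hs1 : s < 1) :
    IntegrableOn (fun l : ℝ => l ^ (s - 1) * Real.log (1 + 1 / l)) (Ioi 0) := by
  rw [← Ioc_union_Ioi_eq_Ioi (zero_le_one' ℝ)]
  refine IntegrableOn.union ?_ ?_
  · have h1 : IntegrableOn (fun l : ℝ => l ^ (s / 2 - 1) / (s / 2)) (Ioc 0 1) := by
      refine Integrable.div_const ?_ _
      exact (intervalIntegral.intervalIntegrable_rpow' (a := 0) (b := 1)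
        (by linarith : -1 < s / 2 - 1)).1
    refine Integrable.mono' h1 (measurable_g s 1).aestronglyMeasurable ?_
    refine ae_restrict_of_forall_mem measurableSet_Ioc fun l hl => ?_
    have hl0 : 0 < l := hl.1
    rw [Real.norm_of_nonneg (g_nonneg s zero_le_one hl0)]
    have h2 := log_one_add_le_rpow (u := 1 / l) (e := s / 2) (by positivity) (by linarith)
      (by linarith)
    have h3 : (1 / l) ^ (s / 2) = l ^ (-(s / 2)) := by
      rw [Real.rpow_neg hl0.le, one_div, Real.inv_rpow hl0.le]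
    rw [h3] at h2
    calc l ^ (s - 1) * Real.log (1 + 1 / l) ≤ l ^ (s - 1) * (l ^ (-(s / 2)) / (s / 2)) :=
          mul_le_mul_of_nonneg_left h2 (Real.rpow_nonneg hl0.le _)
      _ = l ^ (s / 2 - 1) / (s / 2) := by
          rw [← mul_div_assoc, ← Real.rpow_add hl0]
          congr 2
          ring
  · have h1 : IntegrableOn (fun l : ℝ => l ^ (s - 2)) (Ioi 1) :=
      integrableOn_Ioi_rpow_of_lt (by linarith) one_pos
    refine Integrable.mono' h1 (measurable_g s 1).aestronglyMeasurable ?_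
    refine ae_restrict_of_forall_mem measurableSet_Ioi fun l hl => ?_
    have hl0 : 0 < l := lt_trans one_pos hl
    rw [Real.norm_of_nonneg (g_nonneg s zero_le_one hl0)]
    have h2 : Real.log (1 + 1 / l) ≤ l ^ (-1 : ℝ) := by
      have := Real.log_le_sub_one_of_pos (x := 1 + 1 / l) (by positivity)
      rw [Real.rpow_neg_one, ← one_div]
      linarith
    calc l ^ (s - 1) * Real.log (1 + 1 / l) ≤ l ^ (s - 1) * l ^ (-1 : ℝ) :=
          mul_le_mul_of_nonneg_left h2 (Real.rpow_nonneg hl0.le _)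
      _ = l ^ (s - 2) := by
          rw [← Real.rpow_add hl0]
          congr 1
          ring

theorem g_scale (s : ℝ) {u l : ℝ} (hu : 0 < u) (hl : 0 < l) :
    l ^ (s - 1) * Real.log (1 + u / l) =
      u ^ (s - 1) * ((u⁻¹ * l) ^ (s - 1) * Real.log (1 + 1 / (u⁻¹ * l))) := by
  have h1 : 1 / (u⁻¹ * l) = u / l := by field_simp
  have h2 : u ^ (s - 1) * (u⁻¹ * l) ^ (s - 1) = l ^ (s - 1) := by
    rw [← Real.mul_rpow hu.le (by positivity)]
    congr 1
    field_simp
  rw [h1, ← mul_assoc, h2]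

theorem integrableOn_g {s : ℝ} (hs : 0 < s) (hs1 : s < 1) {u : ℝ} (hu : 0 ≤ u) :
    IntegrableOn (fun l : ℝ => l ^ (s - 1) * Real.log (1 + u / l)) (Ioi 0) := by
  rcases hu.eq_or_lt with rfl | hu
  · simp
  · have h1 := (integrableOn_Ioi_comp_mul_left_iff
      (fun l : ℝ => l ^ (s - 1) * Real.log (1 + 1 / l)) 0 (inv_pos.mpr hu)).2
      (by simpa using integrableOn_g_one hs hs1)
    refine IntegrableOn.congr_fun (Integrable.const_mul h1 (u ^ (s - 1))) ?_ measurableSet_Ioi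
    intro l hl
    exact (g_scale s hu hl).symm

theorem integral_g {s : ℝ} (hs : 0 < s) {u : ℝ} (hu : 0 ≤ u) :
    ∫ l in Ioi (0 : ℝ), l ^ (s - 1) * Real.log (1 + u / l) = IS s * u ^ s := by
  rcases hu.eq_or_lt with rfl | hu
  · simp [Real.zero_rpow hs.ne']
  · rw [setIntegral_congr_fun measurableSet_Ioi (fun l hl => g_scale s hu hl),
      integral_const_mul]
    have h1 := integral_comp_mul_left_Ioi
      (fun l : ℝ => l ^ (s - 1) * Real.log (1 + 1 / l)) 0 (inv_pos.mpr hu)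
    simp only [mul_zero, inv_inv, smul_eq_mul] at h1
    rw [h1, IS, Real.rpow_sub_one hu.ne']
    field_simp

/-- Tonelli for `∫_0^∞ λ^{s-1} ∫_α^β log (1 + U f / λ) df dλ`. -/
theorem tonelli {s : ℝ} (hs : 0 < s) (hs1 : s < 1) {U : ℝ → ℝ} (hU : Continuous U) {α β : ℝ}
    (hαβ : α ≤ β) (h0 : ∀ f ∈ Ioc α β, 0 ≤ U f) :
    IntegrableOn (fun l : ℝ => l ^ (s - 1) * ∫ f in α..β, Real.log (1 + U f / l)) (Ioi 0) ∧
      ∫ l in Ioi (0 : ℝ), l ^ (s - 1) * ∫ f in α..β, Real.log (1 + U f / l) =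
        IS s * ∫ f in α..β, U f ^ s := by
  set G : ℝ × ℝ → ℝ := fun z => z.1 ^ (s - 1) * Real.log (1 + U z.2 / z.1) with hG
  have hUm : Measurable U := hU.measurable
  have hGm : Measurable G := by
    simp only [hG]
    fun_prop
  have hUs : Continuous fun f => U f ^ s := hU.rpow_const fun _ => Or.inr hs.le
  have hint : Integrable G ((volume.restrict (Ioi (0 : ℝ))).prod (volume.restrict (Ioc α β))) := by
    rw [integrable_prod_iff' hGm.aestronglyMeasurable]
    constructor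
    · exact ae_restrict_of_forall_mem measurableSet_Ioc fun f hf =>
        integrableOn_g hs hs1 (h0 f hf)
    · have h1 : IntegrableOn (fun f => IS s * U f ^ s) (Ioc α β) :=
        ((continuous_const.mul hUs).intervalIntegrable α β).1
      refine IntegrableOn.congr_fun h1 ?_ measurableSet_Ioc
      intro f hf
      simp only [hG]
      rw [← integral_g hs (h0 f hf)]
      refine setIntegral_congr_fun measurableSet_Ioi fun l hl => ?_
      exact (Real.norm_of_nonneg (g_nonneg s (h0 f hf) hl)).symm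
  have hfun : (fun l : ℝ => l ^ (s - 1) * ∫ f in α..β, Real.log (1 + U f / l)) =
      fun l => ∫ f in Ioc α β, G (l, f) := by
    funext l
    simp only [hG]
    rw [integral_const_mul, intervalIntegral.integral_of_le hαβ]
  constructor
  · rw [hfun]
    exact hint.integral_prod_left
  · rw [hfun, integral_integral_swap (f := fun l f => G (l, f)) hint,
      intervalIntegral.integral_of_le hαβ, ← integral_const_mul]
    refine setIntegral_congr_fun measurableSet_Ioc fun f hf => ?_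
    exact integral_g hs (h0 f hf)

theorem theta_eq {l y : ℝ} (hl : 0 < l) (hy : 0 ≤ y) :
    Theta l y = ∫ u in (0 : ℝ)..y, Real.log (1 + u / l) := by
  have h1 : ∀ u ∈ uIcc (0 : ℝ) y, HasDerivAt (fun u => Theta l u) (Real.log (1 + u / l)) u := by
    intro u hu
    rw [uIcc_of_le hy] at hu
    have hu0 : 0 ≤ u := hu.1
    have hpos : 0 < 1 + u / l := by positivity
    have ha : HasDerivAt (fun u : ℝ => 1 + u / l) (1 / l) u :=
      ((hasDerivAt_id u).div_const l).const_add 1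
    have hb := ha.log hpos.ne'
    have hc : HasDerivAt (fun u : ℝ => l + u) 1 u := (hasDerivAt_id u).const_add l
    have hd := (hc.mul hb).sub (hasDerivAt_id u)
    refine hd.congr_deriv ?_
    field_simp
    ring
  have h2 : IntervalIntegrable (fun u : ℝ => Real.log (1 + u / l)) volume 0 y := by
    refine ContinuousOn.intervalIntegrable ?_
    refine ContinuousOn.log (by fun_prop) ?_
    intro u hu
    rw [uIcc_of_le hy] at hu
    have hu0 : 0 ≤ u := hu.1
    positivity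
  rw [intervalIntegral.integral_eq_sub_of_hasDerivAt h1 h2]
  simp [Theta]

theorem tendsto_intervalIntegral {g : ℝ → ℝ} (hg : IntegrableOn g (Ioi 0)) :
    Tendsto (fun q : ℝ × ℝ => ∫ l in q.1..q.2, g l) ((𝓝[>] 0) ×ˢ atTop)
      (𝓝 (∫ l in Ioi (0 : ℝ), g l)) := by
  have h1 : Tendsto (fun q : ℝ × ℝ => q.1) ((𝓝[>] (0 : ℝ)) ×ˢ (atTop : Filter ℝ)) (𝓝 0) :=
    tendsto_fst.mono_right nhdsWithin_le_nhds
  have h2 : Tendsto (fun q : ℝ × ℝ => q.2) ((𝓝[>] (0 : ℝ)) ×ˢ (atTop : Filter ℝ)) atTop :=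
    tendsto_snd
  have hc : AECover (volume.restrict (Ioi (0 : ℝ))) ((𝓝[>] (0 : ℝ)) ×ˢ (atTop : Filter ℝ))
      (fun q : ℝ × ℝ => Ioi q.1 ∩ Iic q.2) :=
    (aecover_Ioi_of_Ioi h1).inter (aecover_Iic h2)
  refine (hc.integral_tendsto_of_countably_generated hg).congr' ?_
  have h3 : ∀ᶠ q : ℝ × ℝ in (𝓝[>] (0 : ℝ)) ×ˢ (atTop : Filter ℝ), 0 < q.1 :=
    tendsto_fst.eventually self_mem_nhdsWithin
  have h4 : ∀ᶠ q : ℝ × ℝ in (𝓝[>] (0 : ℝ)) ×ˢ (atTop : Filter ℝ), q.1 < 1 :=
    h1.eventually (gt_mem_nhds one_pos)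
  have h5 : ∀ᶠ q : ℝ × ℝ in (𝓝[>] (0 : ℝ)) ×ˢ (atTop : Filter ℝ), 1 ≤ q.2 :=
    h2.eventually (eventually_ge_atTop 1)
  filter_upwards [h3, h4, h5] with q hq3 hq4 hq5
  rw [intervalIntegral.integral_of_le (by linarith),
    Measure.restrict_restrict (measurableSet_Ioi.inter measurableSet_Iic)]
  congr 2
  ext x
  simp only [mem_inter_iff, mem_Ioi, mem_Iic, mem_Ioc]
  constructor
  · rintro ⟨h, -⟩
    exact h
  · intro h
    exact ⟨h, lt_trans hq3 h.1⟩

theorem integral_sq_sub_rpow {s : ℝ} (hs : 0 < s) {κ : ℝ} (hκ : 0 ≤ κ) :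
    ∫ f in (-κ)..κ, (κ ^ 2 - f ^ 2) ^ s = betaS s * κ ^ (2 * s + 1) := by
  rcases hκ.eq_or_lt with rfl | hκ
  · simp [Real.zero_rpow (by linarith : 2 * s + 1 ≠ 0)]
  · have h1 := intervalIntegral.smul_integral_comp_mul_left
      (fun f : ℝ => (κ ^ 2 - f ^ 2) ^ s) (a := -1) (b := 1) κ
    simp only [mul_neg, mul_one, smul_eq_mul] at h1
    rw [← h1, betaS]
    have h2 : ∫ x in (-1 : ℝ)..1, (κ ^ 2 - (κ * x) ^ 2) ^ s =
        ∫ x in (-1 : ℝ)..1, κ ^ (2 * s) * (1 - x ^ 2) ^ s := by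
      refine intervalIntegral.integral_congr fun x hx => ?_
      rw [uIcc_of_le (by norm_num)] at hx
      have hx2 : 0 ≤ 1 - x ^ 2 := by nlinarith [hx.1, hx.2]
      rw [show κ ^ 2 - (κ * x) ^ 2 = κ ^ 2 * (1 - x ^ 2) by ring,
        Real.mul_rpow (by positivity) hx2, Real.rpow_mul hκ.le]
      norm_num
    rw [h2, intervalIntegral.integral_const_mul, Real.rpow_add_one hκ.ne']
    ring

theorem real_beta {s : ℝ} (hs : 0 < s) :
    ∫ t in (0 : ℝ)..1, t ^ s * (1 - t) ^ s =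
      Real.Gamma (s + 1) * Real.Gamma (s + 1) / Real.Gamma (2 * (s + 1)) := by
  have h1 := Complex.betaIntegral_eq_Gamma_mul_div ((s + 1 : ℝ) : ℂ) ((s + 1 : ℝ) : ℂ)
    (by simp; linarith) (by simp; linarith)
  have h2 : Complex.betaIntegral ((s + 1 : ℝ) : ℂ) ((s + 1 : ℝ) : ℂ) =
      ((∫ t in (0 : ℝ)..1, t ^ s * (1 - t) ^ s : ℝ) : ℂ) := by
    rw [Complex.betaIntegral, ← intervalIntegral.integral_ofReal]
    refine intervalIntegral.integral_congr fun x hx => ?_
    rw [uIcc_of_le (by norm_num)] at hx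
    have e : ((s + 1 : ℝ) : ℂ) - 1 = (s : ℂ) := by push_cast; ring
    simp only [e]
    rw [Complex.ofReal_mul, Complex.ofReal_cpow hx.1, Complex.ofReal_cpow (by linarith [hx.2])]
    push_cast
    rfl
  rw [h2, ← Complex.ofReal_add, Complex.Gamma_ofReal, Complex.Gamma_ofReal] at h1
  have h3 : (s + 1 + (s + 1)) = 2 * (s + 1) := by ring
  rw [h3] at h1
  exact_mod_cast h1

theorem betaS_eq {s : ℝ} (hs : 0 < s) :
    betaS s = √Real.pi * Real.Gamma (s + 1) / Real.Gamma (s + 1 + 1 / 2) := by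
  have h1 := intervalIntegral.smul_integral_comp_mul_add
    (fun f : ℝ => (1 - f ^ 2) ^ s) (a := 0) (b := 1) 2 (-1)
  simp only [mul_zero, zero_add, mul_one, smul_eq_mul] at h1
  have h0 : (2 : ℝ) + -1 = 1 := by norm_num
  rw [h0] at h1
  have h2 : ∫ x in (0 : ℝ)..1, (1 - (2 * x + -1) ^ 2) ^ s =
      ∫ x in (0 : ℝ)..1, (2 : ℝ) ^ (2 * s) * (x ^ s * (1 - x) ^ s) := by
    refine intervalIntegral.integral_congr fun x hx => ?_
    rw [uIcc_of_le (by norm_num)] at hx
    have hx1 : 0 ≤ 1 - x := by linarith [hx.2]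
    have hx0 : 0 ≤ x := hx.1
    rw [show 1 - (2 * x + -1) ^ 2 = 2 ^ 2 * (x * (1 - x)) by ring,
      Real.mul_rpow (by positivity) (by positivity), Real.mul_rpow hx0 hx1,
      Real.rpow_mul (by norm_num)]
    norm_num
  rw [betaS, ← h1, h2, intervalIntegral.integral_const_mul, real_beta hs]
  have h3 := Real.Gamma_mul_Gamma_add_half (s + 1)
  have g1 : 0 < Real.Gamma (s + 1) := Real.Gamma_pos_of_pos (by linarith)
  have g2 : 0 < Real.Gamma (s + 1 + 1 / 2) := Real.Gamma_pos_of_pos (by linarith)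
  have g3 : 0 < Real.Gamma (2 * (s + 1)) := Real.Gamma_pos_of_pos (by linarith)
  have h4 : (2 : ℝ) ^ (1 - 2 * (s + 1)) * (2 * 2 ^ (2 * s)) = 1 := by
    rw [show (2 : ℝ) * 2 ^ (2 * s) = 2 ^ (2 * s + 1) by
      rw [Real.rpow_add_one (by norm_num)]; ring, ← Real.rpow_add (by norm_num)]
    rw [show 1 - 2 * (s + 1) + (2 * s + 1) = 0 by ring, Real.rpow_zero]
  rw [eq_div_iff g2.ne']
  calc 2 * ((2 : ℝ) ^ (2 * s) * (Real.Gamma (s + 1) * Real.Gamma (s + 1) /
        Real.Gamma (2 * (s + 1)))) * Real.Gamma (s + 1 + 1 / 2)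
      = 2 * (2 : ℝ) ^ (2 * s) * Real.Gamma (s + 1) *
        (Real.Gamma (s + 1) * Real.Gamma (s + 1 + 1 / 2)) / Real.Gamma (2 * (s + 1)) := by
        ring
    _ = ((2 : ℝ) ^ (1 - 2 * (s + 1)) * (2 * 2 ^ (2 * s))) * (√Real.pi * Real.Gamma (s + 1)) := by
        rw [h3]
        field_simp
    _ = √Real.pi * Real.Gamma (s + 1) := by rw [h4, one_mul]

theorem hasDerivAt_tanh (x : ℝ) : HasDerivAt Real.tanh (1 / Real.cosh x ^ 2) x := by
  have hc := Real.cosh_pos x
  have h := (Real.hasDerivAt_sinh x).div (Real.hasDerivAt_cosh x) hc.ne'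
  have e : Real.tanh = Real.sinh / Real.cosh := by
    funext y
    exact Real.tanh_eq_sinh_div_cosh y
  rw [e]
  refine h.congr_deriv ?_
  congr 1
  nlinarith [Real.cosh_sq x]

theorem one_sub_tanh_sq (x : ℝ) : 1 - Real.tanh x ^ 2 = 1 / Real.cosh x ^ 2 := by
  have hc := Real.cosh_pos x
  rw [Real.tanh_eq_sinh_div_cosh]
  field_simp
  nlinarith [Real.cosh_sq x]

theorem sech_integral {s : ℝ} (hs : 0 < s) :
    Integrable (fun y : ℝ => (1 / Real.cosh y ^ 2) ^ (s + 1)) ∧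
      ∫ y : ℝ, (1 / Real.cosh y ^ 2) ^ (s + 1) = betaS s := by
  have himg : Real.tanh '' univ = Ioo (-1) 1 := Real.tanh_bijOn.image_eq
  have hd : ∀ x ∈ (univ : Set ℝ), HasDerivWithinAt Real.tanh (1 / Real.cosh x ^ 2) univ x :=
    fun x _ => (hasDerivAt_tanh x).hasDerivWithinAt
  have hinj : InjOn Real.tanh univ := Real.tanh_injective.injOn
  have hfun : (fun x : ℝ => |1 / Real.cosh x ^ 2| • (1 - Real.tanh x ^ 2) ^ s) =
      fun y : ℝ => (1 / Real.cosh y ^ 2) ^ (s + 1) := by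
    funext x
    have hc := Real.cosh_pos x
    have hp : 0 < 1 / Real.cosh x ^ 2 := by positivity
    rw [one_sub_tanh_sq, abs_of_pos hp, Real.rpow_add_one hp.ne', smul_eq_mul, mul_comm]
  have hcont : Continuous fun f : ℝ => (1 - f ^ 2) ^ s :=
    Continuous.rpow_const (by fun_prop) fun _ => Or.inr hs.le
  constructor
  · have h1 := (integrableOn_image_iff_integrableOn_abs_deriv_smul MeasurableSet.univ hd hinj
      (fun f : ℝ => (1 - f ^ 2) ^ s)).1 (by
        rw [himg]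
        exact ((hcont.intervalIntegrable (-1) 1).1).mono_set Ioo_subset_Ioc_self)
    rw [hfun, integrableOn_univ] at h1
    exact h1
  · have h1 := integral_image_eq_integral_abs_deriv_smul MeasurableSet.univ hd hinj
      (fun f : ℝ => (1 - f ^ 2) ^ s)
    rw [himg, hfun, Measure.restrict_univ] at h1
    rw [← h1, betaS, intervalIntegral.integral_of_le (by norm_num), integral_Ioc_eq_integral_Ioo]

end Scalars

open Scalars

theorem IS_pos {s : ℝ} (hs : 0 < s) (hs1 : s < 1) : 0 < IS s := by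
  rw [IS, setIntegral_pos_iff_support_of_nonneg_ae
    (ae_restrict_of_forall_mem measurableSet_Ioi fun l hl => g_nonneg s zero_le_one hl)
    (integrableOn_g_one hs hs1)]
  have : Ioi (0 : ℝ) ⊆
      (Function.support fun l : ℝ => l ^ (s - 1) * Real.log (1 + 1 / l)) ∩ Ioi 0 := by
    intro l hl
    have hl0 : 0 < l := hl
    refine ⟨?_, hl⟩
    have h1 : 0 < Real.log (1 + 1 / l) :=
      Real.log_pos (by have : 0 < 1 / l := by positivity
                       linarith)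
    exact (mul_pos (Real.rpow_pos_of_pos hl0 _) h1).ne'
  refine lt_of_lt_of_le ?_ (measure_mono this)
  simp

theorem betaS_pos {s : ℝ} (hs : 0 < s) : 0 < betaS s := by
  rw [betaS_eq hs]
  have g1 : 0 < Real.Gamma (s + 1) := Real.Gamma_pos_of_pos (by linarith)
  have g2 : 0 < Real.Gamma (s + 1 + 1 / 2) := Real.Gamma_pos_of_pos (by linarith)
  have := Real.sqrt_pos.mpr Real.pi_pos
  positivity

theorem kS_pos {s : ℝ} (hs : 0 < s) : 0 < kS s :=
  mul_pos (div_pos (Real.rpow_pos_of_pos (by linarith) _) (Real.rpow_pos_of_pos hs _))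
    (betaS_pos hs)

theorem sharpConst_eq {s : ℝ} (hs : 0 < s) : sharpConst (s + 1 / 2) = (kS s)⁻¹ := by
  have g1 : 0 < Real.Gamma (s + 1) := Real.Gamma_pos_of_pos (by linarith)
  have g2 : 0 < Real.Gamma (s + 1 + 1 / 2) := Real.Gamma_pos_of_pos (by linarith)
  have hpi := Real.sqrt_pos.mpr Real.pi_pos
  have e1 : s + 1 / 2 - 1 / 2 = s := by ring
  have e2 : s + 1 / 2 + 1 / 2 = s + 1 := by ring
  have e3 : s + 1 / 2 + 1 = s + 1 + 1 / 2 := by ring
  have e4 : s + 1 / 2 + 3 / 2 = s + 1 + 1 := by ring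
  have hs1 : 0 < s + 1 := by linarith
  have p1 : 0 < s ^ s := Real.rpow_pos_of_pos hs _
  have p2 : 0 < (s + 1) ^ s := Real.rpow_pos_of_pos hs1 _
  rw [sharpConst, kS, betaS_eq hs, e1, e2, e3, e4, Real.Gamma_add_one hs1.ne',
    Real.div_rpow hs.le hs1.le, Real.rpow_add_one hs1.ne']
  field_simp

theorem theta_integral_le {s : ℝ} (hs : 0 < s) (hs1 : s < 1) {y a b : ℝ} (hy : 0 ≤ y)
    (ha : 0 < a) (hab : a ≤ b) :
    (s + 1) * ∫ l in a..b, l ^ (s - 1) * Theta l y ≤ IS s * y ^ (s + 1) := by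
  obtain ⟨h1, h2⟩ := tonelli hs hs1 (U := fun u => u) continuous_id hy (fun f hf => hf.1.le)
  have h3 : ∫ l in a..b, l ^ (s - 1) * Theta l y =
      ∫ l in Ioc a b, l ^ (s - 1) * ∫ u in (0 : ℝ)..y, Real.log (1 + u / l) := by
    rw [intervalIntegral.integral_of_le hab]
    refine setIntegral_congr_fun measurableSet_Ioc fun l hl => ?_
    rw [theta_eq (lt_trans ha hl.1) hy]
  have h4 : ∫ l in Ioc a b, l ^ (s - 1) * ∫ u in (0 : ℝ)..y, Real.log (1 + u / l) ≤
      ∫ l in Ioi (0 : ℝ), l ^ (s - 1) * ∫ u in (0 : ℝ)..y, Real.log (1 + u / l) := by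
    refine setIntegral_mono_set h1 ?_ ?_
    · refine ae_restrict_of_forall_mem measurableSet_Ioi fun l hl => ?_
      have hl0 : 0 < l := hl
      refine mul_nonneg (Real.rpow_nonneg hl0.le _) ?_
      refine intervalIntegral.integral_nonneg hy fun u hu => ?_
      have := div_nonneg hu.1 hl0.le
      exact Real.log_nonneg (by linarith)
    · exact LE.le.eventuallyLE (show Ioc a b ⊆ Ioi 0 from fun l hl => lt_trans ha hl.1)
  have h5 : ∫ u in (0 : ℝ)..y, u ^ s = y ^ (s + 1) / (s + 1) := by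
    rw [integral_rpow (Or.inl (by linarith)), Real.zero_rpow (by linarith), sub_zero]
  rw [h3]
  rw [h2, h5] at h4
  have hs' : 0 < s + 1 := by linarith
  calc (s + 1) * ∫ l in Ioc a b, l ^ (s - 1) * ∫ u in (0 : ℝ)..y, Real.log (1 + u / l)
      ≤ (s + 1) * (IS s * (y ^ (s + 1) / (s + 1))) := mul_le_mul_of_nonneg_left h4 hs'.le
    _ = IS s * y ^ (s + 1) := by field_simp

theorem continuousOn_ell (κ : ℝ) (hκ : 0 ≤ κ) : ContinuousOn (fun l => ell l κ) (Ioi 0) := by
  rw [continuousOn_iff_continuous_domRestrict]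
  have h1 : (Ioi (0 : ℝ)).domRestrict (fun l => ell l κ) =
      fun l : Ioi (0 : ℝ) => ∫ f in (-κ)..κ, Real.log (1 + max (κ ^ 2 - f ^ 2) 0 / (l : ℝ)) := by
    funext l
    simp only [domRestrict_apply, ell]
    refine intervalIntegral.integral_congr fun f hf => ?_
    rw [uIcc_of_le (by linarith)] at hf
    have : 0 ≤ κ ^ 2 - f ^ 2 := by nlinarith [hf.1, hf.2]
    simp only [max_eq_left this]
  rw [h1]
  refine intervalIntegral.continuous_parametric_intervalIntegral_of_continuous' ?_ _ _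
  have hpos : ∀ z : Ioi (0 : ℝ) × ℝ, (0 : ℝ) < z.1 := fun z => z.1.2
  refine Continuous.log (f := fun z : Ioi (0 : ℝ) × ℝ =>
    1 + max (κ ^ 2 - z.2 ^ 2) 0 / (z.1 : ℝ)) ?_ ?_
  · refine continuous_const.add (Continuous.div (by fun_prop) (by fun_prop) fun z => (hpos z).ne')
  · intro z
    have := div_nonneg (le_max_right (κ ^ 2 - z.2 ^ 2) 0) (hpos z).le
    linarith

theorem ell_integral_tendsto {s : ℝ} (hs : 0 < s) (hs1 : s < 1) {κ : ℝ} (hκ : 0 ≤ κ) :
    Tendsto (fun q : ℝ × ℝ => ∫ l in q.1..q.2, l ^ (s - 1) * ell l κ) ((𝓝[>] 0) ×ˢ atTop)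
      (𝓝 (IS s * betaS s * κ ^ (2 * s + 1))) := by
  obtain ⟨h1, h2⟩ := tonelli hs hs1 (U := fun f => κ ^ 2 - f ^ 2) (by fun_prop)
    (α := -κ) (β := κ) (by linarith) (fun f hf => by nlinarith [hf.1, hf.2])
  rw [integral_sq_sub_rpow hs hκ, ← mul_assoc] at h2
  rw [← h2]
  exact tendsto_intervalIntegral h1

theorem integral_soliton_rpow {s : ℝ} (hs : 0 < s) {a : ℝ} (ha : 0 ≤ a) (c : ℝ) :
    Integrable (fun x => soliton s⁻¹ a c x ^ (s + 1)) ∧
      ∫ x, soliton s⁻¹ a c x ^ (s + 1) = kS s * a ^ (2 * s + 1) := by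
  rcases ha.eq_or_lt with rfl | ha
  · simp [soliton, Real.zero_rpow (by linarith : s + 1 ≠ 0),
      Real.zero_rpow (by linarith : 2 * s + 1 ≠ 0)]
  obtain ⟨h1, h2⟩ := sech_integral hs
  have hr : 0 < s⁻¹ * a := by positivity
  have hfun : (fun x => soliton s⁻¹ a c x ^ (s + 1)) = fun x =>
      ((s⁻¹ + 1) * a ^ 2) ^ (s + 1) *
        (1 / Real.cosh (s⁻¹ * a * (x - c)) ^ 2) ^ (s + 1) := by
    funext x
    have hc := Real.cosh_pos (s⁻¹ * a * (x - c))
    rw [soliton, ← Real.mul_rpow (by positivity) (by positivity), mul_one_div]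
  rw [hfun]
  constructor
  · exact ((h1.comp_mul_left' hr.ne').comp_sub_right c).const_mul _
  · rw [integral_const_mul,
      integral_sub_right_eq_self (fun x : ℝ => (1 / Real.cosh (s⁻¹ * a * x) ^ 2) ^ (s + 1)) c,
      Measure.integral_comp_mul_left (fun y : ℝ => (1 / Real.cosh y ^ 2) ^ (s + 1)), h2,
      abs_of_pos (inv_pos.mpr hr), smul_eq_mul, kS]
    have hs1 : 0 < s + 1 := by linarith
    have e1 : s⁻¹ + 1 = (s + 1) / s := by field_simp; ring
    have e2 : (a ^ 2) ^ (s + 1) = a ^ (2 * s + 1) * a := by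
      rw [← Real.rpow_add_one ha.ne', ← Real.rpow_natCast, ← Real.rpow_mul ha.le]
      congr 1
      push_cast
      ring
    have p1 : 0 < s ^ s := Real.rpow_pos_of_pos hs _
    rw [Real.mul_rpow (by positivity) (by positivity), e1, Real.div_rpow hs1.le hs.le, e2,
      Real.rpow_add_one hs.ne' s]
    field_simp

end Crest.Agent.R332
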