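import Crest.Agent.R332.Basic

/-! A trial family as a matrix-valued function. -/

set_option autoImplicit false
open scoped Matrix.Norms.L2Operator ComplexOrder MatrixOrder Topology
open Matrix MeasureTheory Filter Set
open Crest.MathPhysics.LiebThirring

namespace Crest.Agent.R332

/-- The matrix with given columns, as a continuous linear map. -/
noncomputable def colL (m n : ℕ) : (Fin n → Vec m) →L[ℝ] Mat m n :=
  LinearMap.toContinuousLinearMap
    { toFun := fun v => Matrix.of fun i k => v k i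
      map_add' := fun v w => by ext i k; simp
      map_smul' := fun c v => by ext i k; simp }

lemma colL_apply {m n : ℕ} (v : Fin n → Vec m) (i : Fin m) (k : Fin n) :
    colL m n v i k = v k i := rfl

lemma colL_inner {m n : ℕ} (v : Fin n → Vec m) (k l : Fin n) :
    ((colL m n v)ᴴ * colL m n v) k l = inner ℂ (v k) (v l) := by
  simp [Matrix.mul_apply, colL_apply, PiLp.inner_apply, mul_comm]

lemma colL_inner_W {m n : ℕ} (v : Fin n → Vec m) (W : Mat m m) (k l : Fin n) :
    ((colL m n v)ᴴ * (W * colL m n v)) k l =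
      inner ℂ (v k) (Matrix.toEuclideanLin W (v l)) := by
  simp [Matrix.mul_apply, colL_apply, PiLp.inner_apply, mul_comm, Matrix.toLpLin_apply,
    Matrix.mulVec, dotProduct]

/-- traces against a matrix function with integrable entries -/
lemma integral_rtr_mul {n : ℕ} {E : ℝ → Mat n n} (hE : ∀ k l, Integrable fun x => E x k l)
    (X : Mat n n) : Integrable (fun x => rtr (X * E x)) ∧
      ∫ x, rtr (X * E x) = rtr (X * Matrix.of fun k l => ∫ x, E x k l) := by
  have h1 : ∀ k, Integrable fun x => (X * E x) k k := fun k => by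
    simp only [Matrix.mul_apply]
    exact integrable_finsetSum _ fun l _ => (hE l k).const_mul _
  simp only [rtr_eq_sum]
  refine ⟨integrable_finsetSum _ fun k _ => (h1 k).re, ?_⟩
  refine (integral_finsetSum _ fun k _ => (h1 k).re).trans ?_
  refine Finset.sum_congr rfl fun k _ => ?_
  refine (integral_re (h1 k)).trans ?_
  refine congrArg Complex.re ?_
  simp only [Matrix.mul_apply, Matrix.of_apply]
  rw [integral_finsetSum _ fun l _ => (hE l k).const_mul _]
  exact Finset.sum_congr rfl fun l _ => integral_const_mul _ _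

lemma rtr_le_add_rtr_mpow {m : ℕ} {p : ℝ} (hp : 1 ≤ p) {W : Mat m m} (hW : W.PosSemidef) :
    rtr W ≤ m + rtr (mpow W p) := by
  rw [rtr_eq_sum_eig hW.1, mpow, rtr_cfc hW.1]
  have : (m : ℝ) = ∑ _i : Fin m, (1 : ℝ) := by simp
  rw [this, ← Finset.sum_add_distrib]
  refine Finset.sum_le_sum fun i _ => ?_
  have h0 := hW.eigenvalues_nonneg i
  rcases le_total (hW.1.eigenvalues i) 1 with h | h
  · have := Real.rpow_nonneg h0 p
    linarith
  · have := Real.self_le_rpow_of_one_le h hp
    linarith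

lemma locInt_entry {m : ℕ} {p : ℝ} (hp : 1 ≤ p) (W : ℝ → Mat m m)
    (hW : ∀ i j, Measurable fun x => W x i j) (hWp : ∀ x, (W x).PosSemidef)
    (hWi : Integrable fun x => rtr (mpow (W x) p)) (i j : Fin m) :
    LocallyIntegrable fun x => W x i j := by
  have h1 : LocallyIntegrable fun x => (m : ℝ) + rtr (mpow (W x) p) :=
    (locallyIntegrable_const (m : ℝ)).add hWi.locallyIntegrable
  refine h1.mono (hW i j).aestronglyMeasurable (Eventually.of_forall fun x => ?_)
  exact ((norm_entry_le _ i j).trans ((norm_le_rtr (hWp x)).trans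
    (rtr_le_add_rtr_mpow hp (hWp x)))).trans (le_abs_self _)

lemma hcs_of_zero {E : Type*} [Zero E] {f : ℝ → E} {L : ℝ} (h : ∀ x, L ≤ |x| → f x = 0) :
    HasCompactSupport f := by
  refine HasCompactSupport.intro (isCompact_Icc (a := -L) (b := L)) fun x hx => h x ?_
  by_contra hL
  exact hx (abs_le.1 (not_le.1 hL).le)

lemma exists_zero_of_hcs {E : Type*} [Zero E] {ι : Type*} [Fintype ι] {f : ι → ℝ → E}
    (h : ∀ k, HasCompactSupport (f k)) : ∃ L : ℝ, 0 < L ∧ ∀ x, L ≤ |x| → ∀ k, x ∉ tsupport (f k) := by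
  have hb : Bornology.IsBounded (⋃ k, tsupport (f k)) :=
    Bornology.isBounded_iUnion.2 fun k => (h k).isCompact.isBounded
  obtain ⟨L, hL, hs⟩ := hb.subset_ball_lt 0 0
  refine ⟨L, hL, fun x hx k hk => ?_⟩
  have := hs (mem_iUnion.2 ⟨k, hk⟩)
  rw [mem_ball_zero_iff, Real.norm_eq_abs] at this
  linarith

theorem trial_matrix {m n : ℕ} {p : ℝ} (hp : 1 ≤ p) (W : ℝ → Mat m m)
    (hW : ∀ i j, Measurable fun x => W x i j) (hWp : ∀ x, (W x).PosSemidef)
    (hWi : Integrable fun x => rtr (mpow (W x) p)) (φ : Fin n → ℝ → Vec m)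
    (hφ : IsTrialFamily φ) :
    (energyMatrix W φ).IsHermitian ∧ ∃ (L : ℝ) (Φ Φ' : ℝ → Mat m n), 0 < L ∧
      (∀ x, HasDerivAt Φ (Φ' x) x) ∧ Continuous Φ' ∧ (∀ x, L ≤ |x| → Φ x = 0) ∧
      (∀ x, L ≤ |x| → Φ' x = 0) ∧
      (∀ X : Mat n n, ∫ x, rtr (X * ((Φ x)ᴴ * Φ x)) = rtr X) ∧
      ∀ B : Mat n n, Integrable (fun x => rtr (W x * (Φ x * B * (Φ x * B)ᴴ))) ∧
        (∫ x, fro2 (Φ' x * B)) - ∫ x, rtr (W x * (Φ x * B * (Φ x * B)ᴴ)) =
          rtr (Bᴴ * energyMatrix W φ * B) := by
  obtain ⟨hs, hc, ho⟩ := hφ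
  obtain ⟨L, hL, hsupp⟩ := exists_zero_of_hcs hc
  set Φ : ℝ → Mat m n := fun x => colL m n fun k => φ k x with hΦ
  set Φ' : ℝ → Mat m n := fun x => colL m n fun k => deriv (φ k) x with hΦ'
  have cΦ : Continuous Φ := (colL m n).continuous.comp (continuous_pi fun k => (hs k).continuous)
  have cΦ' : Continuous Φ' :=
    (colL m n).continuous.comp (continuous_pi fun k => (hs k).continuous_deriv (by simp))
  have z : ∀ x, L ≤ |x| → Φ x = 0 := fun x hx => by
    have : (fun k => φ k x) = 0 := funext fun k => image_eq_zero_of_notMem_tsupport (hsupp x hx k)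
    simp only [hΦ, this, map_zero]
  have z' : ∀ x, L ≤ |x| → Φ' x = 0 := fun x hx => by
    have : (fun k => deriv (φ k) x) = 0 := funext fun k => by
      by_contra h
      exact hsupp x hx k (support_deriv_subset h)
    simp only [hΦ', this, map_zero]
  have i0 : ∀ k l, Integrable fun x => ((Φ x)ᴴ * Φ x) k l := fun k l =>
    ((cΦ.matrix_conjTranspose.matrix_mul cΦ).matrix_elem k l).integrable_of_hasCompactSupport
      (hcs_of_zero (L := L) fun x hx => by simp [z x hx])
  have i1 : ∀ k l, Integrable fun x => ((Φ' x)ᴴ * Φ' x) k l := fun k l =>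
    ((cΦ'.matrix_conjTranspose.matrix_mul cΦ').matrix_elem k l).integrable_of_hasCompactSupport
      (hcs_of_zero (L := L) fun x hx => by simp [z' x hx])
  have i2 : ∀ k l, Integrable fun x => ((Φ x)ᴴ * (W x * Φ x)) k l := fun k l => by
    simp only [Matrix.mul_apply, Finset.mul_sum]
    refine integrable_finsetSum _ fun i _ => integrable_finsetSum _ fun j _ => ?_
    have := (locInt_entry hp W hW hWp hWi i j).integrable_smul_left_of_hasCompactSupport
      (g := fun x => (Φ x)ᴴ k i * Φ x j l)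
      ((cΦ.matrix_conjTranspose.matrix_elem k i).mul (cΦ.matrix_elem j l))
      (hcs_of_zero (L := L) fun x hx => by simp [z x hx])
    refine this.congr (Eventually.of_forall fun x => ?_)
    simp only [smul_eq_mul]; ring
  have hE : energyMatrix W φ = (Matrix.of fun k l => ∫ x, ((Φ' x)ᴴ * Φ' x) k l) -
      Matrix.of fun k l => ∫ x, ((Φ x)ᴴ * (W x * Φ x)) k l := by
    ext k l
    simp only [energyMatrix, Matrix.of_apply, Matrix.sub_apply]
    rw [← integral_sub (i1 k l) (i2 k l)]
    simp only [hΦ, hΦ', colL_inner, colL_inner_W]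
  have herm : ∀ E : ℝ → Mat n n, (∀ x, (E x).IsHermitian) →
      (Matrix.of fun k l => ∫ x, E x k l : Mat n n).IsHermitian := fun E hE => by
    ext k l
    simp only [conjTranspose_apply, Matrix.of_apply, RCLike.star_def]
    rw [← integral_conj]
    exact integral_congr_ae (Eventually.of_forall fun x => (hE x).apply k l)
  refine ⟨?_, L, Φ, Φ', hL, fun x => ?_, cΦ', z, z', fun X => ?_, fun B => ?_⟩
  · rw [hE]
    refine (herm _ fun x => isHermitian_conjTranspose_mul_self _).sub (herm _ fun x => ?_)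
    rw [← Matrix.mul_assoc]
    exact isHermitian_conjTranspose_mul_mul _ (hWp x).1
  · exact (colL m n).hasFDerivAt.comp_hasDerivAt x (hasDerivAt_pi.2 fun k =>
      ((hs k).differentiable (by simp) x).hasDerivAt)
  · rw [(integral_rtr_mul i0 X).2]
    have : (Matrix.of fun k l => ∫ x, ((Φ x)ᴴ * Φ x) k l : Mat n n) = 1 := by
      ext k l
      simp only [hΦ, colL_inner, Matrix.of_apply, ho, Matrix.one_apply]
    rw [this, Matrix.mul_one]
  · have e1 : ∀ x, rtr (W x * (Φ x * B * (Φ x * B)ᴴ)) = rtr (B * Bᴴ * ((Φ x)ᴴ * (W x * Φ x))) :=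
      fun x => by
      have : W x * (Φ x * B * (Φ x * B)ᴴ) = (W x * Φ x) * (B * Bᴴ * (Φ x)ᴴ) := by
        simp only [conjTranspose_mul, Matrix.mul_assoc]
      rw [this, rtr_mul_comm]; simp only [Matrix.mul_assoc]
    have e2 : ∀ x, fro2 (Φ' x * B) = rtr (B * Bᴴ * ((Φ' x)ᴴ * Φ' x)) := fun x => by
      have : (Φ' x * B)ᴴ * (Φ' x * B) = (Bᴴ * ((Φ' x)ᴴ * Φ' x)) * B := by
        simp only [conjTranspose_mul, Matrix.mul_assoc]
      rw [fro2, this, rtr_mul_comm]; simp only [Matrix.mul_assoc]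
    simp only [e1, e2]
    refine ⟨(integral_rtr_mul i2 _).1, ?_⟩
    rw [(integral_rtr_mul i1 _).2, (integral_rtr_mul i2 _).2, ← rtr_sub, ← Matrix.mul_sub, ← hE,
      rtr_mul_comm (Bᴴ * _) B, Matrix.mul_assoc]

end Crest.Agent.R332
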