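import Crest.Agent.R332.Riccati
import Crest.Agent.R332.Choice
import Crest.Agent.R332.Trial
import Crest.Agent.R332.Scalars

/-! From a trial family to Riccati data. -/

set_option autoImplicit false
open scoped Matrix.Norms.L2Operator ComplexOrder MatrixOrder Topology
open Matrix MeasureTheory Filter Set
open Crest.MathPhysics.LiebThirring

namespace Crest.Agent.R332

theorem dex_compact {E : Type} [Zero E] {f : ℝ → E} {L : ℝ} (h : ∀ x, L ≤ |x| → f x = 0) :
    HasCompactSupport f :=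
  HasCompactSupport.intro (isCompact_Icc (a := -L) (b := L)) fun x hx =>
    h x (not_lt.1 fun h' => hx (abs_le.1 h'.le))

theorem dex_int {f : ℝ → ℝ} (hc : Continuous f) {L : ℝ} (h : ∀ x, L ≤ |x| → f x = 0) :
    Integrable f := hc.integrable_of_hasCompactSupport (dex_compact h)

theorem Data.d2_integral {s : ℝ} (hs : 0 < s) {m : ℕ} (D : Data s m) :
    Integrable D.d2 ∧ Integrable (fun x => rtr (mpow (D.M x) (s + 1))) ∧
      ∫ x, D.d2 x = (∫ x, fro2 (D.Φ' x)) + (∫ x, rtr (D.K * D.K * ((D.Φ x)ᴴ * D.Φ x))) -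
        ∫ x, rtr (mpow (D.M x) (s + 1)) := by
  have cP : Continuous fun x => (D.Φ x)ᴴ * D.Φ x := D.cΦ.matrix_conjTranspose.matrix_mul D.cΦ
  have i1 : Integrable D.d2 :=
    dex_int (continuous_fro2.comp (D.cΦ'.sub (D.cΦ.matrix_mul D.cF))) (L := D.L) fun x hx => by
      simp [Data.d2, D.supp x hx, D.supp' x hx]
  have i2 : Integrable (fun x => rtr (mpow (D.M x) (s + 1))) :=
    dex_int (continuous_rtr.comp (continuous_mpow (D.cM hs) (fun x => (D.psdM x).1) (by linarith)))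
      (L := D.L) fun x hx => by
        rw [D.M_zero hs hx, mpow_zero_left (by linarith), rtr_zero]
  have i3 : Integrable (fun x => fro2 (D.Φ' x)) :=
    dex_int (continuous_fro2.comp D.cΦ') (L := D.L) fun x hx => by simp [D.supp' x hx]
  have i4 : Integrable (fun x => rtr (D.K * D.K * ((D.Φ x)ᴴ * D.Φ x))) :=
    dex_int (continuous_rtr.comp (continuous_const.matrix_mul cP)) (L := D.L) fun x hx => by
      simp [D.supp x hx]
  have i5 : Integrable (fun x => rtr ((D.Φ x)ᴴ * D.Φ x * D.F x)) :=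
    dex_int (continuous_rtr.comp (cP.matrix_mul D.cF)) (L := D.L) fun x hx => by
      simp [D.supp x hx]
  have hd : ∀ x, HasDerivAt (fun x => rtr ((D.Φ x)ᴴ * D.Φ x * D.F x))
      (fro2 (D.Φ' x) + rtr (D.K * D.K * ((D.Φ x)ᴴ * D.Φ x)) - rtr (mpow (D.M x) (s + 1)) -
        D.d2 x) x := by
    intro x
    refine (hd_rtr (hd_mul (hd_mul (hd_conjT (D.hΦ x)) (D.hΦ x)) (D.hF x))).congr_deriv ?_
    have hF : (D.F x)ᴴ = D.F x := (D.band x).hermF
    have hP := posSemidef_conjTranspose_mul_self (D.Φ x)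
    have e1 : mpow (D.M x) (s + 1) = (D.Φ x)ᴴ * D.Φ x * mpow ((D.Φ x)ᴴ * D.Φ x) s⁻¹ := by
      rw [Data.M, mpow_mpow hP, show s⁻¹ * (s + 1) = 1 + s⁻¹ by field_simp,
        mpow_add hP zero_le_one (inv_nonneg.2 hs.le), mpow_one hP.1]
    have e2 : rtr ((D.Φ x)ᴴ * D.Φ' x * D.F x) = rtr ((D.Φ' x)ᴴ * D.Φ x * D.F x) := by
      rw [← rtr_conjTranspose, conjTranspose_mul, conjTranspose_mul, conjTranspose_conjTranspose,
        hF, rtr_mul_comm]
    have e3 : fro2 (D.Φ x * D.F x) = rtr ((D.Φ x)ᴴ * D.Φ x * (D.F x * D.F x)) := by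
      rw [fro2, conjTranspose_mul, hF, Matrix.mul_assoc, rtr_mul_comm]
      simp only [Matrix.mul_assoc]
    rw [Data.d2, fro2_sub, e1, e3, UU, Matrix.add_mul, Matrix.mul_sub, Matrix.mul_sub, rtr_add,
      rtr_add, rtr_sub, rtr_sub, e2, rtr_mul_comm (D.K * D.K), ← Matrix.mul_assoc (D.Φ' x)ᴴ]
    ring
  have j1 : Integrable (fun x => fro2 (D.Φ' x) + rtr (D.K * D.K * ((D.Φ x)ᴴ * D.Φ x))) := i3.add i4
  have j2 : Integrable (fun x => fro2 (D.Φ' x) + rtr (D.K * D.K * ((D.Φ x)ᴴ * D.Φ x)) -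
      rtr (mpow (D.M x) (s + 1))) := j1.sub i2
  have h0 := integral_eq_zero_of_hasDerivAt_of_integrable hd (j2.sub i1) i5
  rw [integral_sub j2 i1, integral_sub j1 i2, integral_add i3 i4] at h0
  exact ⟨i1, i2, by linarith⟩

theorem exists_data {s : ℝ} (hs : 0 < s) {m : ℕ} (W : ℝ → Mat m m)
    (hW : ∀ i j, Measurable fun x => W x i j) (hWp : ∀ x, (W x).PosSemidef)
    (hWi : Integrable fun x => rtr (mpow (W x) (s + 1))) {n : ℕ} (φ : Fin n → ℝ → Vec m)
    (hφ : IsTrialFamily φ) {ε : ℝ} (hε : 0 < ε) :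
    ∃ D : Data s m, Integrable (D.d1 W) ∧
      (s + 1) * (∫ x, D.d1 W x) + (s + 1) * (∫ x, D.d2 x) + D.D3 +
          kS s * negMoment (energyMatrix W φ) (s + 1 / 2) - ε ≤
        ∫ x, rtr (mpow (W x) (s + 1)) := by
  have hp : 0 < s + 1 := by linarith
  obtain ⟨hA, L, Φ, Φ', hL, hΦ, cΦ', h0, h0', hX, hB⟩ :=
    trial_matrix (p := s + 1) (by linarith) W hW hWp hWi φ hφ
  obtain ⟨B, C, cB, hC, hK⟩ := exists_weight hA (γ := s + 1 / 2) (c := kS s / (s + 1))
    (ε := ε / (s + 1)) (by linarith) (div_pos (kS_pos hs) hp) (div_pos hε hp)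
  have cΦ : Continuous Φ := continuous_iff_continuousAt.2 fun x => (hΦ x).continuousAt
  obtain ⟨C₀, hC₀⟩ := cΦ.bounded_above_of_compact_support (dex_compact h0)
  have cΨ : Continuous fun q : Mat n n × ℝ => Φ q.2 * B q.1 :=
    (cΦ.comp continuous_snd).matrix_mul (cB.comp continuous_fst)
  obtain ⟨K, F, hb, hF, hl, hr⟩ := exists_riccati L hL
    (fun K x => mpow ((Φ x * B K)ᴴ * (Φ x * B K)) s⁻¹)
    (continuous_mpow (cΨ.matrix_conjTranspose.matrix_mul cΨ)
      (fun _ => isHermitian_conjTranspose_mul_self _) (inv_nonneg.2 hs.le))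
    (fun K x => mpow_psd (posSemidef_conjTranspose_mul_self _) _) ((C₀ * C * (C₀ * C)) ^ s⁻¹)
    (fun K x => by
      refine norm_mpow_le (posSemidef_conjTranspose_mul_self _) (inv_nonneg.2 hs.le) ?_
      have h1 : ‖Φ x * B K‖ ≤ C₀ * C := (norm_mul_le' _ _).trans
        (mul_le_mul (hC₀ x) (hC K) (norm_nonneg _) ((norm_nonneg _).trans (hC₀ x)))
      refine (norm_mul_le' _ _).trans ?_
      rw [norm_conjT]
      exact mul_self_le_mul_self (norm_nonneg _) h1)
    (fun K x hx => by simpa [h0 x hx] using mpow_zero_left (inv_ne_zero hs.ne'))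
  let D : Data s m :=
    { N := n, L := L, K := K, F := F, Φ := fun x => Φ x * B K, Φ' := fun x => Φ' x * B K
      hL := hL, band := hb
      hΦ := fun x => (hd_mul (hΦ x) (hasDerivAt_const x (B K))).congr_deriv (by simp)
      cΦ' := cΦ'.matrix_mul continuous_const
      supp := fun x hx => by simp [h0 x hx]
      supp' := fun x hx => by simp [h0' x hx]
      hF := hF, left := hl, right := hr }
  obtain ⟨-, i2, e2⟩ := D.d2_integral hs
  obtain ⟨i3, e3⟩ := hB (B K)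
  have i3' : Integrable fun x => rtr (W x * D.ρ x) := i3
  have j1 : Integrable fun x => rtr (mpow (W x) (s + 1)) / (s + 1) := hWi.div_const _
  have j2 : Integrable fun x => s / (s + 1) * rtr (mpow (D.M x) (s + 1)) := i2.const_mul _
  have j3 : Integrable fun x => rtr (mpow (W x) (s + 1)) / (s + 1) +
      s / (s + 1) * rtr (mpow (D.M x) (s + 1)) := j1.add j2
  refine ⟨D, j3.sub i3', ?_⟩
  have e1 : ∫ x, D.d1 W x = (∫ x, rtr (mpow (W x) (s + 1))) / (s + 1) +
      s / (s + 1) * (∫ x, rtr (mpow (D.M x) (s + 1))) - ∫ x, rtr (W x * D.ρ x) := by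
    simp only [Data.d1]
    rw [integral_sub j3 i3', integral_add j1 j2, integral_div, integral_const_mul]
  have e3' : (∫ x, fro2 (D.Φ' x)) - ∫ x, rtr (W x * D.ρ x) =
      rtr ((B K)ᴴ * energyMatrix W φ * B K) := e3
  have e4 : ∫ x, rtr (D.K * D.K * ((D.Φ x)ᴴ * D.Φ x)) = rtr (K * K * ((B K)ᴴ * B K)) := by
    have h1 : ∀ x, rtr (D.K * D.K * ((D.Φ x)ᴴ * D.Φ x)) =
        rtr (B K * (K * K * (B K)ᴴ) * ((Φ x)ᴴ * Φ x)) := fun x => by
      change rtr (K * K * ((Φ x * B K)ᴴ * (Φ x * B K))) = _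
      rw [Matrix.mul_assoc (B K), rtr_mul_comm (B K), conjTranspose_mul]
      simp only [Matrix.mul_assoc]
    simp only [h1]
    rw [hX, rtr_mul_comm, Matrix.mul_assoc]
  have h5 := mul_le_mul_of_nonneg_left (hK K (hb 0).psd) hp.le
  rw [show 2 * (s + 1 / 2) = 2 * s + 1 by ring] at h5
  have e5 : D.D3 = (∫ x, rtr (mpow (D.M x) (s + 1))) - kS s * rtr (mpow K (2 * s + 1)) := rfl
  rw [e1, e2, e4, e5]
  rw [← e3'] at h5
  have a1 : ∀ a : ℝ, (s + 1) * (a / (s + 1)) = a := fun a => by field_simp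
  have a2 : ∀ a b : ℝ, (s + 1) * (a / (s + 1) * b) = a * b := fun a b => by field_simp
  simp only [mul_sub, mul_add (s + 1), a1, a2] at h5 ⊢
  linarith

end Crest.Agent.R332
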