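import Mathlib
import Crest.Prelude.Def_LiebThirring

/-!
Row 332 (sharp matrix Lieb–Thirring).  Notation: `s = γ - 1/2 ∈ (0,1)`, `p = s+1`, `θ = s/(s+1)`,
`r = s⁻¹`.  All matrix norms `‖·‖` are the ℓ² operator norms (`open scoped Matrix.Norms.L2Operator`).
-/

set_option autoImplicit false
open scoped Matrix.Norms.L2Operator ComplexOrder MatrixOrder
open Matrix MeasureTheory

namespace Crest.Agent.R332

/-- Complex `m × n` matrices. -/
abbrev Mat (m n : ℕ) : Type := Matrix (Fin m) (Fin n) ℂ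

/-- Real part of the trace. -/
noncomputable def rtr {n : ℕ} (A : Mat n n) : ℝ := (Matrix.trace A).re

/-- Squared Frobenius norm. -/
noncomputable def fro2 {m n : ℕ} (A : Mat m n) : ℝ := rtr (Aᴴ * A)

/-- Frobenius norm. -/
noncomputable def fro {m n : ℕ} (A : Mat m n) : ℝ := √(fro2 A)

/-- Real power of a (positive semidefinite) matrix. `tracePow A p = rtr (mpow A p)` by `rfl`. -/
noncomputable def mpow {n : ℕ} (A : Mat n n) (t : ℝ) : Mat n n := cfc (fun x : ℝ => x ^ t) A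

/-- `β_s = ∫_{-1}^1 (1 - f²)^s df`. -/
noncomputable def betaS (s : ℝ) : ℝ := ∫ f in (-1 : ℝ)..1, (1 - f ^ 2) ^ s

/-- The reciprocal of the sharp constant: `p^p / s^s · β_s`. -/
noncomputable def kS (s : ℝ) : ℝ := (s + 1) ^ (s + 1) / s ^ s * betaS s

/-- `I_s = ∫_0^∞ λ^{s-1} log (1 + 1/λ) dλ`. -/
noncomputable def IS (s : ℝ) : ℝ := ∫ l in Set.Ioi (0 : ℝ), l ^ (s - 1) * Real.log (1 + 1 / l)

/-- `Θ_λ(y) = (λ + y) log (1 + y/λ) - y`. -/
noncomputable def Theta (l y : ℝ) : ℝ := (l + y) * Real.log (1 + y / l) - y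

/-- `ℓ_λ(κ) = ∫_{-κ}^{κ} log (1 + (κ² - f²)/λ) df`. -/
noncomputable def ell (l κ : ℝ) : ℝ := ∫ f in (-κ)..κ, Real.log (1 + (κ ^ 2 - f ^ 2) / l)

/-- `-K ≤ F ≤ K`. -/
def Band {n : ℕ} (K F : Mat n n) : Prop := (K - F).PosSemidef ∧ (K + F).PosSemidef

/-- `k = √(K² + λ)`. -/
noncomputable def kk {n : ℕ} (K : Mat n n) (l : ℝ) : Mat n n :=
  cfc (fun t : ℝ => √(t ^ 2 + l)) K

/-- `L = log (k + F) + log (k - F) - log λ`. -/
noncomputable def LL {n : ℕ} (K F : Mat n n) (l : ℝ) : Mat n n :=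
  cfc Real.log (kk K l + F) + cfc Real.log (kk K l - F) - (Real.log l) • (1 : Mat n n)

/-- `U = K² - F²`. -/
def UU {n : ℕ} (K F : Mat n n) : Mat n n := K * K - F * F

/-- `J(λ) = tr L (U + λ)`. -/
noncomputable def JJ {n : ℕ} (K F : Mat n n) (l : ℝ) : ℝ :=
  rtr (LL K F l * (UU K F + l • (1 : Mat n n)))

/-- `H(λ) = λ^s (J(λ) - tr U)`. -/
noncomputable def HH (s : ℝ) {n : ℕ} (K F : Mat n n) (l : ℝ) : ℝ :=
  l ^ s * (JJ K F l - rtr (UU K F))

/-- Commutator deficit `‖[F,k]‖_F²`. -/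
noncomputable def comm2 {n : ℕ} (K F : Mat n n) (l : ℝ) : ℝ := fro2 (F * kk K l - kk K l * F)

/-- Klein deficit `‖√(λ + θ M) - exp ((log (k+F) + log (k-F))/2)‖_F²`. -/
noncomputable def klDef (θ : ℝ) {n : ℕ} (K F M : Mat n n) (l : ℝ) : ℝ :=
  fro2 (cfc Real.sqrt (l • (1 : Mat n n) + θ • M) -
    cfc Real.exp ((1 / 2 : ℝ) • (cfc Real.log (kk K l + F) + cfc Real.log (kk K l - F))))

/-- The deficit density of the path inequality. -/
noncomputable def GG (θ : ℝ) {n : ℕ} (K F M : Mat n n) : ℝ :=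
  fro2 (θ • M - UU K F) / (1 + rtr M) + fro2 (F * (K * K) - K * K * F)

/-- A weighted trial family `Φ` (an `m × N` matrix function vanishing for `|x| ≥ L`) together with a
solution `F` of the Riccati equation `F' = K² - F² - (Φ*Φ)^{1/s}` running from `K` to `-K` inside
the band `-K ≤ F ≤ K`. -/
structure Data (s : ℝ) (m : ℕ) where
  N : ℕ
  L : ℝ
  K : Mat N N
  F : ℝ → Mat N N
  Φ : ℝ → Mat m N
  Φ' : ℝ → Mat m N
  hL : 0 < L
  band : ∀ x, Band K (F x)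
  hΦ : ∀ x, HasDerivAt Φ (Φ' x) x
  cΦ' : Continuous Φ'
  supp : ∀ x, L ≤ |x| → Φ x = 0
  supp' : ∀ x, L ≤ |x| → Φ' x = 0
  hF : ∀ x, HasDerivAt F (UU K (F x) - mpow ((Φ x)ᴴ * Φ x) s⁻¹) x
  left : ∀ x, x ≤ -L → F x = K
  right : ∀ x, L ≤ x → F x = -K

namespace Data
variable {s : ℝ} {m : ℕ} (D : Data s m)

/-- `M = (Φ*Φ)^{1/s}`. -/
noncomputable def M (x : ℝ) : Mat D.N D.N := mpow ((D.Φ x)ᴴ * D.Φ x) s⁻¹

/-- `ρ = ΦΦ*`. -/
noncomputable def ρ (x : ℝ) : Mat m m := D.Φ x * (D.Φ x)ᴴ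

/-- Young deficit. -/
noncomputable def d1 (W : ℝ → Mat m m) (x : ℝ) : ℝ :=
  rtr (mpow (W x) (s + 1)) / (s + 1) + s / (s + 1) * rtr (mpow (D.M x) (s + 1)) -
    rtr (W x * D.ρ x)

/-- Square-completion deficit. -/
noncomputable def d2 (x : ℝ) : ℝ := fro2 (D.Φ' x - D.Φ x * D.F x)

/-- Path deficit. -/
noncomputable def D3 : ℝ :=
  (∫ x, rtr (mpow (D.M x) (s + 1))) - kS s * rtr (mpow D.K (2 * s + 1))

/-- Density controlled by the path deficit. -/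
noncomputable def G (x : ℝ) : ℝ := GG (s / (s + 1)) D.K (D.F x) (D.M x)

end Data

end Crest.Agent.R332
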