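import Mathlib
import Crest.Prelude.Def_LiebThirring

/-! Scalar trial functions for a one-soliton potential. -/

set_option autoImplicit false
open scoped ContDiff Topology
open MeasureTheory Filter Set
open Crest.MathPhysics.LiebThirring

namespace Crest.Agent.R332

/-- Cut-offs of a positive formal ground state. -/
theorem scalar_trial {ψ f w : ℝ → ℝ} {a : ℝ} (hψ : ContDiff ℝ ∞ ψ) (h0 : ∀ x, 0 < ψ x)
    (h1 : ∀ x, ψ x ≤ 1) (hd : ∀ x, HasDerivAt ψ (f x * ψ x) x)
    (hf : ∀ x, HasDerivAt f (a ^ 2 - f x ^ 2 - w x) x) (hw : Continuous w) {δ : ℝ} (hδ : 0 < δ) :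
    ∃ u : ℝ → ℝ, ContDiff ℝ ∞ u ∧ HasCompactSupport u ∧ ∫ x, u x * u x = 1 ∧
      ∫ x, (deriv u x * deriv u x - u x * (w x * u x)) ≤ -a ^ 2 + δ := by
  let χ : ContDiffBump (0 : ℝ) := ⟨1, 2, one_pos, one_lt_two⟩
  have hχ : ContDiff ℝ ∞ χ := χ.contDiff
  have hχc : HasCompactSupport χ := χ.hasCompactSupport
  have hχd : Differentiable ℝ χ := hχ.differentiable (by simp)
  have hχ'c : Continuous (deriv χ) := hχ.continuous_deriv (by simp)
  have hψc : Continuous ψ := hψ.continuous
  have hfc : Continuous f := continuous_iff_continuousAt.2 (fun x => (hf x).continuousAt)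
  set I : ℝ := ∫ x, (χ x * ψ x) * (χ x * ψ x) with hI
  have hIpos : 0 < I := by
    refine Continuous.integral_pos_of_hasCompactSupport_nonneg_nonzero (x := 0)
      ((hχ.continuous.mul hψc).mul (hχ.continuous.mul hψc)) (hχc.mul_right.mul_right)
      (fun x => mul_self_nonneg _) ?_
    have : χ 0 = 1 := χ.one_of_mem_closedBall (by simp [χ])
    rw [this, one_mul]
    exact (mul_pos (h0 0) (h0 0)).ne'
  set C : ℝ := ∫ x, deriv χ x * deriv χ x with hC
  have hC0 : 0 ≤ C := integral_nonneg (fun x => mul_self_nonneg _)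
  set R : ℝ := max 2 (C / (I * δ)) with hR
  have hR2 : 2 ≤ R := le_max_left _ _
  have hR0 : 0 < R := by linarith
  have hRC : C ≤ R * (I * δ) := by
    rw [← div_le_iff₀ (mul_pos hIpos hδ)]
    exact le_max_right _ _
  let η : ℝ → ℝ := fun x => χ (x / R)
  let η' : ℝ → ℝ := fun x => deriv χ (x / R) / R
  have hη : ContDiff ℝ ∞ η := hχ.comp (contDiff_id.div_const R)
  have hηc : HasCompactSupport η := by
    refine HasCompactSupport.intro (isCompact_Icc (a := -(2 * R)) (b := 2 * R)) (fun x hx => ?_)
    refine χ.zero_of_le_dist ?_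
    change (2 : ℝ) ≤ _
    rw [Real.dist_eq, sub_zero, abs_div, abs_of_pos hR0, le_div_iff₀ hR0]
    by_contra h
    exact hx (abs_le.1 (le_of_lt (not_le.1 h)))
  have hηd : ∀ x, HasDerivAt η (η' x) x := by
    intro x
    have := (hχd (x / R)).hasDerivAt.comp x ((hasDerivAt_id x).div_const R)
    exact this.congr_deriv (by simp [η', div_eq_mul_inv])
  have hη'c : Continuous η' := (hχ'c.comp (continuous_id.div_const R)).div_const R
  have hη's : HasCompactSupport η' := by
    have : η' = deriv η := funext fun x => (hηd x).deriv.symm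
    rw [this]
    exact hηc.deriv
  have hηI : ∫ x, η' x * η' x = C / R := by
    have e : (fun x => η' x * η' x) =
        fun x => (1 / R ^ 2) * (fun y => deriv χ y * deriv χ y) (x / R) := by
      funext x
      simp only [η']
      field_simp
    rw [e, integral_const_mul, Measure.integral_comp_div (fun y => deriv χ y * deriv χ y),
      abs_of_pos hR0, smul_eq_mul, ← hC]
    field_simp
  set J : ℝ := ∫ x, (η x * ψ x) * (η x * ψ x) with hJ
  have hJi : Integrable (fun x => (η x * ψ x) * (η x * ψ x)) :=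
    ((hη.continuous.mul hψc).mul (hη.continuous.mul hψc)).integrable_of_hasCompactSupport
      hηc.mul_right.mul_right
  have hIJ : I ≤ J := by
    refine integral_mono
      (((hχ.continuous.mul hψc).mul (hχ.continuous.mul hψc)).integrable_of_hasCompactSupport
        hχc.mul_right.mul_right) hJi (fun x => ?_)
    have h : χ x ≤ η x := by
      by_cases hx : |x| ≤ 2
      · have : η x = 1 := by
          refine χ.one_of_mem_closedBall ?_
          change dist (x / R) 0 ≤ 1
          rw [Real.dist_eq, sub_zero, abs_div, abs_of_pos hR0, div_le_one hR0]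
          linarith
        rw [this]
        exact χ.le_one
      · have : χ x = 0 := by
          refine χ.zero_of_le_dist ?_
          change (2 : ℝ) ≤ _
          rw [Real.dist_eq, sub_zero]
          exact le_of_lt (not_le.1 hx)
        rw [this]
        exact χ.nonneg
    exact mul_self_le_mul_self (mul_nonneg χ.nonneg (h0 x).le)
      (mul_le_mul_of_nonneg_right h (h0 x).le)
  have hJ0 : 0 < J := hIpos.trans_le hIJ
  -- the total derivative
  let g : ℝ → ℝ := fun x => f x * ((η x * ψ x) * (η x * ψ x))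
  let g' : ℝ → ℝ := fun x => (a ^ 2 - f x ^ 2 - w x) * ((η x * ψ x) * (η x * ψ x)) +
    2 * f x * ((η' x * ψ x + η x * (f x * ψ x)) * (η x * ψ x))
  have hu : ∀ x, HasDerivAt (fun x => η x * ψ x) (η' x * ψ x + η x * (f x * ψ x)) x :=
    fun x => (hηd x).mul (hd x)
  have hg : ∀ x, HasDerivAt g (g' x) x := by
    intro x
    exact ((hf x).mul ((hu x).mul (hu x))).congr_deriv (by simp only [g', Pi.mul_apply]; ring)
  have hηcont := hη.continuous
  have hgi : Integrable g :=
    (by fun_prop : Continuous g).integrable_of_hasCompactSupport hηc.mul_right.mul_right.mul_left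
  have hg'i : Integrable g' :=
    (by fun_prop : Continuous g').integrable_of_hasCompactSupport
      (hηc.mul_right.mul_right.mul_left.add hηc.mul_right.mul_left.mul_left)
  have hg0 : ∫ x, g' x = 0 := integral_eq_zero_of_hasDerivAt_of_integrable hg hg'i hgi
  have hKi : Integrable (fun x => (η' x * ψ x) * (η' x * ψ x)) :=
    (by fun_prop : Continuous fun x => (η' x * ψ x) * (η' x * ψ x)).integrable_of_hasCompactSupport
      hη's.mul_right.mul_right
  have hK : ∫ x, (η' x * ψ x) * (η' x * ψ x) ≤ C / R := by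
    rw [← hηI]
    refine integral_mono hKi ((hη'c.mul hη'c).integrable_of_hasCompactSupport hη's.mul_right)
      (fun x => ?_)
    have h2 : ψ x * ψ x ≤ 1 := mul_le_one₀ (h1 x) (h0 x).le (h1 x)
    have h3 := mul_le_mul_of_nonneg_left h2 (mul_self_nonneg (η' x))
    change η' x * ψ x * (η' x * ψ x) ≤ η' x * η' x
    nlinarith
  set N : ℝ := (√J)⁻¹ with hN
  have hN2 : N * N * J = 1 := by
    have := Real.mul_self_sqrt hJ0.le
    have h2 := Real.sqrt_pos.2 hJ0
    rw [hN]
    field_simp
    nlinarith
  refine ⟨fun x => N * (η x * ψ x), contDiff_const.mul (hη.mul hψ), hηc.mul_right.mul_left, ?_, ?_⟩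
  · have e : (fun x => N * (η x * ψ x) * (N * (η x * ψ x))) =
        fun x => N * N * ((η x * ψ x) * (η x * ψ x)) := by
      funext x
      ring
    rw [e, integral_const_mul, ← hJ, hN2]
  · have e : (fun x => deriv (fun x => N * (η x * ψ x)) x * deriv (fun x => N * (η x * ψ x)) x -
        N * (η x * ψ x) * (w x * (N * (η x * ψ x)))) =
        fun x => N * N * (((η' x * ψ x) * (η' x * ψ x) + g' x) -
          a ^ 2 * ((η x * ψ x) * (η x * ψ x))) := by
      funext x
      rw [((hu x).const_mul N).deriv]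
      simp only [g']
      ring
    have hs : Integrable (fun x => (η' x * ψ x) * (η' x * ψ x) + g' x) := hKi.add hg'i
    rw [e, integral_const_mul, integral_sub hs (hJi.const_mul _),
      integral_add hKi hg'i, integral_const_mul, hg0, ← hJ, add_zero, mul_sub]
    have h2 : C / R ≤ J * δ := by
      rw [div_le_iff₀ hR0]
      have := mul_le_mul_of_nonneg_left (mul_le_mul_of_nonneg_right hIJ hδ.le) hR0.le
      linarith
    have h3 := mul_le_mul_of_nonneg_left (hK.trans h2) (mul_self_nonneg N)
    have h4 : N * N * (J * δ) = δ := by rw [← mul_assoc, hN2, one_mul]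
    have h5 : N * N * (a ^ 2 * J) = a ^ 2 := by
      rw [mul_left_comm, hN2, mul_one]
    linarith

theorem soliton_trial {s : ℝ} (hs : 0 < s) (a c : ℝ) {δ : ℝ} (hδ : 0 < δ) :
    ∃ u : ℝ → ℝ, ContDiff ℝ ∞ u ∧ HasCompactSupport u ∧ ∫ x, u x * u x = 1 ∧
      ∫ x, (deriv u x * deriv u x - u x * (soliton s⁻¹ a c x * u x)) ≤ -a ^ 2 + δ := by
  have hc : ∀ x, Real.cosh (s⁻¹ * a * (x - c)) ≠ 0 := fun x => (Real.cosh_pos _).ne'
  have hl : ∀ x, HasDerivAt (fun x => s⁻¹ * a * (x - c)) (s⁻¹ * a) x := fun x =>
    (((hasDerivAt_id x).sub_const c).const_mul (s⁻¹ * a)).congr_deriv (mul_one _)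
  refine scalar_trial (ψ := fun x => Real.exp (-s * Real.log (Real.cosh (s⁻¹ * a * (x - c)))))
    (f := fun x => -a * (Real.sinh (s⁻¹ * a * (x - c)) / Real.cosh (s⁻¹ * a * (x - c))))
    ?_ (fun x => Real.exp_pos _) (fun x => ?_) (fun x => ?_) (fun x => ?_) ?_ hδ
  · refine Real.contDiff_exp.comp (contDiff_const.mul (ContDiff.log ?_ hc))
    exact Real.contDiff_cosh.comp (contDiff_const.mul (contDiff_id.sub contDiff_const))
  · rw [Real.exp_le_one_iff]
    have := Real.log_nonneg (Real.one_le_cosh (s⁻¹ * a * (x - c)))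
    nlinarith
  · refine ((((hl x).cosh.log (hc x)).const_mul (-s)).exp).congr_deriv ?_
    have := hc x
    field_simp
  · refine (((hl x).sinh.div (hl x).cosh (hc x)).const_mul (-a)).congr_deriv ?_
    have h1 := hc x
    have h2 := Real.cosh_sq (s⁻¹ * a * (x - c))
    unfold soliton
    generalize Real.cosh (s⁻¹ * a * (x - c)) = C at h1 h2 ⊢
    generalize Real.sinh (s⁻¹ * a * (x - c)) = S at h2 ⊢
    field_simp
    rw [h2]
    ring
  · unfold soliton
    exact continuous_const.div (by fun_prop) (fun x => pow_ne_zero _ (hc x))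

end Crest.Agent.R332
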