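import Crest.Agent.R332.Basic
import Crest.Agent.R332.Scalars
import Crest.Agent.R332.SolitonAux

/-! Soliton sums are extremal. -/

set_option autoImplicit false
open scoped Matrix.Norms.L2Operator ComplexOrder MatrixOrder Topology
open Matrix MeasureTheory Filter Set
open Crest.MathPhysics.LiebThirring

namespace Crest.Agent.R332

theorem soliton_integral {s : ℝ} (hs : 0 < s) {m : ℕ} (W : ℝ → Mat m m)
    (U : Matrix.unitaryGroup (Fin m) ℂ) (a c : Fin m → ℝ) (ha : ∀ i, 0 ≤ a i)
    (hW : ∀ᵐ x : ℝ, W x = (U : Mat m m) *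
      Matrix.diagonal (fun i => ((soliton s⁻¹ (a i) (c i) x : ℝ) : ℂ)) * star (U : Mat m m)) :
    ∫ x, rtr (mpow (W x) (s + 1)) = kS s * ∑ i, a i ^ (2 * s + 1) := by
  have hU : (U : Mat m m) * (U : Mat m m)ᴴ = 1 := Unitary.mul_star_self_of_mem U.2
  have hU' : (U : Mat m m)ᴴ * (U : Mat m m) = 1 := Unitary.star_mul_self_of_mem U.2
  have h1 : (fun x => rtr (mpow (W x) (s + 1))) =ᵐ[volume]
      fun x => ∑ i, soliton s⁻¹ (a i) (c i) x ^ (s + 1) := by
    filter_upwards [hW] with x hx
    have hd : (Matrix.diagonal (fun i => ((soliton s⁻¹ (a i) (c i) x : ℝ) : ℂ))).IsHermitian :=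
      isHermitian_diagonal_of_self_adjoint _ (funext fun i => Complex.conj_ofReal _)
    rw [hx, mpow, star_eq_conjTranspose, cfc_conj hU hd, cfc_diagonal, rtr_mul_comm,
      ← Matrix.mul_assoc, hU', Matrix.one_mul, rtr_diagonal]
  rw [integral_congr_ae h1,
    integral_finsetSum _ (fun i _ => (integral_soliton_rpow hs (ha i) (c i)).1), Finset.mul_sum]
  exact Finset.sum_congr rfl (fun i _ => (integral_soliton_rpow hs (ha i) (c i)).2)

/-- The columns of a matrix as vectors. -/
noncomputable def colV {m : ℕ} (U : Mat m m) (i : Fin m) : Vec m := WithLp.toLp 2 (fun j => U j i)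

theorem inner_colV {m : ℕ} {U : Mat m m} (hU : Uᴴ * U = 1) (k l : Fin m) :
    inner ℂ (colV U k) (colV U l) = if k = l then (1 : ℂ) else 0 := by
  have := congrFun (congrFun hU k) l
  rw [Matrix.mul_apply, Matrix.one_apply] at this
  rw [← this, PiLp.inner_apply]
  refine Finset.sum_congr rfl (fun j _ => ?_)
  simp [colV, mul_comm]

theorem conj_colV {m : ℕ} {U : Mat m m} (hU : Uᴴ * U = 1) (d : Fin m → ℂ) (l : Fin m) :
    Matrix.toEuclideanLin (U * Matrix.diagonal d * Uᴴ) (colV U l) = d l • colV U l := by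
  have h : U * Matrix.diagonal d * Uᴴ * U = U * Matrix.diagonal d := by
    rw [Matrix.mul_assoc, hU, Matrix.mul_one]
  ext j
  have := congrFun (congrFun h j) l
  rw [Matrix.mul_diagonal, Matrix.mul_apply] at this
  simp only [colV, PiLp.smul_apply, smul_eq_mul]
  rw [mul_comm, ← this]
  rfl

theorem soliton_approx {s : ℝ} (hs : 0 < s) {m : ℕ} (W : ℝ → Mat m m)
    (U : Matrix.unitaryGroup (Fin m) ℂ) (a c : Fin m → ℝ) (ha : ∀ i, 0 ≤ a i)
    (hW : ∀ᵐ x : ℝ, W x = (U : Mat m m) *
      Matrix.diagonal (fun i => ((soliton s⁻¹ (a i) (c i) x : ℝ) : ℂ)) * star (U : Mat m m))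
    {ε : ℝ} (hε : 0 < ε) :
    ∃ φ : Fin m → ℝ → Vec m, IsTrialFamily φ ∧
      ∑ i, a i ^ (2 * s + 1) - ε < negMoment (energyMatrix W φ) (s + 1 / 2) := by
  have hU' : (U : Mat m m)ᴴ * (U : Mat m m) = 1 := Unitary.star_mul_self_of_mem U.2
  have hγ : 0 ≤ s + 1 / 2 := by linarith
  -- the choice of `δ`
  obtain ⟨δ, hδ, hδε⟩ : ∃ δ : ℝ, 0 < δ ∧
      ∑ i, a i ^ (2 * s + 1) - ε < ∑ i, (max (a i ^ 2 - δ) 0) ^ (s + 1 / 2) := by
    have hc : Continuous fun δ : ℝ => ∑ i, (max (a i ^ 2 - δ) 0) ^ (s + 1 / 2) :=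
      continuous_finsetSum _ (fun i _ => (Real.continuous_rpow_const hγ).comp (by fun_prop))
    have h0 : ∑ i, a i ^ (2 * s + 1) - ε < ∑ i, (max (a i ^ 2 - 0) 0) ^ (s + 1 / 2) := by
      have : ∀ i, (max (a i ^ 2 - 0) 0) ^ (s + 1 / 2) = a i ^ (2 * s + 1) := by
        intro i
        rw [sub_zero, max_eq_left (sq_nonneg _), ← Real.rpow_two, ← Real.rpow_mul (ha i)]
        congr 1
        ring
      simp only [this]
      linarith
    have h1 := (hc.tendsto 0).eventually (lt_mem_nhds h0)
    obtain ⟨δ, h2, h3⟩ := ((h1.filter_mono nhdsWithin_le_nhds).and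
      (self_mem_nhdsWithin (a := (0 : ℝ)) (s := Ioi 0))).exists
    exact ⟨δ, h3, h2⟩
  choose u hu huc hu1 huE using fun i => soliton_trial hs (a i) (c i) hδ
  have hud : ∀ i x, HasDerivAt (fun x => ((u i x : ℝ) : ℂ) • colV (U : Mat m m) i)
      (((deriv (u i) x : ℝ) : ℂ) • colV (U : Mat m m) i) x := fun i x =>
    (((hu i).differentiable (by simp) x).hasDerivAt.ofReal_comp).smul_const _
  refine ⟨fun i x => ((u i x : ℝ) : ℂ) • colV (U : Mat m m) i, ⟨fun i => ?_, fun i => ?_,
    fun k l => ?_⟩, hδε.trans_le ?_⟩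
  · exact (Complex.ofRealCLM.contDiff.comp (hu i)).smul contDiff_const
  · exact (huc i).comp_left (g := fun t : ℝ => (t : ℂ) • colV (U : Mat m m) i) (by simp)
  · simp only [inner_smul_left, inner_smul_right, inner_colV hU', Complex.conj_ofReal]
    split_ifs with h
    · subst h
      simp only [mul_one, ← Complex.ofReal_mul]
      rw [integral_complex_ofReal, hu1]
      rfl
    · simp
  · have hE : energyMatrix W (fun i x => ((u i x : ℝ) : ℂ) • colV (U : Mat m m) i) =
        diagonal fun i => ((∫ x, (deriv (u i) x * deriv (u i) x -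
          u i x * (soliton s⁻¹ (a i) (c i) x * u i x)) : ℝ) : ℂ) := by
      ext k l
      rw [energyMatrix, Matrix.of_apply, Matrix.diagonal_apply]
      split_ifs with h
      · subst h
        rw [← integral_complex_ofReal]
        refine integral_congr_ae ?_
        filter_upwards [hW] with x hx
        rw [(hud k x).deriv, hx, star_eq_conjTranspose, map_smul, conj_colV hU']
        simp only [inner_smul_left, inner_smul_right, inner_colV hU', Complex.conj_ofReal, if_true]
        push_cast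
        ring
      · rw [← integral_zero ℝ ℂ (μ := volume)]
        refine integral_congr_ae ?_
        filter_upwards [hW] with x hx
        rw [(hud k x).deriv, (hud l x).deriv, hx, star_eq_conjTranspose, map_smul, conj_colV hU']
        simp only [inner_smul_left, inner_smul_right, inner_colV hU', if_neg h, mul_zero, sub_zero]
    rw [hE, negMoment, cfc_diagonal]
    change _ ≤ rtr _
    rw [rtr_diagonal]
    refine Finset.sum_le_sum (fun i _ => Real.rpow_le_rpow (le_max_right _ _) ?_ hγ)
    exact max_le_max_right _ (by linarith [huE i])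

end Crest.Agent.R332
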