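import Crest.Agent.R332.Rigid
import Crest.Agent.R332.Soliton

/-! Row 332: final assembly. -/

set_option autoImplicit false
open scoped Matrix.Norms.L2Operator ComplexOrder MatrixOrder Topology
open Matrix MeasureTheory Filter Set
open Crest.MathPhysics.LiebThirring

namespace Crest.Agent.R332

theorem main_ineq {s : ℝ} (hs : 0 < s) (hs1 : s < 1) {m : ℕ} (W : ℝ → Mat m m)
    (hW : ∀ i j, Measurable fun x => W x i j) (hWp : ∀ x, (W x).PosSemidef)
    (hWi : Integrable fun x => rtr (mpow (W x) (s + 1))) {n : ℕ} (φ : Fin n → ℝ → Vec m)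
    (hφ : IsTrialFamily φ) :
    negMoment (energyMatrix W φ) (s + 1 / 2) ≤ (kS s)⁻¹ * ∫ x, rtr (mpow (W x) (s + 1)) := by
  have hk := kS_pos hs
  rw [le_inv_mul_iff₀ hk]
  refine le_of_forall_pos_le_add fun ε hε => ?_
  obtain ⟨D, -, h⟩ := exists_data hs W hW hWp hWi φ hφ hε
  have h1 : 0 ≤ ∫ x, D.d1 W x := integral_nonneg (D.d1_nonneg hs hs1 hWp)
  have h2 : 0 ≤ ∫ x, D.d2 x := integral_nonneg fun x => fro2_nonneg _
  have h3 := D.D3_nonneg hs hs1
  nlinarith [mul_nonneg (by linarith : 0 ≤ s + 1) h1, mul_nonneg (by linarith : 0 ≤ s + 1) h2]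

theorem main_iff {s : ℝ} (hs : 0 < s) (hs1 : s < 1) {m : ℕ} (W : ℝ → Mat m m)
    (hW : ∀ i j, Measurable fun x => W x i j) (hWp : ∀ x, (W x).PosSemidef)
    (hWi : Integrable fun x => rtr (mpow (W x) (s + 1))) :
    (∀ ε : ℝ, 0 < ε → ∃ (n : ℕ) (φ : Fin n → ℝ → Vec m), IsTrialFamily φ ∧
        (kS s)⁻¹ * (∫ x, rtr (mpow (W x) (s + 1))) - ε <
          negMoment (energyMatrix W φ) (s + 1 / 2)) ↔
      ∃ (U : Matrix.unitaryGroup (Fin m) ℂ) (a c : Fin m → ℝ), (∀ i, 0 ≤ a i) ∧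
        ∀ᵐ x : ℝ, W x = (U : Mat m m) *
          Matrix.diagonal (fun i => ((soliton s⁻¹ (a i) (c i) x : ℝ) : ℂ)) *
            star (U : Mat m m) := by
  have hk := kS_pos hs
  constructor
  · intro h
    have key : ∀ j : ℕ, ∃ D : Data s m, Integrable (D.d1 W) ∧
        ∫ x, D.d1 W x ≤ (kS s + 1) * (1 / 2) ^ j ∧ ∫ x, D.d2 x ≤ (kS s + 1) * (1 / 2) ^ j ∧
          D.D3 ≤ (kS s + 1) * (1 / 2) ^ j := by
      intro j
      have hε : (0 : ℝ) < (1 / 2) ^ j := by positivity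
      obtain ⟨n, φ, hφ, hlt⟩ := h _ hε
      obtain ⟨D, hi, hD⟩ := exists_data hs W hW hWp hWi φ hφ hε
      have h1 : 0 ≤ ∫ x, D.d1 W x := integral_nonneg (D.d1_nonneg hs hs1 hWp)
      have h2 : 0 ≤ ∫ x, D.d2 x := integral_nonneg fun x => fro2_nonneg _
      have h3 := D.D3_nonneg hs hs1
      have h4 := mul_lt_mul_of_pos_left hlt hk
      rw [mul_sub, ← mul_assoc, mul_inv_cancel₀ hk.ne', one_mul] at h4
      have h5 := mul_nonneg hs.le h1
      have h6 := mul_nonneg hs.le h2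
      refine ⟨D, hi, ?_, ?_, ?_⟩ <;> nlinarith
    choose D hi h1 h2 h3 using key
    exact rigid hs hs1 W hWp hWi D _
      ((summable_geometric_of_lt_one (by norm_num) (by norm_num)).mul_left _) hi h1 h2 h3
  · rintro ⟨U, a, c, ha, hU⟩ ε hε
    obtain ⟨φ, hφ, h⟩ := soliton_approx hs W U a c ha hU hε
    refine ⟨m, φ, hφ, ?_⟩
    rwa [soliton_integral hs W U a c ha hU, ← mul_assoc, inv_mul_cancel₀ hk.ne', one_mul]

end Crest.Agent.R332
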