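import Crest.Agent.R332.Basic

/-! Golden–Thompson inequality and a Duhamel estimate. -/

set_option autoImplicit false
open scoped Matrix.Norms.L2Operator ComplexOrder MatrixOrder Topology
open Matrix MeasureTheory Filter Set
open Crest.MathPhysics.LiebThirring

namespace Crest.Agent.R332

section Aux
variable {n : ℕ}

lemma gt_rtr_pow_comm (A B : Mat n n) (j : ℕ) : rtr ((A * B) ^ j) = rtr ((B * A) ^ j) := by
  cases j with
  | zero => simp
  | succ j =>
    rw [pow_succ, ← mul_assoc, mul_pow_mul, pow_succ, mul_assoc, rtr_mul_comm, mul_assoc]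

lemma gt_dyadic (k : ℕ) : ∀ X Y : Mat n n, rtr ((X * Y) ^ 2 ^ k) ≤
    (rtr ((Xᴴ * X) ^ 2 ^ k) + rtr ((Yᴴ * Y) ^ 2 ^ k)) / 2 := by
  induction k with
  | zero =>
    intro X Y
    simp only [pow_zero, pow_one]
    have h1 := (le_abs_self _).trans (abs_rtr_mul_le X Y)
    have h2 := fro_sq X
    have h3 := fro_sq Y
    change _ ≤ (fro2 X + fro2 Y) / 2
    nlinarith [sq_nonneg (fro X - fro Y)]
  | succ k ih =>
    intro X Y
    have e : ∀ Z : Mat n n, Z ^ 2 ^ (k + 1) = (Z * Z) ^ 2 ^ k := fun Z => by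
      rw [pow_succ', pow_mul, sq]
    have h1 := ih (X * Y) (X * Y)
    have h2 := ih (Xᴴ * X) (Y * Yᴴ)
    have e1 : rtr (((X * Y)ᴴ * (X * Y)) ^ 2 ^ k) = rtr ((Xᴴ * X * (Y * Yᴴ)) ^ 2 ^ k) := by
      rw [conjTranspose_mul, Matrix.mul_assoc, gt_rtr_pow_comm]
      simp only [Matrix.mul_assoc]
    rw [e1] at h1
    rw [(isHermitian_conjTranspose_mul_self X).eq, (isHermitian_mul_conjTranspose_self Y).eq,
      ← e, ← e, gt_rtr_pow_comm Y] at h2
    rw [e (X * Y)]
    linarith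

lemma gt_herm (k : ℕ) : ∀ A B : Mat n n, A.IsHermitian → B.IsHermitian →
    rtr ((A * B) ^ 2 ^ k) ≤ rtr (A ^ 2 ^ k * B ^ 2 ^ k) := by
  induction k with
  | zero => intro A B _ _; simp
  | succ k ih =>
    intro A B hA hB
    have e : ∀ Z : Mat n n, Z ^ 2 ^ (k + 1) = (Z * Z) ^ 2 ^ k := fun Z => by
      rw [pow_succ', pow_mul, sq]
    have h1 := gt_dyadic k (A * B) (A * B)
    have e1 : rtr (((A * B)ᴴ * (A * B)) ^ 2 ^ k) = rtr ((A * A * (B * B)) ^ 2 ^ k) := by
      rw [conjTranspose_mul, hA.eq, hB.eq, Matrix.mul_assoc, gt_rtr_pow_comm]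
      simp only [Matrix.mul_assoc]
    have hAA : (A * A).IsHermitian := by
      have := isHermitian_conjTranspose_mul_self A
      rwa [hA.eq] at this
    have hBB : (B * B).IsHermitian := by
      have := isHermitian_conjTranspose_mul_self B
      rwa [hB.eq] at this
    have h2 := ih _ _ hAA hBB
    rw [e, e, e]
    rw [e1] at h1
    linarith

lemma gt_herm_smul {A : Mat n n} (hA : A.IsHermitian) (t : ℝ) : (t • A).IsHermitian := by
  change _ = _
  rw [conjTranspose_smul, hA.eq]; rfl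

lemma gt_exp_smul {A : Mat n n} (hA : A.IsHermitian) (t : ℝ) :
    cfc Real.exp (t • A) = cfc (fun x => Real.exp (t * x)) A := by
  rw [← cfc_cfc Real.exp (fun x => t * x) hA, cfc_const_mul', cfc_id'' hA]

lemma gt_norm_exp_le {A : Mat n n} {c : ℝ} (h : ‖A‖ ≤ c) : ‖cfc Real.exp A‖ ≤ Real.exp c :=
  norm_cfc_le' (Real.exp_pos _).le fun x hx => by
    rw [abs_of_pos (Real.exp_pos _)]
    exact Real.exp_le_exp.2 ((le_abs_self _).trans ((spec_abs_le _ hx).trans h))

lemma gt_exp_zero : cfc Real.exp (0 : Mat n n) = 1 := by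
  have := gt_exp_smul (isHermitian_zero (n := Fin n) (α := ℂ)) 0
  rw [zero_smul] at this
  rw [this]
  simp only [zero_mul, Real.exp_zero]
  rw [cfc_const' 1 isHermitian_zero, one_smul]

lemma gt_exp_pow {A : Mat n n} (hA : A.IsHermitian) (j : ℕ) :
    cfc Real.exp A ^ j = cfc Real.exp ((j : ℝ) • A) := by
  rw [gt_exp_smul hA]
  induction j with
  | zero => simp only [pow_zero, Nat.cast_zero, zero_mul, Real.exp_zero]
            rw [cfc_const' 1 hA, one_smul]
  | succ j ih =>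
    rw [pow_succ, ih, ← cfc_mul']
    congr 1
    ext x
    rw [← Real.exp_add]; congr 1; push_cast; ring

lemma gt_hasDerivAt {A : Mat n n} (hA : A.IsHermitian) (t : ℝ) :
    HasDerivAt (fun u : ℝ => cfc Real.exp (u • A)) (cfc Real.exp (t • A) * A) t := by
  have e : ∀ u : ℝ, cfc Real.exp (u • A) = NormedSpace.exp (u • A) := fun u =>
    CFC.real_exp_eq_normedSpace_exp (gt_herm_smul hA u).isSelfAdjoint
  simp only [e]
  exact hasDerivAt_exp_smul_const A t

lemma gt_exp_comm {A : Mat n n} (hA : A.IsHermitian) (t : ℝ) :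
    cfc Real.exp (t • A) * A = A * cfc Real.exp (t • A) := by
  rw [gt_exp_smul hA]
  have := cfc_comm (fun x => Real.exp (t * x)) (fun x => x) A
  rwa [cfc_id'' hA] at this

lemma gt_pow_sub_pow {X Y : Mat n n} {M : ℝ} (hM : 1 ≤ M) (hX : ‖X‖ ≤ M) (hY : ‖Y‖ ≤ M) (j : ℕ) :
    ‖X ^ j‖ ≤ M ^ j ∧ ‖X ^ j - Y ^ j‖ ≤ j * M ^ j * ‖X - Y‖ := by
  induction j with
  | zero => simpa using norm_one_le
  | succ j ih =>
    have hM0 : 0 ≤ M := by linarith
    refine ⟨?_, ?_⟩
    · rw [pow_succ, pow_succ]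
      exact (norm_mul_le' _ _).trans (mul_le_mul ih.1 hX (norm_nonneg _) (by positivity))
    · have e : X ^ (j + 1) - Y ^ (j + 1) = X ^ j * (X - Y) + (X ^ j - Y ^ j) * Y := by
        rw [pow_succ, pow_succ, mul_sub, sub_mul]; abel
      rw [e]
      have h1 : ‖X ^ j * (X - Y)‖ ≤ M ^ (j + 1) * ‖X - Y‖ :=
        (norm_mul_le' _ _).trans (mul_le_mul_of_nonneg_right
          (ih.1.trans (pow_le_pow_right₀ hM (Nat.le_succ j))) (norm_nonneg _))
      have h2 : ‖(X ^ j - Y ^ j) * Y‖ ≤ j * M ^ j * ‖X - Y‖ * M :=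
        (norm_mul_le' _ _).trans (mul_le_mul ih.2 hY (norm_nonneg _) (by positivity))
      refine (norm_add_le _ _).trans ?_
      push_cast
      rw [pow_succ] at h1 ⊢
      nlinarith

/-- Lie–Trotter product formula along the dyadic sequence. -/
lemma gt_trotter {α β : Mat n n} (hα : α.IsHermitian) (hβ : β.IsHermitian) :
    Tendsto (fun k : ℕ => (cfc Real.exp (((2 : ℝ) ^ k)⁻¹ • α) *
      cfc Real.exp (((2 : ℝ) ^ k)⁻¹ • β)) ^ 2 ^ k) atTop (𝓝 (cfc Real.exp (α + β))) := by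
  have hαβ := hα.add hβ
  have hD : HasDerivAt (fun u : ℝ => cfc Real.exp (u • α) * cfc Real.exp (u • β) -
      cfc Real.exp (u • (α + β))) 0 0 := by
    refine ((hd_mul (gt_hasDerivAt hα 0) (gt_hasDerivAt hβ 0)).sub
      (gt_hasDerivAt hαβ 0)).congr_deriv ?_
    simp
  rw [hasDerivAt_iff_tendsto_slope_zero] at hD
  have ht : Tendsto (fun k : ℕ => ((2 : ℝ) ^ k)⁻¹) atTop (𝓝[≠] 0) := by
    refine tendsto_nhdsWithin_iff.2 ⟨?_, Eventually.of_forall fun k => ?_⟩
    · exact tendsto_inv_atTop_zero.comp (tendsto_pow_atTop_atTop_of_one_lt one_lt_two)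
    · simp
  have h1 := (hD.comp ht).norm.const_mul (Real.exp (‖α‖ + ‖β‖))
  rw [norm_zero, mul_zero] at h1
  rw [tendsto_iff_norm_sub_tendsto_zero]
  refine squeeze_zero (fun _ => norm_nonneg _) (fun k => ?_) h1
  set t : ℝ := ((2 : ℝ) ^ k)⁻¹ with ht
  have ht0 : 0 < t := by positivity
  have htk : ((2 ^ k : ℕ) : ℝ) * t = 1 := by
    rw [ht]; push_cast; field_simp
  have e0 : cfc Real.exp (α + β) = cfc Real.exp (t • (α + β)) ^ 2 ^ k := by
    rw [gt_exp_pow (gt_herm_smul hαβ t), smul_smul, htk, one_smul]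
  have n1 : ∀ A : Mat n n, ‖t • A‖ ≤ t * ‖A‖ := fun A => by
    rw [norm_smul, Real.norm_of_nonneg ht0.le]
  have hX : ‖cfc Real.exp (t • α) * cfc Real.exp (t • β)‖ ≤ Real.exp (t * (‖α‖ + ‖β‖)) := by
    rw [mul_add, Real.exp_add]
    exact (norm_mul_le' _ _).trans (mul_le_mul (gt_norm_exp_le (n1 α)) (gt_norm_exp_le (n1 β))
      (norm_nonneg _) (Real.exp_pos _).le)
  have hY : ‖cfc Real.exp (t • (α + β))‖ ≤ Real.exp (t * (‖α‖ + ‖β‖)) :=
    gt_norm_exp_le ((n1 _).trans (mul_le_mul_of_nonneg_left (norm_add_le _ _) ht0.le))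
  have h2 := (gt_pow_sub_pow (Real.one_le_exp (by positivity)) hX hY (2 ^ k)).2
  rw [← Real.exp_nat_mul, ← mul_assoc _ t, htk, one_mul] at h2
  rw [e0]
  refine h2.trans (le_of_eq ?_)
  simp only [Function.comp, zero_add, zero_smul, gt_exp_zero, mul_one, sub_self, sub_zero,
    norm_smul, ← ht]
  rw [Real.norm_of_nonneg (inv_pos.2 ht0).le, eq_inv_of_mul_eq_one_left htk]
  ring

lemma gt_abs_sub_le {x y c : ℝ} (hx : |x| ≤ c) (hy : |y| ≤ c) :
    |x - y| ≤ Real.exp c * |Real.exp x - Real.exp y| := by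
  wlog h : y ≤ x generalizing x y
  · rw [abs_sub_comm, abs_sub_comm (Real.exp x)]; exact this hy hx (le_of_not_ge h)
  rw [abs_of_nonneg (sub_nonneg.2 h), abs_of_nonneg (sub_nonneg.2 (Real.exp_le_exp.2 h))]
  have h1 := Real.add_one_le_exp (x - y)
  have h2 : Real.exp x = Real.exp y * Real.exp (x - y) := by rw [← Real.exp_add]; ring_nf
  have h3 : 1 ≤ Real.exp c * Real.exp y := by
    rw [← Real.exp_add]; exact Real.one_le_exp (by linarith [neg_abs_le y])
  calc x - y ≤ Real.exp c * Real.exp y * (x - y) := le_mul_of_one_le_left (sub_nonneg.2 h) h3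
    _ ≤ Real.exp c * Real.exp y * (Real.exp (x - y) - 1) :=
        mul_le_mul_of_nonneg_left (by linarith) (by positivity)
    _ = _ := by rw [h2]; ring

lemma gt_abs_exp_sub_le {x y c : ℝ} (hx : |x| ≤ c) (hy : |y| ≤ c) :
    |Real.exp x - Real.exp y| ≤ Real.exp c * |x - y| := by
  wlog h : y ≤ x generalizing x y
  · rw [abs_sub_comm, abs_sub_comm x]; exact this hy hx (le_of_not_ge h)
  rw [abs_of_nonneg (sub_nonneg.2 h), abs_of_nonneg (sub_nonneg.2 (Real.exp_le_exp.2 h))]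
  have h1 := Real.add_one_le_exp (y - x)
  have h2 : Real.exp y = Real.exp x * Real.exp (y - x) := by rw [← Real.exp_add]; ring_nf
  have h3 : Real.exp x ≤ Real.exp c := Real.exp_le_exp.2 ((le_abs_self x).trans hx)
  calc Real.exp x - Real.exp y = Real.exp x * (1 - Real.exp (y - x)) := by rw [h2]; ring
    _ ≤ Real.exp x * (x - y) := mul_le_mul_of_nonneg_left (by linarith) (by positivity)
    _ ≤ _ := by gcongr

lemma gt_comm_le {α β : Mat n n} (hα : α.IsHermitian) (hβ : β.IsHermitian) {c t : ℝ}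
    (ha : ‖α‖ ≤ c) (hb : ‖β‖ ≤ c) (ht : t ∈ Icc (0 : ℝ) 1) :
    fro (α * cfc Real.exp (t • β) - cfc Real.exp (t • β) * α) ≤
      Real.exp c * (Real.exp c * Real.exp c *
        fro (cfc Real.exp α * cfc Real.exp β - cfc Real.exp β * cfc Real.exp α)) := by
  have h1 := fro_cfc_comm_le hα hα (cfc Real.exp (t • β)) (fun x => x) (fun x => x) Real.exp
    Real.exp (Real.exp_pos c).le fun x hx y hy =>
      gt_abs_sub_le ((spec_abs_le _ hx).trans ha) ((spec_abs_le _ hy).trans ha)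
  rw [cfc_id'' hα] at h1
  refine h1.trans (mul_le_mul_of_nonneg_left ?_ (Real.exp_pos c).le)
  rw [fro_sub_comm, fro_sub_comm (cfc Real.exp α * _), gt_exp_smul hβ]
  refine fro_cfc_comm_le hβ hβ (cfc Real.exp α) _ _ Real.exp Real.exp (by positivity)
    fun x hx y hy => ?_
  have hx' := (spec_abs_le _ hx).trans hb
  have hy' := (spec_abs_le _ hy).trans hb
  have key : ∀ z : ℝ, |t * z| ≤ |z| := fun z => by
    rw [abs_mul, abs_of_nonneg ht.1]
    exact mul_le_of_le_one_left (abs_nonneg _) ht.2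
  refine (gt_abs_exp_sub_le ((key x).trans hx') ((key y).trans hy')).trans ?_
  rw [mul_assoc, ← mul_sub]
  exact mul_le_mul_of_nonneg_left ((key _).trans (gt_abs_sub_le hx' hy')) (Real.exp_pos c).le

end Aux

theorem golden_thompson {n : ℕ} {α β : Mat n n} (hα : α.IsHermitian) (hβ : β.IsHermitian) :
    rtr (cfc Real.exp (α + β)) ≤ rtr (cfc Real.exp α * cfc Real.exp β) := by
  refine le_of_tendsto' ((continuous_rtr.tendsto _).comp (gt_trotter hα hβ)) fun k => ?_
  refine (gt_herm k _ _ (cfc_herm _ _) (cfc_herm _ _)).trans (le_of_eq ?_)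
  have htk : ((2 ^ k : ℕ) : ℝ) * ((2 : ℝ) ^ k)⁻¹ = 1 := by
    push_cast; field_simp
  rw [gt_exp_pow (gt_herm_smul hα _), gt_exp_pow (gt_herm_smul hβ _), smul_smul, smul_smul, htk,
    one_smul, one_smul]

theorem exp_add_sub_le (c : ℝ) : ∃ C : ℝ, 0 ≤ C ∧ ∀ (n : ℕ) (α β : Mat n n), α.IsHermitian →
    β.IsHermitian → ‖α‖ ≤ c → ‖β‖ ≤ c →
      fro (cfc Real.exp (α + β) - cfc Real.exp α * cfc Real.exp β) ≤
        C * fro (cfc Real.exp α * cfc Real.exp β - cfc Real.exp β * cfc Real.exp α) := by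
  refine ⟨Real.exp c * (Real.exp c * (Real.exp c * Real.exp c)) * Real.exp (c + c),
    by positivity, fun n α β hα hβ ha hb => ?_⟩
  have hαβ := hα.add hβ
  set R := fro (cfc Real.exp α * cfc Real.exp β - cfc Real.exp β * cfc Real.exp α) with hR
  have hR0 : 0 ≤ R := fro_nonneg _
  set Z := cfc Real.exp α * cfc Real.exp β - cfc Real.exp (α + β) with hZ
  let g : ℝ → Mat n n := fun t =>
    cfc Real.exp (t • α) * cfc Real.exp (t • β) * cfc Real.exp ((1 - t) • (α + β))
  let g' : ℝ → Mat n n := fun t =>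
    cfc Real.exp (t • α) * (α * cfc Real.exp (t • β) - cfc Real.exp (t • β) * α) *
      cfc Real.exp ((1 - t) • (α + β))
  have hg : ∀ t, HasDerivAt g (g' t) t := fun t => by
    have h3 : HasDerivAt (fun u : ℝ => cfc Real.exp ((1 - u) • (α + β)))
        ((-1 : ℝ) • (cfc Real.exp ((1 - t) • (α + β)) * (α + β))) t :=
      (gt_hasDerivAt hαβ (1 - t)).scomp t ((hasDerivAt_id t).const_sub 1)
    refine (hd_mul (hd_mul (gt_hasDerivAt hα t) (gt_hasDerivAt hβ t)) h3).congr_deriv ?_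
    rw [gt_exp_comm hαβ]
    simp only [g', neg_smul, one_smul, mul_add, add_mul, mul_sub, sub_mul, mul_neg, mul_assoc]
    abel
  have hφ : ∀ t, HasDerivAt (fun u => rtr (Zᴴ * g u)) (rtr (Zᴴ * g' t)) t := fun t => by
    refine (hd_rtr (hd_mul (hasDerivAt_const t Zᴴ) (hg t))).congr_deriv ?_
    simp
  have hb' : ∀ t ∈ Ico (0 : ℝ) 1, ‖rtr (Zᴴ * g' t)‖ ≤ fro Z *
      (Real.exp c * (Real.exp c * (Real.exp c * Real.exp c)) * Real.exp (c + c) * R) := by
    intro t ht
    refine (abs_rtr_mul_le _ _).trans ?_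
    rw [fro_conjT]
    refine mul_le_mul_of_nonneg_left ?_ (fro_nonneg _)
    have n1 : ‖cfc Real.exp (t • α)‖ ≤ Real.exp c := gt_norm_exp_le (by
      rw [norm_smul, Real.norm_of_nonneg ht.1]
      exact (mul_le_of_le_one_left (norm_nonneg _) ht.2.le).trans ha)
    have n2 : ‖cfc Real.exp ((1 - t) • (α + β))‖ ≤ Real.exp (c + c) := gt_norm_exp_le (by
      rw [norm_smul, Real.norm_of_nonneg (sub_nonneg.2 ht.2.le)]
      exact (mul_le_of_le_one_left (norm_nonneg _) (by linarith [ht.1])).trans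
        ((norm_add_le _ _).trans (add_le_add ha hb)))
    have n3 := gt_comm_le hα hβ ha hb ⟨ht.1, ht.2.le⟩
    calc fro (g' t) ≤ ‖cfc Real.exp (t • α)‖ *
          fro (α * cfc Real.exp (t • β) - cfc Real.exp (t • β) * α) *
          ‖cfc Real.exp ((1 - t) • (α + β))‖ :=
          (fro_mul_le_right _ _).trans
            (mul_le_mul_of_nonneg_right (fro_mul_le_left _ _) (norm_nonneg _))
      _ ≤ Real.exp c * (Real.exp c * (Real.exp c * Real.exp c * R)) * Real.exp (c + c) := by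
          gcongr
          exact fro_nonneg _
      _ = _ := by ring
  have hm := norm_image_sub_le_of_norm_deriv_le_segment_01'
    (fun t _ => (hφ t).hasDerivWithinAt) hb'
  have e : rtr (Zᴴ * g 1) - rtr (Zᴴ * g 0) = fro Z * fro Z := by
    rw [← rtr_sub, ← mul_sub, ← sq, fro_sq, fro2]
    simp [g, hZ]
  rw [e, Real.norm_of_nonneg (mul_self_nonneg _)] at hm
  rw [fro_sub_comm, ← hZ]
  rcases (fro_nonneg Z).eq_or_lt with h0 | h0
  · rw [← h0]; positivity
  · exact le_of_mul_le_mul_left hm h0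

end Crest.Agent.R332
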