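import Crest.Agent.R332.GT

/-! Step (i): Klein + Golden–Thompson, and the size of the deficits. -/

set_option autoImplicit false
open scoped Matrix.Norms.L2Operator ComplexOrder MatrixOrder Topology
open Matrix MeasureTheory Filter Set
open Crest.MathPhysics.LiebThirring

namespace Crest.Agent.R332

section Aux
variable {n : ℕ}

lemma kl_exp_log {A : Mat n n} (hA : A.IsHermitian) (h : ∀ x ∈ spectrum ℝ A, 0 < x) :
    cfc Real.exp (cfc Real.log A) = A := by
  rw [cfc_cfc _ _ hA, cfc_congr' (g := fun x => x) fun x hx => Real.exp_log (h x hx), cfc_id'' hA]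

lemma kl_pos_add {K F : Mat n n} (hb : Band K F) {l : ℝ} (hl : 0 < l) :
    ∀ x ∈ spectrum ℝ (kk K l + F), 0 < x := fun x hx =>
  lt_of_lt_of_le (by positivity) (hb.spec_add le_rfl hl hx).1

lemma kl_pos_sub {K F : Mat n n} (hb : Band K F) {l : ℝ} (hl : 0 < l) :
    ∀ x ∈ spectrum ℝ (kk K l - F), 0 < x := fun x hx =>
  lt_of_lt_of_le (by positivity) (hb.spec_sub le_rfl hl hx).1

lemma kl_Y {M : Mat n n} (hM : M.IsHermitian) (l θ : ℝ) :
    l • (1 : Mat n n) + θ • M = cfc (fun m => l + θ * m) M := by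
  rw [cfc_add', cfc_const' l hM, cfc_const_mul', cfc_id'' hM]

lemma kl_sqrt_sq {M : Mat n n} (hM : M.PosSemidef) {l θ : ℝ} (hl : 0 ≤ l) (hθ : 0 ≤ θ) :
    cfc Real.sqrt (l • (1 : Mat n n) + θ • M) * cfc Real.sqrt (l • (1 : Mat n n) + θ • M) =
      l • (1 : Mat n n) + θ • M := by
  rw [kl_Y hM.1, cfc_cfc _ _ hM.1, ← cfc_mul']
  exact cfc_congr' fun x hx =>
    Real.mul_self_sqrt (add_nonneg hl (mul_nonneg hθ (spec_nonneg hM hx)))

lemma kl_half_sq {L : Mat n n} (hL : L.IsHermitian) :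
    cfc Real.exp ((1 / 2 : ℝ) • L) * cfc Real.exp ((1 / 2 : ℝ) • L) = cfc Real.exp L := by
  rw [gt_exp_smul hL, ← cfc_mul']
  congr 1
  ext x
  rw [← Real.exp_add]; ring_nf

lemma kl_prod {K F : Mat n n} (hb : Band K F) {l : ℝ} (hl : 0 ≤ l) :
    (kk K l + F) * (kk K l - F) =
      UU K F + l • (1 : Mat n n) + (F * kk K l - kk K l * F) := by
  rw [add_mul, mul_sub, mul_sub, kk_mul_self hb.psd.1 hl, UU]; abel

lemma kl_prod' {K F : Mat n n} (hb : Band K F) {l : ℝ} (hl : 0 ≤ l) :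
    (kk K l - F) * (kk K l + F) =
      UU K F + l • (1 : Mat n n) - (F * kk K l - kk K l * F) := by
  rw [sub_mul, mul_add, mul_add, kk_mul_self hb.psd.1 hl, UU]; abel

lemma kl_scalar {x y : ℝ} (hy : 0 < y) :
    0 ≤ 0 + (y * Real.log y - 2 * y) + 2 * Real.exp (1 / 2 * x) * √y + -1 * x * y := by
  have h1 := Real.add_one_le_exp (1 / 2 * x - Real.log y / 2)
  have h2 : Real.exp (1 / 2 * x) * √y = y * Real.exp (1 / 2 * x - Real.log y / 2) := by
    have : √y = Real.exp (Real.log y / 2) := by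
      rw [Real.sqrt_eq_rpow, Real.rpow_def_of_pos hy]; ring_nf
    rw [this]
    conv_rhs => rw [← Real.exp_log hy]
    rw [← Real.exp_add, ← Real.exp_add, Real.log_exp]; ring_nf
  have h3 := mul_le_mul_of_nonneg_left h1 hy.le
  nlinarith

end Aux

theorem klein_log {n : ℕ} {K F M : Mat n n} (hb : Band K F) (hM : M.PosSemidef) {l θ : ℝ}
    (hl : 0 < l) (hθ : 0 ≤ θ) :
    θ * rtr (LL K F l * M) ≤ rtr (cfc (fun y => Theta l (θ * y)) M) + rtr (UU K F) -
      l * rtr (LL K F l) - klDef θ K F M l := by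
  set L' := cfc Real.log (kk K l + F) + cfc Real.log (kk K l - F) with hL'
  have hL : L'.IsHermitian := (cfc_herm _ _).add (cfc_herm _ _)
  have hpos : ∀ m ∈ spectrum ℝ M, 0 < l + θ * m := fun m hm =>
    add_pos_of_pos_of_nonneg hl (mul_nonneg hθ (spec_nonneg hM hm))
  have hK := klein hL hM.1 (fun _ => 0)
    (fun m => (l + θ * m) * Real.log (l + θ * m) - 2 * (l + θ * m))
    (fun x => 2 * Real.exp (1 / 2 * x)) (fun m => √(l + θ * m)) (fun x => -1 * x)
    (fun m => l + θ * m) fun x _ m hm => kl_scalar (hpos m hm)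
  have hGT : rtr (cfc Real.exp L') ≤ rtr (UU K F) + l * n := by
    refine (golden_thompson (cfc_herm _ _) (cfc_herm _ _)).trans (le_of_eq ?_)
    rw [kl_exp_log (hb.herm_add l) (kl_pos_add hb hl), kl_exp_log (hb.herm_sub l) (kl_pos_sub hb hl),
      kl_prod hb hl.le, rtr_add, rtr_add, rtr_sub, rtr_mul_comm F, rtr_smul, rtr_one]
    ring
  have hT : cfc (fun y => Theta l (θ * y)) M =
      cfc (fun m => (l + θ * m) * Real.log (l + θ * m) - 2 * (l + θ * m)) M +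
        ((2 - Real.log l) • (l • (1 : Mat n n) + θ • M) - θ • M) := by
    have : θ • M = cfc (fun m => θ * m) M := by rw [cfc_const_mul', cfc_id'' hM.1]
    rw [kl_Y hM.1, this, ← cfc_const_mul', ← cfc_sub', ← cfc_add']
    refine cfc_congr' fun m hm => ?_
    have : 1 + θ * m / l = (l + θ * m) / l := by field_simp
    rw [Theta, this, Real.log_div (hpos m hm).ne' hl.ne']
    ring
  have hD : klDef θ K F M l = rtr (l • (1 : Mat n n) + θ • M) -
      2 * rtr (cfc Real.exp ((1 / 2 : ℝ) • L') * cfc Real.sqrt (l • (1 : Mat n n) + θ • M)) +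
      rtr (cfc Real.exp L') := by
    rw [klDef, ← hL', fro2_sub, fro2, fro2, (cfc_herm _ _).eq, (cfc_herm _ _).eq,
      kl_sqrt_sq hM hl.le hθ, kl_half_sq hL, rtr_mul_comm]
  rw [cfc_const' 0 hL, zero_smul, rtr_zero, cfc_const_mul', cfc_const_mul', cfc_id'' hL,
    ← gt_exp_smul hL, ← cfc_cfc Real.sqrt _ hM.1, ← kl_Y hM.1] at hK
  rw [hT, hD, LL, ← hL']
  simp only [smul_mul_assoc, mul_add, sub_mul, mul_smul_comm, mul_one, one_mul, rtr_add, rtr_sub,
    rtr_smul, rtr_one] at hK ⊢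
  nlinarith

theorem deficit_bound (κ : ℝ) : ∃ C : ℝ, 0 < C ∧ ∀ (n : ℕ) (K F M : Mat n n) (l θ : ℝ),
    Band K F → ‖K‖ ≤ κ → M.PosSemidef → l ∈ Icc (1 : ℝ) 2 → θ ∈ Icc (0 : ℝ) 1 →
      GG θ K F M ≤ C * (klDef θ K F M l + comm2 K F l) := by
  set σ : ℝ := √(κ ^ 2 + 2) with hσ
  have hσ1 : 1 ≤ σ := Real.one_le_sqrt.2 (by nlinarith [sq_nonneg κ])
  set c : ℝ := Real.log (2 * σ) with hc
  have hc0 : 0 ≤ c := Real.log_nonneg (by linarith)
  obtain ⟨C₀, hC₀, H⟩ := exp_add_sub_le c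
  refine ⟨2 * (4 + 2 * Real.exp c ^ 2) + (2 * (2 * C₀ + 1) ^ 2 + 4 * σ ^ 2), by positivity,
    fun n K F M l θ hb hK hM hl hθ => ?_⟩
  have hl0 : 0 < l := by linarith [hl.1]
  have hs : √(κ ^ 2 + l) ≤ σ := Real.sqrt_le_sqrt (by linarith [hl.2])
  have hs0 : 0 < √(κ ^ 2 + l) := Real.sqrt_pos.2 (by positivity)
  have hlog : ∀ x ∈ Icc (l / (2 * √(κ ^ 2 + l))) (2 * √(κ ^ 2 + l)), |Real.log x| ≤ c := by
    intro x hx
    have h1 : (2 * σ)⁻¹ ≤ x := by
      refine le_trans ?_ hx.1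
      rw [inv_eq_one_div]
      gcongr
      exact hl.1
    have hx0 : 0 < x := lt_of_lt_of_le (by positivity) h1
    refine abs_le.2 ⟨?_, Real.log_le_log hx0 (by linarith [hx.2])⟩
    rw [hc, ← Real.log_inv]
    exact Real.log_le_log (by positivity) h1
  have na : ‖cfc Real.log (kk K l + F)‖ ≤ c :=
    norm_cfc_le' hc0 fun x hx => hlog x (hb.spec_add hK hl0 hx)
  have nb : ‖cfc Real.log (kk K l - F)‖ ≤ c :=
    norm_cfc_le' hc0 fun x hx => hlog x (hb.spec_sub hK hl0 hx)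
  have H1 := H n _ _ (cfc_herm _ _) (cfc_herm _ _) na nb
  rw [kl_exp_log (hb.herm_add l) (kl_pos_add hb hl0), kl_exp_log (hb.herm_sub l) (kl_pos_sub hb hl0),
    kl_prod hb hl0.le, kl_prod' hb hl0.le] at H1
  set L' := cfc Real.log (kk K l + F) + cfc Real.log (kk K l - F) with hL'
  have hL : L'.IsHermitian := (cfc_herm _ _).add (cfc_herm _ _)
  set Cm := F * kk K l - kk K l * F with hCm
  set E := cfc Real.exp ((1 / 2 : ℝ) • L') with hE
  set S := cfc Real.sqrt (l • (1 : Mat n n) + θ • M) with hS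
  have hEE : E * E = cfc Real.exp L' := kl_half_sq hL
  have hSS : S * S = l • (1 : Mat n n) + θ • M := kl_sqrt_sq hM hl0.le hθ.1
  have nE : ‖E‖ ≤ Real.exp c := gt_norm_exp_le (by
    rw [norm_smul, Real.norm_of_nonneg (by norm_num)]
    linarith [norm_add_le (cfc Real.log (kk K l + F)) (cfc Real.log (kk K l - F))])
  have hM0 : 0 ≤ rtr M := rtr_nonneg hM
  set m : ℝ := 1 + rtr M with hm
  have hm1 : 1 ≤ m := by linarith
  have nS : ‖S‖ ≤ √(2 * m) := by
    rw [hS, kl_Y hM.1, cfc_cfc _ _ hM.1]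
    refine norm_cfc_le' (Real.sqrt_nonneg _) fun x hx => ?_
    rw [abs_of_nonneg (Real.sqrt_nonneg _)]
    refine Real.sqrt_le_sqrt ?_
    have h1 : x ≤ rtr M := (le_abs_self x).trans ((spec_abs_le _ hx).trans (norm_le_rtr hM))
    have h2 : θ * x ≤ x := mul_le_of_le_one_left (spec_nonneg hM hx) hθ.2
    linarith [hl.2]
  have e2 : UU K F + l • (1 : Mat n n) + Cm - (UU K F + l • (1 : Mat n n) - Cm) = (2 : ℝ) • Cm := by
    rw [two_smul]; abel
  rw [e2, fro_smul, abs_two] at H1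
  have e1 : θ • M - UU K F = (S * (S - E) + (S - E) * E) +
      ((cfc Real.exp L' - (UU K F + l • (1 : Mat n n) + Cm)) + Cm) := by
    rw [mul_sub, sub_mul, hSS, hEE]; abel
  have hx0 := fro_nonneg (S - E)
  have hy0 := fro_nonneg Cm
  have f1 : fro (θ • M - UU K F) ≤
      (√(2 * m) + Real.exp c) * fro (S - E) + (2 * C₀ + 1) * fro Cm := by
    rw [e1]
    have t1 : fro (S * (S - E)) ≤ √(2 * m) * fro (S - E) :=
      (fro_mul_le_left _ _).trans (mul_le_mul_of_nonneg_right nS hx0)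
    have t2 : fro ((S - E) * E) ≤ fro (S - E) * Real.exp c :=
      (fro_mul_le_right _ _).trans (mul_le_mul_of_nonneg_left nE hx0)
    have t3 := fro_add_le (S * (S - E)) ((S - E) * E)
    have t4 := fro_add_le (cfc Real.exp L' - (UU K F + l • (1 : Mat n n) + Cm)) Cm
    refine (fro_add_le _ _).trans ?_
    nlinarith
  have f2 : fro (F * (K * K) - K * K * F) ≤ 2 * σ * fro Cm := by
    have e3 : F * (K * K) - K * K * F = Cm * kk K l + kk K l * Cm := by
      have h1 : K * K = kk K l * kk K l - l • (1 : Mat n n) := by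
        rw [kk_mul_self hb.psd.1 hl0.le]; abel
      rw [h1, hCm]
      simp only [mul_sub, sub_mul, mul_smul_comm, smul_mul_assoc, mul_one, one_mul, mul_assoc]
      abel
    have nk : ‖kk K l‖ ≤ σ := (norm_kk_le hK).trans hs
    rw [e3]
    have t1 : fro (Cm * kk K l) ≤ fro Cm * σ :=
      (fro_mul_le_right _ _).trans (mul_le_mul_of_nonneg_left nk hy0)
    have t2 : fro (kk K l * Cm) ≤ σ * fro Cm :=
      (fro_mul_le_left _ _).trans (mul_le_mul_of_nonneg_right nk hy0)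
    refine (fro_add_le _ _).trans ?_
    nlinarith
  have hkl : klDef θ K F M l = fro (S - E) ^ 2 := (fro_sq _).symm
  have hcm : comm2 K F l = fro Cm ^ 2 := (fro_sq _).symm
  rw [GG, hkl, hcm, ← fro_sq, ← fro_sq, ← hm]
  set x := fro (S - E)
  set y := fro Cm
  have g2 : fro (F * (K * K) - K * K * F) ^ 2 ≤ 4 * σ ^ 2 * y ^ 2 :=
    (pow_le_pow_left₀ (fro_nonneg _) f2 2).trans (le_of_eq (by ring))
  have g0 : (√(2 * m) + Real.exp c) ^ 2 ≤ (4 + 2 * Real.exp c ^ 2) * m := by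
    have h1 : √(2 * m) ^ 2 = 2 * m := Real.sq_sqrt (by linarith)
    have h2 : Real.exp c ^ 2 ≤ Real.exp c ^ 2 * m := le_mul_of_one_le_right (by positivity) hm1
    nlinarith [sq_nonneg (√(2 * m) - Real.exp c)]
  have g1 : fro (θ • M - UU K F) ^ 2 / m ≤
      2 * (4 + 2 * Real.exp c ^ 2) * x ^ 2 + 2 * (2 * C₀ + 1) ^ 2 * y ^ 2 := by
    rw [div_le_iff₀ (by linarith)]
    refine (pow_le_pow_left₀ (fro_nonneg _) f1 2).trans ?_
    have h1 : ((√(2 * m) + Real.exp c) * x) ^ 2 ≤ (4 + 2 * Real.exp c ^ 2) * m * x ^ 2 := by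
      rw [mul_pow]; gcongr
    have h2 : ((2 * C₀ + 1) * y) ^ 2 ≤ ((2 * C₀ + 1) * y) ^ 2 * m :=
      le_mul_of_one_le_right (by positivity) hm1
    nlinarith [sq_nonneg ((√(2 * m) + Real.exp c) * x - (2 * C₀ + 1) * y)]
  have p1 : 0 ≤ 2 * (4 + 2 * Real.exp c ^ 2) * y ^ 2 := by positivity
  have p2 : 0 ≤ (2 * (2 * C₀ + 1) ^ 2 + 4 * σ ^ 2) * x ^ 2 := by positivity
  nlinarith

end Crest.Agent.R332
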