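import Crest.Agent.R332.Basic

/-! Step (ii): the λ-derivative of `J(λ) = tr L (U + λ)`. -/

set_option autoImplicit false
open scoped Matrix.Norms.L2Operator ComplexOrder MatrixOrder Topology
open Matrix MeasureTheory Filter Set
open Crest.MathPhysics.LiebThirring

namespace Crest.Agent.R332

namespace LogAux

variable {n : ℕ}

/-- Spectral projections. -/
lemma exists_proj {A : Mat n n} (hA : A.IsHermitian) :
    ∃ P : Fin n → Mat n n, ∀ f : ℝ → ℝ, cfc f A = ∑ i, f (hA.eigenvalues i) • P i := by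
  refine ⟨fun i => eigU hA * (diagonal (Pi.single i (1 : ℂ))) * (eigU hA)ᴴ, fun f => ?_⟩
  have e : (diagonal fun i => (f (hA.eigenvalues i) : ℂ) : Mat n n) =
      ∑ i, f (hA.eigenvalues i) • diagonal (Pi.single i (1 : ℂ)) := by
    ext i j
    rw [Matrix.sum_apply]
    by_cases hij : i = j
    · subst hij
      simp [Pi.single_apply]
    · simp [hij]
  rw [cfc_eq_diag hA, e, Finset.mul_sum, Finset.sum_mul]
  refine Finset.sum_congr rfl fun i _ => ?_
  rw [Matrix.mul_smul, Matrix.smul_mul]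

lemma eig_mem {A : Mat n n} (hA : A.IsHermitian) (i : Fin n) :
    hA.eigenvalues i ∈ spectrum ℝ A := (mem_spec_iff hA).2 ⟨i, rfl⟩

lemma hasDerivAt_cfc_param {A : Mat n n} (hA : A.IsHermitian) {f : ℝ → ℝ → ℝ} {g : ℝ → ℝ}
    {l : ℝ} (h : ∀ x ∈ spectrum ℝ A, HasDerivAt (fun y => f y x) (g x) l) :
    HasDerivAt (fun y => cfc (f y) A) (cfc g A) l := by
  obtain ⟨P, hP⟩ := exists_proj hA
  simp only [hP]
  exact HasDerivAt.fun_sum fun i _ => (h _ (eig_mem hA i)).smul_const (P i)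

lemma continuousOn_cfc_param {A : Mat n n} (hA : A.IsHermitian) {f : ℝ → ℝ → ℝ} {T : Set ℝ}
    (h : ∀ x ∈ spectrum ℝ A, ContinuousOn (fun y => f y x) T) :
    ContinuousOn (fun y => cfc (f y) A) T := by
  obtain ⟨P, hP⟩ := exists_proj hA
  simp only [hP]
  exact continuousOn_finsetSum _ fun i _ => (h _ (eig_mem hA i)).smul continuousOn_const

lemma integral_rtr_cfc {A : Mat n n} (hA : A.IsHermitian) {f : ℝ → ℝ → ℝ} {g : ℝ → ℝ}
    (hc : ∀ x ∈ spectrum ℝ A, ContinuousOn (fun t => f t x) (uIcc 0 1))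
    (h : ∀ x ∈ spectrum ℝ A, ∫ t in (0 : ℝ)..1, f t x = g x) (W : Mat n n) :
    ∫ t in (0 : ℝ)..1, rtr (cfc (f t) A * W) = rtr (cfc g A * W) := by
  obtain ⟨P, hP⟩ := exists_proj hA
  simp only [hP, Finset.sum_mul, rtr_sum, Matrix.smul_mul, rtr_smul]
  rw [intervalIntegral.integral_finsetSum (f := fun i t => f t (hA.eigenvalues i) * rtr (P i * W))
    fun i _ => ((hc _ (eig_mem hA i)).mul continuousOn_const).intervalIntegrable]
  refine Finset.sum_congr rfl fun i _ => ?_
  rw [intervalIntegral.integral_mul_const, h _ (eig_mem hA i)]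

/-! ### the resolvent -/

/-- `(1 + t (a - 1))⁻¹` -/
noncomputable def RR (a : Mat n n) (t : ℝ) : Mat n n := cfc (fun x => (1 + t * (x - 1))⁻¹) a

/-- `1 + t (a - 1)` -/
noncomputable def QQ (a : Mat n n) (t : ℝ) : Mat n n := 1 + t • (a - 1)

lemma den_ge {m t x : ℝ} (hm1 : m ≤ 1) (ht : t ∈ Icc (0 : ℝ) 1) (hx : m ≤ x) :
    m ≤ 1 + t * (x - 1) := by
  obtain ⟨h0, h1⟩ := ht
  nlinarith [mul_nonneg h0 (sub_nonneg.2 hx), mul_nonneg (sub_nonneg.2 h1) (sub_nonneg.2 hm1)]

lemma den_pos {t x : ℝ} (ht : t ∈ Icc (0 : ℝ) 1) (hx : 0 < x) : 0 < 1 + t * (x - 1) :=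
  lt_of_lt_of_le (lt_min hx one_pos) (den_ge (min_le_right _ _) ht (min_le_left _ _))

lemma QQ_eq {a : Mat n n} (ha : a.IsHermitian) (t : ℝ) :
    QQ a t = cfc (fun x => 1 + t * (x - 1)) a := by
  rw [cfc_add', cfc_const_mul', cfc_sub', cfc_id'' ha, cfc_const' 1 ha, one_smul, QQ]

lemma RR_herm (a : Mat n n) (t : ℝ) : (RR a t).IsHermitian := cfc_herm _ _

lemma RR_mul_QQ {a : Mat n n} (ha : a.IsHermitian) (hp : ∀ x ∈ spectrum ℝ a, 0 < x) {t : ℝ}
    (ht : t ∈ Icc (0 : ℝ) 1) : RR a t * QQ a t = 1 := by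
  rw [QQ_eq ha, RR, ← cfc_mul', ← one_smul ℝ (1 : Mat n n), ← cfc_const' 1 ha]
  exact cfc_congr' fun x hx => inv_mul_cancel₀ (den_pos ht (hp x hx)).ne'

lemma QQ_mul_RR {a : Mat n n} (ha : a.IsHermitian) (hp : ∀ x ∈ spectrum ℝ a, 0 < x) {t : ℝ}
    (ht : t ∈ Icc (0 : ℝ) 1) : QQ a t * RR a t = 1 := by
  rw [← RR_mul_QQ ha hp ht, QQ_eq ha, RR, cfc_comm]

lemma norm_RR_le {a : Mat n n} {m : ℝ} (hm : 0 < m) (hm1 : m ≤ 1)
    (hp : ∀ x ∈ spectrum ℝ a, m ≤ x) {t : ℝ} (ht : t ∈ Icc (0 : ℝ) 1) : ‖RR a t‖ ≤ m⁻¹ := by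
  refine norm_cfc_le' (by positivity) fun x hx => ?_
  have := den_ge hm1 ht (hp x hx)
  rw [abs_of_pos (inv_pos.2 (hm.trans_le this))]
  exact inv_anti₀ hm this

lemma contOn_den {x : ℝ} (hx : 0 < x) :
    ContinuousOn (fun t : ℝ => (1 + t * (x - 1))⁻¹) (uIcc 0 1) := by
  rw [uIcc_of_le zero_le_one]
  exact ContinuousOn.inv₀ (by fun_prop) fun t ht => (den_pos ht hx).ne'

lemma contOn_RR {a : Mat n n} (ha : a.IsHermitian) (hp : ∀ x ∈ spectrum ℝ a, 0 < x) :
    ContinuousOn (RR a) (uIcc 0 1) :=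
  continuousOn_cfc_param ha (f := fun t x => (1 + t * (x - 1))⁻¹) fun x hx => contOn_den (hp x hx)

lemma int_log {x : ℝ} (hx : 0 < x) :
    ∫ t in (0 : ℝ)..1, (1 + t * (x - 1))⁻¹ * (x - 1) = Real.log x := by
  have hd : ∀ t ∈ uIcc (0 : ℝ) 1, HasDerivAt (fun t => Real.log (1 + t * (x - 1)))
      ((1 + t * (x - 1))⁻¹ * (x - 1)) t := by
    intro t ht
    rw [uIcc_of_le zero_le_one] at ht
    have h1 : HasDerivAt (fun t : ℝ => 1 + t * (x - 1)) (x - 1) t := by
      simpa using ((hasDerivAt_id t).mul_const (x - 1)).const_add 1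
    exact (h1.log (den_pos ht hx).ne').congr_deriv (by rw [div_eq_inv_mul])
  rw [intervalIntegral.integral_eq_sub_of_hasDerivAt hd
    ((contOn_den hx).mul continuousOn_const).intervalIntegrable]
  simp

lemma int_sq {x : ℝ} (hx : 0 < x) :
    ∫ t in (0 : ℝ)..1, (1 + t * (x - 1))⁻¹ * (1 + t * (x - 1))⁻¹ = x⁻¹ := by
  have hd : ∀ t ∈ uIcc (0 : ℝ) 1, HasDerivAt (fun t => t / (1 + t * (x - 1)))
      ((1 + t * (x - 1))⁻¹ * (1 + t * (x - 1))⁻¹) t := by
    intro t ht
    rw [uIcc_of_le zero_le_one] at ht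
    have h1 : HasDerivAt (fun t : ℝ => 1 + t * (x - 1)) (x - 1) t := by
      simpa using ((hasDerivAt_id t).mul_const (x - 1)).const_add 1
    have h2 := (den_pos ht hx).ne'
    refine ((hasDerivAt_id t).div h1 h2).congr_deriv ?_
    simp only [id]
    field_simp
    ring
  rw [intervalIntegral.integral_eq_sub_of_hasDerivAt hd
    ((contOn_den hx).mul (contOn_den hx)).intervalIntegrable]
  simp

lemma rtr_log_eq {a : Mat n n} (ha : a.IsHermitian) (hp : ∀ x ∈ spectrum ℝ a, 0 < x)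
    (W : Mat n n) :
    rtr (cfc Real.log a * W) = ∫ t in (0 : ℝ)..1, rtr (RR a t * (a - 1) * W) := by
  rw [← integral_rtr_cfc ha (f := fun t x => (1 + t * (x - 1))⁻¹ * (x - 1))
    (fun x hx => (contOn_den (hp x hx)).mul continuousOn_const) (fun x hx => int_log (hp x hx))]
  refine intervalIntegral.integral_congr fun t _ => ?_
  rw [cfc_mul', cfc_sub', cfc_id'' ha, cfc_const' 1 ha, one_smul, RR]

lemma RR_comm {a : Mat n n} (ha : a.IsHermitian) (t : ℝ) : RR a t * a = a * RR a t := by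
  have := cfc_comm (fun x => (1 + t * (x - 1))⁻¹) (fun x => x) a
  rwa [cfc_id'' ha] at this

lemma resolvent {a b : Mat n n} (ha : a.IsHermitian) (hp : ∀ x ∈ spectrum ℝ a, 0 < x)
    (hb : b.IsHermitian) (hq : ∀ x ∈ spectrum ℝ b, 0 < x) {t : ℝ} (ht : t ∈ Icc (0 : ℝ) 1) :
    RR b t * (b - 1) - RR a t * (a - 1) - RR a t * (b - a) * RR a t =
      -(t • (RR b t * (b - a) * RR a t * (b - a) * RR a t)) := by
  have h1 := QQ_mul_RR ha hp ht
  have h2 := RR_mul_QQ hb hq ht
  have h3 : RR a t * (a - 1) = (a - 1) * RR a t := by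
    rw [mul_sub, sub_mul, RR_comm ha, mul_one, one_mul]
  have e1 : RR b t * (b - 1) - RR a t * (a - 1) = RR b t * (b - a) * RR a t := by
    calc RR b t * (b - 1) - RR a t * (a - 1)
        = RR b t * (b - 1) * (QQ a t * RR a t) - (RR b t * QQ b t) * ((a - 1) * RR a t) := by
          rw [h1, h2, h3, mul_one, one_mul]
      _ = RR b t * ((b - 1) * QQ a t - QQ b t * (a - 1)) * RR a t := by noncomm_ring
      _ = _ := by
          congr 2
          simp only [QQ, mul_add, add_mul, mul_smul_comm, smul_mul_assoc, mul_one, one_mul]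
          abel
  have e2 : RR b t - RR a t = -(t • (RR b t * (b - a) * RR a t)) := by
    calc RR b t - RR a t = RR b t * (QQ a t * RR a t) - (RR b t * QQ b t) * RR a t := by
          rw [h1, h2, mul_one, one_mul]
      _ = RR b t * (QQ a t - QQ b t) * RR a t := by noncomm_ring
      _ = _ := by
          have : QQ a t - QQ b t = -(t • (b - a)) := by
            simp only [QQ, smul_sub]; abel
          rw [this, mul_neg, neg_mul, mul_smul_comm, smul_mul_assoc]
  rw [e1, ← sub_mul, ← sub_mul, e2, neg_mul, neg_mul, smul_mul_assoc, smul_mul_assoc]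

lemma ii {f : ℝ → Mat n n} (hf : ContinuousOn f (uIcc 0 1)) :
    IntervalIntegrable (fun t => rtr (f t)) volume 0 1 :=
  (continuous_rtr.comp_continuousOn hf).intervalIntegrable

lemma ii_RR {a : Mat n n} (ha : a.IsHermitian) (hp : ∀ x ∈ spectrum ℝ a, 0 < x) (X W : Mat n n) :
    IntervalIntegrable (fun t => rtr (RR a t * X * RR a t * W)) volume 0 1 :=
  ii ((((contOn_RR ha hp).mul continuousOn_const).mul (contOn_RR ha hp)).mul continuousOn_const)

/-- The derivative of `log`, tested against `W`. -/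
noncomputable def Lam {a : Mat n n} (ha : a.IsHermitian) (hp : ∀ x ∈ spectrum ℝ a, 0 < x)
    (W : Mat n n) : Mat n n →L[ℝ] ℝ :=
  LinearMap.toContinuousLinearMap
    { toFun := fun X => ∫ t in (0 : ℝ)..1, rtr (RR a t * X * RR a t * W)
      map_add' := fun X Y => by
        rw [← intervalIntegral.integral_add (ii_RR ha hp X W) (ii_RR ha hp Y W)]
        simp only [mul_add, add_mul, rtr_add]
      map_smul' := fun c X => by
        simp only [mul_smul_comm, smul_mul_assoc, rtr_smul, RingHom.id_apply, smul_eq_mul]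
        rw [intervalIntegral.integral_const_mul] }

lemma Lam_apply {a : Mat n n} (ha : a.IsHermitian) (hp : ∀ x ∈ spectrum ℝ a, 0 < x)
    (W X : Mat n n) : Lam ha hp W X = ∫ t in (0 : ℝ)..1, rtr (RR a t * X * RR a t * W) := rfl

lemma remainder {a b : Mat n n} (ha : a.IsHermitian) (hb : b.IsHermitian) {m : ℝ} (hm : 0 < m)
    (hm1 : m ≤ 1) (hp : ∀ x ∈ spectrum ℝ a, m ≤ x) (hq : ∀ x ∈ spectrum ℝ b, m ≤ x)
    (W : Mat n n) :
    |rtr (cfc Real.log b * W) - rtr (cfc Real.log a * W) -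
        Lam ha (fun x hx => hm.trans_le (hp x hx)) W (b - a)| ≤
      (n * m⁻¹ ^ 3 * ‖W‖) * (‖b - a‖ * ‖b - a‖) := by
  have hp' : ∀ x ∈ spectrum ℝ a, 0 < x := fun x hx => hm.trans_le (hp x hx)
  have hq' : ∀ x ∈ spectrum ℝ b, 0 < x := fun x hx => hm.trans_le (hq x hx)
  have hc := contOn_RR ha hp'
  have hd := contOn_RR hb hq'
  have i1 := ii ((hd.mul (continuousOn_const (c := b - 1))).mul (continuousOn_const (c := W)))
  have i2 := ii ((hc.mul (continuousOn_const (c := a - 1))).mul (continuousOn_const (c := W)))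
  have i3 := ii (((hc.mul (continuousOn_const (c := b - a))).mul hc).mul
    (continuousOn_const (c := W)))
  simp only [Pi.mul_apply] at i1 i2 i3
  rw [rtr_log_eq hb hq', rtr_log_eq ha hp', Lam_apply, ← intervalIntegral.integral_sub i1 i2,
    ← intervalIntegral.integral_sub (i1.sub i2) i3, ← Real.norm_eq_abs]
  refine (intervalIntegral.norm_integral_le_of_norm_le_const
    (C := (n * m⁻¹ ^ 3 * ‖W‖) * (‖b - a‖ * ‖b - a‖)) fun t ht => ?_).trans (by simp)
  have ht' : t ∈ Icc (0 : ℝ) 1 := by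
    rw [uIoc_of_le zero_le_one] at ht
    exact Ioc_subset_Icc_self ht
  rw [← rtr_sub, ← rtr_sub, ← sub_mul, ← sub_mul, resolvent ha hp' hb hq' ht', Real.norm_eq_abs]
  refine (abs_rtr_le _).trans ?_
  have r1 := norm_RR_le hm hm1 hp ht'
  have r2 := norm_RR_le hm hm1 hq ht'
  have hn : ‖-(t • (RR b t * (b - a) * RR a t * (b - a) * RR a t)) * W‖ ≤
      (m⁻¹ * ‖b - a‖ * m⁻¹ * ‖b - a‖ * m⁻¹) * ‖W‖ := by
    refine (norm_mul_le _ _).trans (mul_le_mul_of_nonneg_right ?_ (norm_nonneg _))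
    rw [norm_neg, norm_smul, Real.norm_eq_abs, abs_of_nonneg ht'.1]
    refine (mul_le_of_le_one_left (norm_nonneg _) ht'.2).trans ?_
    exact norm_mul_le_of_le (norm_mul_le_of_le (norm_mul_le_of_le (norm_mul_le_of_le r2 le_rfl) r1)
      le_rfl) r1
  calc (n : ℝ) * _ ≤ n * ((m⁻¹ * ‖b - a‖ * m⁻¹ * ‖b - a‖ * m⁻¹) * ‖W‖) :=
        mul_le_mul_of_nonneg_left hn (Nat.cast_nonneg n)
    _ = _ := by ring

lemma hasDerivAt_log {a : ℝ → Mat n n} {a' : Mat n n} {l : ℝ} (hd : HasDerivAt a a' l) {m : ℝ}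
    (hm : 0 < m) (h : ∀ᶠ y in 𝓝 l, (a y).IsHermitian ∧ ∀ x ∈ spectrum ℝ (a y), m ≤ x)
    (W : Mat n n) :
    HasDerivAt (fun y => rtr (cfc Real.log (a y) * W))
      (∫ t in (0 : ℝ)..1, rtr (RR (a l) t * a' * RR (a l) t * W)) l := by
  obtain ⟨ha, hp0⟩ := h.self_of_nhds
  have hm' : 0 < min m 1 := lt_min hm one_pos
  have hp : ∀ x ∈ spectrum ℝ (a l), min m 1 ≤ x := fun x hx => (min_le_left _ _).trans (hp0 x hx)
  set Λ := Lam ha (fun x hx => hm'.trans_le (hp x hx)) W with hΛ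
  have h1 : HasDerivAt (fun y => Λ (a y)) (Λ a') l := Λ.hasFDerivAt.comp_hasDerivAt l hd
  have h2 : HasDerivAt (fun y => rtr (cfc Real.log (a y) * W) - Λ (a y)) 0 l := by
    rw [hasDerivAt_iff_isLittleO]
    have o1 : (fun y => ‖a y - a l‖) =o[𝓝 l] (fun _ => (1 : ℝ)) := by
      rw [Asymptotics.isLittleO_one_iff]
      have : Tendsto (fun y => ‖a y - a l‖) (𝓝 l) (𝓝 ‖a l - a l‖) :=
        (hd.continuousAt.tendsto.sub_const (a l)).norm
      simpa using this
    have o2 : (fun y => ‖a y - a l‖) =O[𝓝 l] (fun y => y - l) := hd.isBigO_sub.norm_left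
    have o3 := o1.mul_isBigO o2
    simp only [one_mul] at o3
    refine Asymptotics.IsBigO.trans_isLittleO ?_ o3
    refine Asymptotics.IsBigO.of_bound (n * (min m 1)⁻¹ ^ 3 * ‖W‖) ?_
    filter_upwards [h] with y hy
    have := remainder ha hy.1 hm' (min_le_right _ _) hp
      (fun x hx => (min_le_left _ _).trans (hy.2 x hx)) W
    rw [← hΛ, map_sub] at this
    rw [Real.norm_eq_abs, Real.norm_eq_abs, abs_of_nonneg (a := ‖a y - a l‖ * ‖a y - a l‖)
      (by positivity)]
    refine le_trans (le_of_eq ?_) this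
    congr 1
    simp only [smul_zero]
    ring
  have h3 := h2.add h1
  rw [zero_add] at h3
  refine h3.congr_of_eventuallyEq (Eventually.of_forall fun y => ?_)
  simp

/-! ### the trace inequality -/

lemma pointwise {a S Z R : Mat n n} {t : ℝ} (ht : t ≠ 0) (hZS : Z * S = 1) (hSZ : S * Z = 1)
    (hRQ : R * (1 + t • (a - 1)) = 1) (hQR : (1 + t • (a - 1)) * R = 1) :
    rtr (R * Z * R * ((1 / 2 : ℝ) • (a * S + S * a) - a * a)) =
      rtr (R * R * a) - rtr (R * a * (R * a) * Z) +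
        t * (1 - t) / 2 * rtr (Z * (R * (a * S - S * a) * R) * Z * (R * (a * S - S * a) * R)) := by
  have e1 : t • (R * a) = 1 - (1 - t) • R := by
    rw [← hRQ]
    simp only [mul_add, mul_one, mul_smul_comm, mul_sub, smul_sub, sub_smul, one_smul]
    abel
  have e2 : t • (a * R) = 1 - (1 - t) • R := by
    rw [← hQR]
    simp only [add_mul, one_mul, smul_mul_assoc, sub_mul, smul_sub, sub_smul, one_smul]
    abel
  have e3 : R * a = a * R := smul_right_injective _ ht (e1.trans e2.symm)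
  have e4 : t • (R * (a * S - S * a) * R) = S * R - R * S := by
    have : t • (R * (a * S - S * a) * R) = (t • (R * a)) * S * R - R * S * (t • (a * R)) := by
      simp only [mul_sub, sub_mul, smul_sub, mul_smul_comm, smul_mul_assoc, mul_assoc]
    rw [this, e1, e2]
    simp only [mul_sub, sub_mul, mul_smul_comm, smul_mul_assoc, mul_assoc, one_mul, mul_one]
    abel
  -- the four traces
  have c1 : t * rtr (R * Z * R * (a * S)) = rtr R - (1 - t) * rtr (Z * R * S * R) := by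
    have : t • (R * Z * R * (a * S)) = R * Z * (t • (R * a)) * S := by
      simp only [mul_smul_comm, smul_mul_assoc, mul_assoc]
    rw [← rtr_smul, this, e1, mul_sub, sub_mul, mul_one, mul_assoc R Z S, hZS, mul_one, rtr_sub,
      mul_smul_comm, smul_mul_assoc, rtr_smul]
    congr 2
    rw [mul_assoc R Z R, mul_assoc R, rtr_mul_comm]
  have c2 : t * rtr (R * Z * R * (S * a)) = rtr R - (1 - t) * rtr (Z * R * S * R) := by
    have h1 : rtr (R * Z * R * (S * a)) = rtr (Z * R * S * (a * R)) := by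
      rw [mul_assoc R Z R, mul_assoc R, rtr_mul_comm]
      simp only [mul_assoc]
    have : t • (Z * R * S * (a * R)) = Z * R * S * (t • (a * R)) := by
      simp only [mul_smul_comm]
    rw [h1, ← rtr_smul, this, e2, mul_sub, mul_one, rtr_sub, mul_smul_comm, rtr_smul]
    congr 1
    rw [mul_assoc Z R S, rtr_mul_comm, mul_assoc R S Z, hSZ, mul_one]
  have c3 : t * rtr (R * R * a) = rtr R - (1 - t) * rtr (R * R) := by
    have : t • (R * R * a) = R * (t • (R * a)) := by
      simp only [mul_smul_comm, mul_assoc]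
    rw [← rtr_smul, this, e1, mul_sub, mul_one, rtr_sub, mul_smul_comm, rtr_smul]
  have c4 : rtr (R * Z * R * (a * a)) = rtr (R * a * (R * a) * Z) := by
    rw [mul_assoc R Z R, mul_assoc R, rtr_mul_comm, rtr_mul_comm (R * a * (R * a)) Z]
    congr 1
    calc Z * R * (a * a) * R = Z * (R * a * (a * R)) := by simp only [mul_assoc]
      _ = _ := by rw [← e3]
  have c5 : t ^ 2 * rtr (Z * (R * (a * S - S * a) * R) * Z * (R * (a * S - S * a) * R)) =
      2 * rtr (R * R) - 2 * rtr (Z * R * S * R) := by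
    have : (t ^ 2) • (Z * (R * (a * S - S * a) * R) * Z * (R * (a * S - S * a) * R)) =
        (Z * (t • (R * (a * S - S * a) * R))) * (Z * (t • (R * (a * S - S * a) * R))) := by
      simp only [mul_smul_comm, smul_mul_assoc, smul_smul, mul_assoc, pow_two]
    have h2 : Z * (S * R - R * S) = R - Z * R * S := by
      rw [mul_sub, ← mul_assoc, hZS, one_mul, mul_assoc]
    have h3 : (R - Z * R * S) * (R - Z * R * S) =
        R * R - R * (Z * R * S) - Z * R * S * R + Z * (R * (S * Z) * R * S) := by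
      noncomm_ring
    have h4 : rtr (Z * (R * R * S)) = rtr (R * R) := by
      rw [rtr_mul_comm, mul_assoc (R * R), hSZ, mul_one]
    rw [← rtr_smul, this, e4, h2, h3, hSZ, mul_one, rtr_add, rtr_sub, rtr_sub, h4,
      rtr_mul_comm R (Z * R * S)]
    ring
  rw [mul_sub, mul_smul_comm, mul_add, rtr_sub, rtr_smul, rtr_add, c4]
  apply mul_left_cancel₀ ht
  linear_combination (1 / 2 : ℝ) * c1 + (1 / 2 : ℝ) * c2 - c3 - (1 - t) / 2 * c5

lemma one_side {a S Z : Mat n n} (ha : a.IsHermitian) (hp : ∀ x ∈ spectrum ℝ a, 0 < x)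
    (hZS : Z * S = 1) (hSZ : S * Z = 1) {δ : ℝ}
    (hδ : ∀ t ∈ Icc (0 : ℝ) 1, rtr (Z * (RR a t * (a * S - S * a) * RR a t) * Z *
      (RR a t * (a * S - S * a) * RR a t)) ≤ -δ) :
    ∫ t in (0 : ℝ)..1, rtr (RR a t * Z * RR a t * ((1 / 2 : ℝ) • (a * S + S * a) - a * a)) ≤
      n - rtr (a * Z) - δ / 12 := by
  have hc := contOn_RR ha hp
  have j1 : IntervalIntegrable (fun t => rtr (RR a t * RR a t * a)) volume 0 1 :=
    ii ((hc.mul hc).mul continuousOn_const)
  have j2 : IntervalIntegrable (fun t => rtr (RR a t * a * (RR a t * a) * Z)) volume 0 1 :=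
    ii (((hc.mul continuousOn_const).mul (hc.mul continuousOn_const)).mul continuousOn_const)
  have j3 : IntervalIntegrable (fun t : ℝ => t * (1 - t) / 2 * δ) volume 0 1 :=
    (by fun_prop : Continuous fun t : ℝ => t * (1 - t) / 2 * δ).intervalIntegrable _ _
  have v1 : ∫ t in (0 : ℝ)..1, rtr (RR a t * RR a t * a) = n := by
    have := integral_rtr_cfc ha (f := fun t x => (1 + t * (x - 1))⁻¹ * (1 + t * (x - 1))⁻¹ * x)
      (g := fun _ => 1)
      (fun x hx => ((contOn_den (hp x hx)).mul (contOn_den (hp x hx))).mul continuousOn_const)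
      (fun x hx => by
        rw [intervalIntegral.integral_mul_const, int_sq (hp x hx), inv_mul_cancel₀ (hp x hx).ne']) 1
    rw [cfc_const' 1 ha, one_smul, mul_one, rtr_one] at this
    rw [← this]
    refine intervalIntegral.integral_congr fun t _ => ?_
    rw [cfc_mul', cfc_mul', cfc_id'' ha, mul_one, RR]
  have v2 : ∫ t in (0 : ℝ)..1, rtr (RR a t * a * (RR a t * a) * Z) = rtr (a * Z) := by
    have := integral_rtr_cfc ha
      (f := fun t x => (1 + t * (x - 1))⁻¹ * x * ((1 + t * (x - 1))⁻¹ * x))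
      (g := fun x => x)
      (fun x hx => ((contOn_den (hp x hx)).mul continuousOn_const).mul
        ((contOn_den (hp x hx)).mul continuousOn_const))
      (fun x hx => by
        have e : ∀ t : ℝ, (1 + t * (x - 1))⁻¹ * x * ((1 + t * (x - 1))⁻¹ * x) =
            (1 + t * (x - 1))⁻¹ * (1 + t * (x - 1))⁻¹ * (x * x) := fun t => by ring
        simp only [e]
        rw [intervalIntegral.integral_mul_const, int_sq (hp x hx), ← mul_assoc,
          inv_mul_cancel₀ (hp x hx).ne', one_mul]) Z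
    rw [cfc_id'' ha] at this
    rw [← this]
    refine intervalIntegral.integral_congr fun t _ => ?_
    rw [cfc_mul', cfc_mul', cfc_id'' ha, RR]
  have v3 : ∫ t in (0 : ℝ)..1, t * (1 - t) / 2 * δ = δ / 12 := by
    have hd : ∀ t ∈ uIcc (0 : ℝ) 1, HasDerivAt (fun t : ℝ => (t ^ 2 / 4 - t ^ 3 / 6) * δ)
        (t * (1 - t) / 2 * δ) t := fun t _ =>
      ((((hasDerivAt_pow 2 t).div_const 4).sub ((hasDerivAt_pow 3 t).div_const 6)).mul_const
        δ).congr_deriv (by norm_num; left; ring)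
    rw [intervalIntegral.integral_eq_sub_of_hasDerivAt hd j3]
    ring
  rw [← v1, ← v2, ← v3, ← intervalIntegral.integral_sub j1 j2,
    ← intervalIntegral.integral_sub (j1.sub j2) j3]
  refine intervalIntegral.integral_mono_on_of_le_Ioo zero_le_one (ii_RR ha hp _ _)
    ((j1.sub j2).sub j3) fun t ht => ?_
  have ht' : t ∈ Icc (0 : ℝ) 1 := Ioo_subset_Icc_self ht
  rw [pointwise ht.1.ne' hZS hSZ (RR_mul_QQ ha hp ht') (QQ_mul_RR ha hp ht')]
  have h0 : 0 ≤ t * (1 - t) / 2 := by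
    have := mul_nonneg ht'.1 (sub_nonneg.2 ht'.2); linarith
  have := mul_le_mul_of_nonneg_left (hδ t ht') h0
  linarith

/-- The deficit term is minus a squared Frobenius norm. -/
lemma deficit_eq {a S Y R : Mat n n} (ha : a.IsHermitian) (hS : S.IsHermitian)
    (hY : Y.IsHermitian) (hR : R.IsHermitian) :
    rtr (Y * Y * (R * (a * S - S * a) * R) * (Y * Y) * (R * (a * S - S * a) * R)) =
      -fro2 (Y * (R * (a * S - S * a) * R) * Y) := by
  have e : (Y * (R * (a * S - S * a) * R) * Y)ᴴ = -(Y * (R * (a * S - S * a) * R) * Y) := by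
    simp only [conjTranspose_mul, conjTranspose_sub, ha.eq, hS.eq, hY.eq, hR.eq]
    noncomm_ring
  rw [fro2, e, neg_mul, rtr_neg, neg_neg]
  set X := R * (a * S - S * a) * R
  rw [← mul_assoc (Y * X * Y), rtr_mul_comm _ Y]
  simp only [mul_assoc]

lemma deficit_ge {C Q R Y Y' : Mat n n} (hQR : Q * R = 1) (hRQ : R * Q = 1) (hY : Y' * Y = 1)
    (hY' : Y * Y' = 1) {q : ℝ} (hq : ‖Q‖ ≤ q) (hy : ‖Y'‖ ≤ q) :
    fro2 C ≤ q ^ 8 * fro2 (Y * (R * C * R) * Y) := by
  have hq0 : 0 ≤ q := (norm_nonneg _).trans hq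
  have e : C = (Q * Y') * (Y * (R * C * R) * Y) * (Y' * Q) := by
    calc C = (Q * R) * C * (R * Q) := by rw [hQR, hRQ, one_mul, mul_one]
      _ = Q * (Y' * Y) * (R * C * R) * (Y * Y') * Q := by
          rw [hY, hY']; simp only [mul_one, mul_assoc]
      _ = _ := by simp only [mul_assoc]
  set M := Y * (R * C * R) * Y
  have h1 : fro C ≤ q ^ 4 * fro M := by
    calc fro C = fro ((Q * Y') * M * (Y' * Q)) := by rw [← e]
      _ ≤ fro ((Q * Y') * M) * ‖Y' * Q‖ := fro_mul_le_right _ _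
      _ ≤ (‖Q * Y'‖ * fro M) * ‖Y' * Q‖ :=
          mul_le_mul_of_nonneg_right (fro_mul_le_left _ _) (norm_nonneg _)
      _ ≤ ((q * q) * fro M) * (q * q) := by
          have := fro_nonneg M
          gcongr
          exacts [norm_mul_le_of_le hq hy, norm_mul_le_of_le hy hq]
      _ = _ := by ring
  rw [← fro_sq, ← fro_sq]
  calc fro C ^ 2 ≤ (q ^ 4 * fro M) ^ 2 := pow_le_pow_left₀ (fro_nonneg _) h1 2
    _ = _ := by ring

end LogAux

open LogAux in
theorem JJ_deriv (κ : ℝ) : ∃ c : ℝ, 0 < c ∧ ∀ (n : ℕ) (K F : Mat n n) (l : ℝ),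
    Band K F → ‖K‖ ≤ κ → 0 < l → ∃ J' : ℝ, HasDerivAt (JJ K F) J' l ∧
      J' ≤ rtr (LL K F l) - rtr (UU K F) / l ∧
      (l ∈ Icc (1 : ℝ) 2 → J' ≤ rtr (LL K F l) - rtr (UU K F) / l - c * comm2 K F l) := by
  set q : ℝ := 1 + 2 * √(κ ^ 2 + 2) with hq
  have hq0 : 0 < q := by positivity
  refine ⟨1 / (3 * q ^ 8), by positivity, fun n K F l hB hK hl => ?_⟩
  have hKh : K.IsHermitian := hB.psd.1
  have hFh : F.IsHermitian := hB.hermF
  have hsq : ∀ x : ℝ, 0 < √(x ^ 2 + l) := fun x => Real.sqrt_pos.2 (by positivity)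
  have hsq2 : ∀ x : ℝ, 0 < √(2 * √(x ^ 2 + l)) := fun x =>
    Real.sqrt_pos.2 (by have := hsq x; positivity)
  set k : Mat n n := kk K l with hk
  set Y : Mat n n := cfc (fun x : ℝ => (√(2 * √(x ^ 2 + l)))⁻¹) K with hY
  set Y' : Mat n n := cfc (fun x : ℝ => √(2 * √(x ^ 2 + l))) K with hY'
  set S : Mat n n := k + k with hS
  have hkh : k.IsHermitian := kk_herm K l
  have hSh : S.IsHermitian := hkh.add hkh
  have hYh : Y.IsHermitian := cfc_herm _ _
  have hone : cfc (fun _ : ℝ => (1 : ℝ)) K = 1 := by rw [cfc_const' 1 hKh, one_smul]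
  have hYY' : Y * Y' = 1 := by
    rw [hY, hY', ← cfc_mul', ← hone]
    exact cfc_congr' fun x _ => inv_mul_cancel₀ (hsq2 x).ne'
  have hY'Y : Y' * Y = 1 := by rw [← hYY', hY, hY', cfc_comm]
  have hZ : Y * Y = cfc (fun x : ℝ => 1 / (2 * √(x ^ 2 + l))) K := by
    rw [hY, ← cfc_mul']
    refine cfc_congr' fun x _ => ?_
    rw [← mul_inv, Real.mul_self_sqrt (by have := hsq x; positivity), one_div]
  have hS' : S = cfc (fun x : ℝ => √(x ^ 2 + l) + √(x ^ 2 + l)) K := by
    rw [cfc_add']; rfl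
  have hZS : Y * Y * S = 1 := by
    rw [hZ, hS', ← cfc_mul', ← hone]
    refine cfc_congr' fun x _ => ?_
    have := (hsq x).ne'
    field_simp
    ring
  have hSZ : S * (Y * Y) = 1 := by rw [← hZS, hZ, hS', cfc_comm]
  have hdk : HasDerivAt (fun y => kk K y) (Y * Y) l := by
    rw [hZ]
    refine hasDerivAt_cfc_param hKh (f := fun y x => √(x ^ 2 + y)) fun x _ => ?_
    exact ((hasDerivAt_id l).const_add (x ^ 2)).sqrt (by positivity : 0 < x ^ 2 + l).ne'
  -- spectral lower bound near `l`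
  have hm : 0 < l / 2 / (2 * √(κ ^ 2 + 2 * l)) := by
    have : 0 < √(κ ^ 2 + 2 * l) := Real.sqrt_pos.2 (by positivity)
    positivity
  have hnear : ∀ {G : Mat n n}, Band K G → ∀ᶠ y in 𝓝 l, (kk K y + G).IsHermitian ∧
      ∀ x ∈ spectrum ℝ (kk K y + G), l / 2 / (2 * √(κ ^ 2 + 2 * l)) ≤ x := by
    intro G hG
    filter_upwards [Ioo_mem_nhds (show l / 2 < l by linarith) (show l < 2 * l by linarith)]
      with y hy
    have hy0 : 0 < y := by linarith [hy.1]
    refine ⟨hG.herm_add y, fun x hx => le_trans ?_ (hG.spec_add hK hy0 hx).1⟩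
    have : 0 < √(κ ^ 2 + y) := Real.sqrt_pos.2 (by positivity)
    gcongr
    exacts [hy.1.le, hy.2.le]
  have hpos : ∀ {G : Mat n n}, Band K G → ∀ x ∈ spectrum ℝ (k + G), 0 < x := fun hG x hx =>
    hm.trans_le ((hnear hG).self_of_nhds.2 x hx)
  set V : Mat n n := UU K F + l • (1 : Mat n n) with hV
  have hVk : V = k * k - F * F := by
    rw [hV, hk, kk_mul_self hKh hl.le, UU]; abel
  have hVa : V = (1 / 2 : ℝ) • ((k + F) * S + S * (k + F)) - (k + F) * (k + F) := by
    have : (k + F) * S + S * (k + F) = (2 : ℝ) • (V + (k + F) * (k + F)) := by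
      rw [hVk, two_smul, hS]; noncomm_ring
    rw [this, smul_smul]; simp
  have hVb : V = (1 / 2 : ℝ) • ((k + -F) * S + S * (k + -F)) - (k + -F) * (k + -F) := by
    have : (k + -F) * S + S * (k + -F) = (2 : ℝ) • (V + (k + -F) * (k + -F)) := by
      rw [hVk, two_smul, hS]; noncomm_ring
    rw [this, smul_smul]; simp
  have da := fun W => hasDerivAt_log (hdk.add_const F) hm (hnear hB) W
  have db := fun W => hasDerivAt_log (hdk.add_const (-F)) hm (hnear hB.neg) W
  simp only [← hk] at da db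
  have dlog := Real.hasDerivAt_log hl.ne'
  have hLL : ∀ y W, rtr (LL K F y * W) = rtr (cfc Real.log (kk K y + F) * W) +
      rtr (cfc Real.log (kk K y + -F) * W) - Real.log y * rtr W := by
    intro y W
    show rtr ((cfc Real.log (kk K y + F) + cfc Real.log (kk K y - F) -
      (Real.log y) • (1 : Mat n n)) * W) = _
    rw [sub_mul, add_mul, rtr_sub, rtr_add, smul_mul_assoc, one_mul, rtr_smul,
      sub_eq_add_neg (kk K y) F]
  have dL : ∀ W, HasDerivAt (fun y => rtr (LL K F y * W)) _ l := fun W => by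
    simp only [hLL]
    exact ((da W).fun_add (db W)).fun_sub (dlog.mul_const (rtr W))
  have hJ : JJ K F = fun y => rtr (LL K F y * V) + (y - l) * rtr (LL K F y * 1) := by
    funext y
    show rtr (LL K F y * (UU K F + y • (1 : Mat n n))) = _
    rw [hV, ← rtr_smul, ← mul_smul_comm, ← rtr_add, ← mul_add, add_assoc, ← add_smul]
    simp
  have dJ := (dL V).fun_add (((hasDerivAt_id' l).sub_const l).fun_mul (dL 1))
  rw [← hJ] at dJ
  have hrV : l⁻¹ * rtr V = rtr (UU K F) / l + n := by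
    rw [hV, rtr_add, rtr_smul, rtr_one]; field_simp
  have hsum : rtr ((k + F) * (Y * Y)) + rtr ((k + -F) * (Y * Y)) = n := by
    rw [← rtr_add, ← add_mul, show k + F + (k + -F) = S by rw [hS]; abel, hSZ, rtr_one]
  have key : ∀ δ : ℝ, (∀ t ∈ Icc (0 : ℝ) 1, δ ≤
      fro2 (Y * (RR (k + F) t * ((k + F) * S - S * (k + F)) * RR (k + F) t) * Y)) →
      (∫ t in (0 : ℝ)..1, rtr (RR (k + F) t * (Y * Y) * RR (k + F) t * V)) +
        (∫ t in (0 : ℝ)..1, rtr (RR (k + -F) t * (Y * Y) * RR (k + -F) t * V)) ≤ n - δ / 12 := by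
    intro δ hδ
    have ha : (k + F).IsHermitian := hB.herm_add l
    have hb : (k + -F).IsHermitian := hB.neg.herm_add l
    have h1 := one_side ha (hpos hB) hZS hSZ (δ := δ) fun t ht => by
      rw [deficit_eq ha hSh hYh (RR_herm _ _)]
      exact neg_le_neg (hδ t ht)
    have h2 := one_side hb (hpos hB.neg) hZS hSZ (δ := 0) fun t ht => by
      rw [deficit_eq hb hSh hYh (RR_herm _ _)]
      exact neg_le_neg (fro2_nonneg _)
    rw [← hVa] at h1
    rw [← hVb] at h2
    linarith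
  refine ⟨_, dJ, ?_, fun hl2 => ?_⟩
  · have := key 0 fun t _ => fro2_nonneg _
    simp only [sub_self, zero_mul, one_mul, mul_one, add_zero, hrV]
    linarith
  · have hκ : 0 ≤ κ := (norm_nonneg _).trans hK
    have hs2 : √(κ ^ 2 + l) ≤ √(κ ^ 2 + 2) := Real.sqrt_le_sqrt (by linarith [hl2.2])
    have ha : (k + F).IsHermitian := hB.herm_add l
    have := key (4 * comm2 K F l / q ^ 8) fun t ht => by
      have hC : fro2 ((k + F) * S - S * (k + F)) = 4 * comm2 K F l := by
        have : (k + F) * S - S * (k + F) = (2 : ℝ) • (F * k - k * F) := by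
          rw [two_smul, hS]; noncomm_ring
        rw [this, fro2_smul]
        show _ = 4 * fro2 (F * k - k * F)
        norm_num
      rw [div_le_iff₀' (by positivity), ← hC]
      refine deficit_ge (QQ_mul_RR ha (hpos hB) ht) (RR_mul_QQ ha (hpos hB) ht) hY'Y hYY' ?_ ?_
      · rw [QQ_eq ha]
        refine norm_cfc_le' hq0.le fun x hx => ?_
        have h1 := hpos hB x hx
        have h2 := (hB.spec_add hK hl hx).2
        rw [abs_of_pos (den_pos ht h1)]
        nlinarith [ht.1, ht.2, mul_nonneg (sub_nonneg.2 ht.2) h1.le]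
      · refine norm_cfc_le' hq0.le fun x hx => ?_
        have h1 : x ^ 2 ≤ κ ^ 2 := by
          rw [← sq_abs x]
          exact pow_le_pow_left₀ (abs_nonneg _) ((spec_abs_le K hx).trans hK) 2
        have h2 : √(x ^ 2 + l) ≤ √(κ ^ 2 + 2) := Real.sqrt_le_sqrt (by linarith [hl2.2])
        rw [abs_of_pos (hsq2 x), Real.sqrt_le_left hq0.le]
        have h3 := Real.sqrt_nonneg (κ ^ 2 + 2)
        nlinarith
    simp only [sub_self, zero_mul, one_mul, mul_one, add_zero, hrV]
    have e : 4 * comm2 K F l / q ^ 8 / 12 = 1 / (3 * q ^ 8) * comm2 K F l := by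
      field_simp; ring
    linarith

end Crest.Agent.R332
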