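import Crest.Agent.R332.Basic

/-! The x-integration: `tr L F'` is an exact derivative. -/

set_option autoImplicit false
open scoped Matrix.Norms.L2Operator ComplexOrder MatrixOrder Topology
open Matrix MeasureTheory Filter Set
open Crest.MathPhysics.LiebThirring

namespace Crest.Agent.R332

/-- quadratic Taylor remainder of `x log x` on `[c, ∞)` -/
lemma xf_taylor {c a b : ℝ} (hc : 0 < c) (ha : c ≤ a) (hb : c ≤ b) :
    |a * Real.log a - b * Real.log b - (Real.log b + 1) * (a - b)| ≤ c⁻¹ * (a - b) ^ 2 := by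
  have ha0 : 0 < a := hc.trans_le ha
  have hb0 : 0 < b := hc.trans_le hb
  have e : a * Real.log a - b * Real.log b - (Real.log b + 1) * (a - b) =
      a * Real.log (a / b) - (a - b) := by
    rw [Real.log_div ha0.ne' hb0.ne']; ring
  have h1 : Real.log (a / b) ≤ a / b - 1 := Real.log_le_sub_one_of_pos (by positivity)
  have h2 : 1 - (a / b)⁻¹ ≤ Real.log (a / b) := Real.one_sub_inv_le_log_of_pos (by positivity)
  have h3 : a * (1 - (a / b)⁻¹) = a - b := by field_simp
  have h4 : a * (a / b - 1) - (a - b) = b⁻¹ * (a - b) ^ 2 := by field_simp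
  have h5 : b⁻¹ * (a - b) ^ 2 ≤ c⁻¹ * (a - b) ^ 2 :=
    mul_le_mul_of_nonneg_right (inv_anti₀ hc hb) (sq_nonneg _)
  have h6 := mul_le_mul_of_nonneg_left h1 ha0.le
  have h7 := mul_le_mul_of_nonneg_left h2 ha0.le
  rw [e, abs_of_nonneg (by linarith)]
  linarith

/-- the scalar endpoint identity -/
lemma xf_scalar {l : ℝ} (hl : 0 < l) {κ : ℝ} (hκ : 0 ≤ κ) :
    ell l κ = 2 * ((√(κ ^ 2 + l) + κ) * Real.log (√(κ ^ 2 + l) + κ) -
      (√(κ ^ 2 + l) - κ) * Real.log (√(κ ^ 2 + l) - κ) - (2 + Real.log l) * κ) := by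
  set k : ℝ := √(κ ^ 2 + l) with hk
  have hk2 : k ^ 2 = κ ^ 2 + l := Real.sq_sqrt (by positivity)
  have hkκ : κ < k := Real.lt_sqrt_of_sq_lt (by linarith)
  set ψ : ℝ → ℝ := fun f => (k + f) * Real.log (k + f) - (k - f) * Real.log (k - f) -
    (2 + Real.log l) * f with hψ
  have hd : ∀ f ∈ uIcc (-κ) κ, HasDerivAt ψ (Real.log (1 + (κ ^ 2 - f ^ 2) / l)) f := by
    intro f hf
    rw [uIcc_of_le (by linarith)] at hf
    have p1 : 0 < k + f := by linarith [hf.1]
    have p2 : 0 < k - f := by linarith [hf.2]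
    have d1 : HasDerivAt (fun f : ℝ => k + f) 1 f := (hasDerivAt_id f).const_add k
    have d2 : HasDerivAt (fun f : ℝ => k - f) (-1) f := (hasDerivAt_id f).const_sub k
    have d3 := ((d1.mul (d1.log p1.ne')).sub (d2.mul (d2.log p2.ne'))).sub
      ((hasDerivAt_id f).const_mul (2 + Real.log l))
    refine d3.congr_deriv ?_
    have e : 1 + (κ ^ 2 - f ^ 2) / l = (k + f) * (k - f) / l := by
      field_simp; nlinarith
    rw [e, Real.log_div (by positivity) hl.ne', Real.log_mul p1.ne' p2.ne']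
    field_simp
    ring
  have hc : ContinuousOn (fun f : ℝ => Real.log (1 + (κ ^ 2 - f ^ 2) / l)) (uIcc (-κ) κ) := by
    refine ContinuousOn.log (by fun_prop) fun f hf => ?_
    rw [uIcc_of_le (by linarith)] at hf
    have : f ^ 2 ≤ κ ^ 2 := by nlinarith [hf.1, hf.2]
    have : 0 ≤ (κ ^ 2 - f ^ 2) / l := div_nonneg (by linarith) hl.le
    linarith
  rw [ell, intervalIntegral.integral_eq_sub_of_hasDerivAt hd hc.intervalIntegrable]
  simp only [hψ, sub_neg_eq_add, ← sub_eq_add_neg]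
  ring

theorem x_ftc {n : ℕ} {K : Mat n n} {F F' : ℝ → Mat n n} {a b l : ℝ} (hl : 0 < l)
    (hF : ∀ x, HasDerivAt F (F' x) x) (hF' : Continuous F') (hb : ∀ x, Band K (F x))
    (ha : F a = K) (hb' : F b = -K) :
    ∫ x in a..b, rtr (LL K (F x) l * (-F' x)) = rtr (cfc (ell l) K) := by
  have hK : K.PosSemidef := (hb a).psd
  set η : ℝ → ℝ := fun x => x * Real.log x with hη
  set c : ℝ := l / (2 * √(‖K‖ ^ 2 + l)) with hc
  have hc0 : 0 < c := by
    have : 0 < √(‖K‖ ^ 2 + l) := Real.sqrt_pos.2 (by positivity)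
    positivity
  set S : Set ℝ := Icc c (2 * √(‖K‖ ^ 2 + l)) with hS
  have hT : ∀ u ∈ S, ∀ v ∈ S, |η u - η v - (Real.log v + 1) * (u - v)| ≤ c⁻¹ * (u - v) ^ 2 :=
    fun u hu v hv => xf_taylor hc0 hu.1 hv.1
  set Ψ : Mat n n → ℝ := fun G => rtr (cfc η (kk K l + G)) - rtr (cfc η (kk K l - G)) -
    (2 + Real.log l) * rtr G with hΨ
  have hd : ∀ x, HasDerivAt (fun y => -Ψ (F y)) (rtr (LL K (F x) l * (-F' x))) x := by
    intro x
    have d1 := hasDerivAt_rtr_cfc (X := fun y => kk K l + F y) ((hF x).const_add (kk K l))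
      (S := S) (Eventually.of_forall fun y => ⟨(hb y).herm_add l, (hb y).spec_add le_rfl hl⟩)
      (f := η) (f' := fun v => Real.log v + 1) hT
    have d2 := hasDerivAt_rtr_cfc (X := fun y => kk K l - F y) ((hF x).const_sub (kk K l))
      (S := S) (Eventually.of_forall fun y => ⟨(hb y).herm_sub l, (hb y).spec_sub le_rfl hl⟩)
      (f := η) (f' := fun v => Real.log v + 1) hT
    have d3 := ((d1.sub d2).sub ((hd_rtr (hF x)).const_mul (2 + Real.log l))).neg
    refine d3.congr_deriv ?_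
    rw [cfc_add', cfc_add', cfc_const' 1 ((hb x).herm_add l), cfc_const' 1 ((hb x).herm_sub l),
      one_smul, LL]
    simp only [Matrix.add_mul, Matrix.sub_mul, Matrix.mul_neg, Matrix.one_mul, Matrix.smul_mul,
      rtr_add, rtr_sub, rtr_neg, rtr_smul]
    ring
  have cF : Continuous F := continuous_iff_continuousAt.2 fun x => (hF x).continuousAt
  have hcont : Continuous fun x => rtr (LL K (F x) l * (-F' x)) :=
    continuous_rtr.comp
      ((continuous_LL cF continuous_const hb fun _ => hl).matrix_mul hF'.neg)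
  rw [intervalIntegral.integral_eq_sub_of_hasDerivAt (fun x _ => hd x)
    (hcont.intervalIntegrable _ _), ha, hb']
  have e1 : kk K l + K = cfc (fun t : ℝ => √(t ^ 2 + l) + t) K := by
    rw [cfc_add', cfc_id'' hK.1]; rfl
  have e2 : kk K l - K = cfc (fun t : ℝ => √(t ^ 2 + l) - t) K := by
    rw [cfc_sub', cfc_id'' hK.1]; rfl
  simp only [hΨ, sub_neg_eq_add, ← sub_eq_add_neg, rtr_neg]
  rw [e1, e2, cfc_cfc _ _ hK.1, cfc_cfc _ _ hK.1, rtr_cfc hK.1, rtr_cfc hK.1, rtr_cfc hK.1,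
    rtr_eq_sum_eig hK.1, Finset.sum_congr rfl fun i _ => xf_scalar hl (hK.eigenvalues_nonneg i),
    ← Finset.mul_sum, Finset.sum_sub_distrib, Finset.sum_sub_distrib, ← Finset.mul_sum]
  simp only [hη]
  ring

end Crest.Agent.R332
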