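import Crest.Agent.R332.KleinLog
import Crest.Agent.R332.LogDeriv
import Crest.Agent.R332.Boundary
import Crest.Agent.R332.XFTC
import Crest.Agent.R332.Scalars

/-! The path inequality with deficit. -/

set_option autoImplicit false
open scoped Matrix.Norms.L2Operator ComplexOrder MatrixOrder Topology
open Matrix MeasureTheory Filter Set
open Crest.MathPhysics.LiebThirring

namespace Crest.Agent.R332

namespace PathAux

lemma mvt {g : ℝ → ℝ} {u v C : ℝ} (huv : u ≤ v)
    (h : ∀ x ∈ Icc u v, ∃ g', HasDerivAt g g' x ∧ g' ≤ C) : g v - g u ≤ C * (v - u) := by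
  refine (convex_Icc u v).image_sub_le_mul_sub_of_deriv_le (f := g) ?_ ?_ ?_ u
    (left_mem_Icc.2 huv) v (right_mem_Icc.2 huv) huv
  · intro x hx
    obtain ⟨g', hg, -⟩ := h x hx
    exact hg.continuousAt.continuousWithinAt
  · intro x hx
    obtain ⟨g', hg, -⟩ := h x (interior_subset hx)
    exact hg.differentiableAt.differentiableWithinAt
  · intro x hx
    obtain ⟨g', hg, hC⟩ := h x (interior_subset hx)
    rwa [hg.deriv]

lemma contOn_LL {n : ℕ} {K F : Mat n n} (hb : Band K F) :
    ContinuousOn (fun l => LL K F l) (Ioi 0) := by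
  rw [continuousOn_iff_continuous_domRestrict]
  exact continuous_LL (T := Ioi (0 : ℝ)) continuous_const continuous_subtype_val (fun _ => hb)
    fun t => t.2

lemma contOn_rpow (t : ℝ) : ContinuousOn (fun l : ℝ => l ^ t) (Ioi 0) :=
  continuousOn_id.rpow_const fun _ hx => Or.inl (ne_of_gt hx)

lemma contOn_Theta {y : ℝ} (hy : 0 ≤ y) : ContinuousOn (fun l => Theta l y) (Ioi 0) := by
  unfold Theta
  refine ((continuousOn_id.add continuousOn_const).mul (ContinuousOn.log
    (continuousOn_const.add (continuousOn_const.div continuousOn_id fun _ hx => ne_of_gt hx))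
    fun x hx => ?_)).sub continuousOn_const
  have : 0 ≤ y / x := div_nonneg hy (le_of_lt hx)
  exact (by linarith : (0 : ℝ) < 1 + y / x).ne'

lemma ii_of_contOn {f : ℝ → ℝ} (hf : ContinuousOn f (Ioi 0)) {a b : ℝ} (ha : 0 < a) (hb : 0 < b) :
    IntervalIntegrable f volume a b :=
  (hf.mono fun _ hx => lt_of_lt_of_le (lt_min ha hb) hx.1).intervalIntegrable

lemma contOn_rtr_LL {n : ℕ} {K F : Mat n n} (hb : Band K F) (X : Mat n n) :
    ContinuousOn (fun l => rtr (LL K F l * X)) (Ioi 0) :=
  continuous_rtr.comp_continuousOn ((contOn_LL hb).mul continuousOn_const)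

variable {s : ℝ} {m : ℕ}

lemma cU (D : Data s m) : Continuous fun x => UU D.K (D.F x) :=
  continuous_const.sub (D.cF.mul D.cF)

lemma cG (hs : 0 < s) (D : Data s m) : Continuous D.G := by
  have h1 := D.cM hs
  have h2 := cU D
  have h3 := D.cF
  refine Continuous.add (Continuous.div (continuous_fro2.comp ((h1.const_smul (s / (s + 1))).sub h2))
    (continuous_const.add (continuous_rtr.comp h1)) fun x => ?_)
    (continuous_fro2.comp ((h3.mul continuous_const).sub (continuous_const.mul h3)))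
  have := rtr_nonneg (D.psdM x)
  linarith

lemma G_zero (hs : 0 < s) (D : Data s m) {x : ℝ} (hx : D.L ≤ |x|) : D.G x = 0 := by
  unfold Data.G GG
  rw [D.M_zero hs hx, D.U_zero hx]
  rcases le_abs.1 hx with h | h
  · rw [D.right x h]; simp [Matrix.mul_assoc]
  · rw [D.left x (by linarith)]; simp [Matrix.mul_assoc]

lemma supp_subset {f : ℝ → ℝ} {L : ℝ} (h : ∀ x, L ≤ |x| → f x = 0) :
    Function.support f ⊆ Ioc (-L) L := by
  intro x hx
  have : |x| < L := not_le.1 fun h' => hx (h x h')
  exact ⟨(abs_lt.1 this).1, (abs_lt.1 this).2.le⟩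

/-- Fubini and the `x`-integration. -/
lemma fubini (hs : 0 < s) (D : Data s m) {a b : ℝ} (ha : 0 < a) (hab : a ≤ b) :
    Continuous (fun x => ∫ l in a..b,
        l ^ (s - 1) * rtr (LL D.K (D.F x) l * (D.M x - UU D.K (D.F x)))) ∧
      ∫ x in (-D.L)..D.L, ∫ l in a..b,
        l ^ (s - 1) * rtr (LL D.K (D.F x) l * (D.M x - UU D.K (D.F x))) =
      ∑ j, ∫ l in a..b, l ^ (s - 1) * ell l (D.psdK.1.eigenvalues j) := by
  set f : ℝ → ℝ → ℝ := fun x l =>
    (max l a) ^ (s - 1) * rtr (LL D.K (D.F x) (max l a) * (D.M x - UU D.K (D.F x))) with hf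
  have hmax : ∀ q : ℝ × ℝ, 0 < max q.2 a := fun q => lt_of_lt_of_le ha (le_max_right _ _)
  have hc : Continuous f.uncurry := by
    have h1 : Continuous fun q : ℝ × ℝ => max q.2 a := continuous_snd.max continuous_const
    refine (h1.rpow_const fun q => Or.inl (hmax q).ne').mul (continuous_rtr.comp ?_)
    exact (continuous_LL (D.cF.comp continuous_fst) h1 (fun q => D.band _) hmax).mul
      (((D.cM hs).sub (cU D)).comp continuous_fst)
  have e1 : ∀ x, ∫ l in a..b, l ^ (s - 1) * rtr (LL D.K (D.F x) l * (D.M x - UU D.K (D.F x))) =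
      ∫ l in a..b, f x l := by
    intro x
    refine intervalIntegral.integral_congr fun l hl => ?_
    rw [uIcc_of_le hab] at hl
    simp only [hf, max_eq_left hl.1]
  simp only [e1]
  refine ⟨intervalIntegral.continuous_parametric_intervalIntegral_of_continuous' hc a b, ?_⟩
  rw [intervalIntegral_intervalIntegral_swap
    ((hc.continuousOn.integrableOn_compact (isCompact_uIcc.prod isCompact_uIcc)).mono_set
      (prod_mono uIoc_subset_uIcc uIoc_subset_uIcc)), ← intervalIntegral.integral_finsetSum]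
  · refine intervalIntegral.integral_congr fun l hl => ?_
    rw [uIcc_of_le hab] at hl
    have hl0 : 0 < l := lt_of_lt_of_le ha hl.1
    have h1 := x_ftc (K := D.K) (F := D.F) (F' := fun x => UU D.K (D.F x) - D.M x) (a := -D.L)
      (b := D.L) hl0 D.hF ((cU D).sub (D.cM hs)) D.band (D.left _ le_rfl) (D.right _ le_rfl)
    simp only [neg_sub] at h1
    simp only [hf, max_eq_left hl.1]
    rw [intervalIntegral.integral_const_mul, h1, rtr_cfc D.psdK.1, Finset.mul_sum]
  · intro j _
    exact ii_of_contOn ((contOn_rpow _).mul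
      (continuousOn_ell _ (D.psdK.eigenvalues_nonneg j))) ha (ha.trans_le hab)

end PathAux

open PathAux

theorem local_ineq {s : ℝ} (hs : 0 < s) (hs1 : s < 1) (κ : ℝ) :
    ∃ c : ℝ, 0 < c ∧ ∀ (n : ℕ) (K F M : Mat n n) (a b : ℝ), Band K F → ‖K‖ ≤ κ → M.PosSemidef →
      0 < a → a ≤ 1 → 2 ≤ b →
      s * (∫ l in a..b, l ^ (s - 1) * rtr (LL K F l * (M - UU K F))) + HH s K F b - HH s K F a +
          c * GG (s / (s + 1)) K F M ≤
        IS s * (s / (s + 1)) ^ (s + 1) * rtr (mpow M (s + 1)) := by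
  obtain ⟨c1, hc1, hJ⟩ := JJ_deriv κ
  obtain ⟨C, hC, hdef⟩ := deficit_bound κ
  refine ⟨min (1 / 2) c1 / C, div_pos (lt_min (by norm_num) hc1) hC, ?_⟩
  intro n K F M a b hb hK hM ha ha1 hb2
  set θ := s / (s + 1) with hθ
  have hθ0 : 0 ≤ θ := by positivity
  have hθ1 : θ ≤ 1 := by rw [hθ, div_le_one (by linarith)]; linarith
  have hsθ : s = (s + 1) * θ := by rw [hθ]; field_simp
  set A : ℝ → ℝ := fun l => l ^ (s - 1) * rtr (LL K F l * (M - UU K F)) with hA
  set B : ℝ → ℝ := fun l => l ^ (s - 1) * rtr (cfc (fun y => Theta l (θ * y)) M) with hB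
  have hB' : B = fun l => ∑ i, l ^ (s - 1) * Theta l (θ * hM.1.eigenvalues i) := by
    funext l
    simp only [hB, rtr_cfc hM.1, Finset.mul_sum]
  have hTh : ∀ i, ContinuousOn (fun l => l ^ (s - 1) * Theta l (θ * hM.1.eigenvalues i)) (Ioi 0) :=
    fun i => (contOn_rpow _).mul (contOn_Theta (mul_nonneg hθ0 (hM.eigenvalues_nonneg i)))
  have cA : ContinuousOn A (Ioi 0) := (contOn_rpow _).mul (contOn_rtr_LL hb _)
  have cB : ContinuousOn B (Ioi 0) := by
    rw [hB']
    exact continuousOn_finsetSum _ fun i _ => hTh i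
  have cφ : ContinuousOn (fun l => s * A l - (s + 1) * B l) (Ioi 0) :=
    (continuousOn_const.mul cA).sub (continuousOn_const.mul cB)
  set g : ℝ → ℝ := fun l => HH s K F l + ∫ t in a..l, (s * A t - (s + 1) * B t) with hg
  have hder : ∀ l, 0 < l → ∃ g', HasDerivAt g g' l ∧ g' ≤ 0 ∧
      (l ∈ Icc (1 : ℝ) 2 → g' ≤ -(min (1 / 2) c1 / C * GG θ K F M)) := by
    intro l hl
    obtain ⟨J', hJ', hJ1, hJ2⟩ := hJ n K F l hb hK hl
    have d1 : HasDerivAt (HH s K F)
        (s * l ^ (s - 1) * (JJ K F l - rtr (UU K F)) + l ^ s * J') l :=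
      (Real.hasDerivAt_rpow_const (Or.inl hl.ne')).mul (hJ'.sub_const _)
    have d2 := intervalIntegral.integral_hasDerivAt_right (ii_of_contOn cφ ha hl)
      (cφ.stronglyMeasurableAtFilter isOpen_Ioi l hl) (cφ.continuousAt (Ioi_mem_nhds hl))
    refine ⟨_, d1.add d2, ?_⟩
    have hk := klein_log hb hM hl hθ0
    have hP : 0 < l ^ (s - 1) := Real.rpow_pos_of_pos hl _
    have hls : l ^ s = l ^ (s - 1) * l := by
      rw [← Real.rpow_add_one hl.ne']; ring_nf
    have eJ : JJ K F l = rtr (LL K F l * UU K F) + l * rtr (LL K F l) := by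
      rw [JJ, Matrix.mul_add, rtr_add, Matrix.mul_smul, Matrix.mul_one, rtr_smul]
    have eA : rtr (LL K F l * (M - UU K F)) = rtr (LL K F l * M) - rtr (LL K F l * UU K F) := by
      rw [Matrix.mul_sub, rtr_sub]
    have hkd : 0 ≤ klDef θ K F M l := fro2_nonneg _
    have hcm : 0 ≤ comm2 K F l := fro2_nonneg _
    have key : ∀ δ : ℝ, J' ≤ rtr (LL K F l) - rtr (UU K F) / l - δ →
        s * l ^ (s - 1) * (JJ K F l - rtr (UU K F)) + l ^ s * J' + (s * A l - (s + 1) * B l) ≤
          -((s + 1) * l ^ (s - 1) * klDef θ K F M l) - l ^ s * δ := by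
      intro δ hδ
      have h1 : l * J' ≤ l * rtr (LL K F l) - rtr (UU K F) - l * δ := by
        have := mul_le_mul_of_nonneg_left hδ hl.le
        rwa [mul_sub, mul_sub, mul_div_cancel₀ _ hl.ne'] at this
      have h2 := mul_le_mul_of_nonneg_left hk (by linarith : 0 ≤ s + 1)
      rw [← mul_assoc, ← hsθ] at h2
      have h3 := mul_le_mul_of_nonneg_left (add_le_add h1 h2) hP.le
      simp only [hA, hB]
      rw [eJ, eA, hls]
      linarith
    constructor
    · have h1 := key 0 (by linarith)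
      have h2 : 0 ≤ (s + 1) * l ^ (s - 1) * klDef θ K F M l := by positivity
      linarith
    · intro hl12
      have h1 := key _ (hJ2 hl12)
      have h2 := hdef n K F M l θ hb hK hM hl12 ⟨hθ0, hθ1⟩
      have h3 : 1 / 2 ≤ l ^ (s - 1) := by
        have h4 : l ^ (-1 : ℝ) ≤ l ^ (s - 1) :=
          Real.rpow_le_rpow_of_exponent_le hl12.1 (by linarith)
        rw [Real.rpow_neg_one] at h4
        refine le_trans ?_ h4
        rw [one_div]
        exact inv_anti₀ hl hl12.2
      have h5 : 1 ≤ l ^ s := Real.one_le_rpow hl12.1 hs.le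
      have h6 : min (1 / 2) c1 ≤ (s + 1) * l ^ (s - 1) := by
        have := min_le_left (1 / 2) c1
        nlinarith
      have h7 : min (1 / 2) c1 ≤ l ^ s * c1 := by
        have := min_le_right (1 / 2) c1
        nlinarith
      have h8 : min (1 / 2) c1 / C * GG θ K F M ≤
          min (1 / 2) c1 * (klDef θ K F M l + comm2 K F l) := by
        rw [div_mul_eq_mul_div, div_le_iff₀ hC]
        have := mul_le_mul_of_nonneg_left h2 (le_min (by norm_num) hc1.le : 0 ≤ min (1 / 2) c1)
        linarith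
      have h9 := mul_le_mul_of_nonneg_right h6 hkd
      have h10 := mul_le_mul_of_nonneg_right h7 hcm
      linarith
  have m1 := mvt (g := g) (C := 0) ha1 fun x hx => by
    obtain ⟨g', h1, h2, -⟩ := hder x (ha.trans_le hx.1)
    exact ⟨g', h1, h2⟩
  have m2 := mvt (g := g) (u := 1) (v := 2) (by norm_num) fun x hx => by
    obtain ⟨g', h1, -, h2⟩ := hder x (by linarith [hx.1])
    exact ⟨g', h1, h2 hx⟩
  have m3 := mvt (g := g) (C := 0) hb2 fun x hx => by
    obtain ⟨g', h1, h2, -⟩ := hder x (by linarith [hx.1])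
    exact ⟨g', h1, h2⟩
  have hb0 : 0 < b := by linarith
  have ga : g a = HH s K F a := by simp [hg]
  have gb : g b = HH s K F b + (s * (∫ t in a..b, A t) - (s + 1) * ∫ t in a..b, B t) := by
    simp only [hg]
    rw [intervalIntegral.integral_sub ((ii_of_contOn cA ha hb0).const_mul _)
      ((ii_of_contOn cB ha hb0).const_mul _), intervalIntegral.integral_const_mul,
      intervalIntegral.integral_const_mul]
  have hBle : (s + 1) * ∫ t in a..b, B t ≤ IS s * θ ^ (s + 1) * rtr (mpow M (s + 1)) := by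
    rw [hB', intervalIntegral.integral_finsetSum fun i _ => ii_of_contOn (hTh i) ha hb0, mpow,
      rtr_cfc hM.1, Finset.mul_sum, Finset.mul_sum]
    refine Finset.sum_le_sum fun i _ => ?_
    refine (theta_integral_le hs hs1 (mul_nonneg hθ0 (hM.eigenvalues_nonneg i)) ha
      (by linarith)).trans (le_of_eq ?_)
    rw [Real.mul_rpow hθ0 (hM.eigenvalues_nonneg i), mul_assoc]
  linarith

theorem pathIneq {s : ℝ} (hs : 0 < s) (hs1 : s < 1) (κ : ℝ) :
    ∃ c : ℝ, 0 < c ∧ ∀ (m : ℕ) (D : Data s m), ‖D.K‖ ≤ κ →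
      Integrable D.G ∧ c * ∫ x, D.G x ≤ D.D3 := by
  obtain ⟨c, hc, hloc⟩ := local_ineq hs hs1 κ
  have hI := IS_pos hs hs1
  have hθ : 0 < (s / (s + 1)) ^ (s + 1) := Real.rpow_pos_of_pos (by positivity) _
  refine ⟨c / (IS s * (s / (s + 1)) ^ (s + 1)), by positivity, fun m D hK => ?_⟩
  have hL := D.hL
  have cT : Continuous fun x => rtr (mpow (D.M x) (s + 1)) :=
    continuous_rtr.comp (continuous_mpow (D.cM hs) (fun x => (D.psdM x).1) (by linarith))
  have eG : ∫ x in (-D.L)..D.L, D.G x = ∫ x, D.G x :=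
    intervalIntegral.integral_eq_integral_of_support_subset
      (supp_subset fun x hx => G_zero hs D hx)
  have eT : ∫ x in (-D.L)..D.L, rtr (mpow (D.M x) (s + 1)) = ∫ x, rtr (mpow (D.M x) (s + 1)) :=
    intervalIntegral.integral_eq_integral_of_support_subset (supp_subset fun x hx => by
      rw [D.M_zero hs hx, mpow_zero_left (by linarith), rtr_zero])
  refine ⟨(cG hs D).integrable_of_hasCompactSupport
    (HasCompactSupport.intro (isCompact_Icc (a := -D.L) (b := D.L)) fun x hx => G_zero hs D ?_), ?_⟩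
  · by_contra h
    exact hx ⟨(abs_lt.1 (not_le.1 h)).1.le, (abs_lt.1 (not_le.1 h)).2.le⟩
  have hlim : Tendsto (fun q : ℝ × ℝ =>
      s * ∑ j, ∫ l in q.1..q.2, l ^ (s - 1) * ell l (D.psdK.1.eigenvalues j))
      ((𝓝[>] 0) ×ˢ atTop) (𝓝 (s * (IS s * betaS s * rtr (mpow D.K (2 * s + 1))))) := by
    rw [mpow, rtr_cfc D.psdK.1, Finset.mul_sum (a := IS s * betaS s)]
    exact (tendsto_finsetSum _ fun j _ =>
      ell_integral_tendsto hs hs1 (D.psdK.eigenvalues_nonneg j)).const_mul s
  have main : s * (IS s * betaS s * rtr (mpow D.K (2 * s + 1))) ≤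
      IS s * (s / (s + 1)) ^ (s + 1) * (∫ x, rtr (mpow (D.M x) (s + 1))) - c * ∫ x, D.G x := by
    refine le_of_forall_pos_le_add fun δ hδ => le_of_tendsto hlim ?_
    have hε : 0 < δ / (4 * D.L) := by positivity
    have e1 : ∀ᶠ a in 𝓝[>] (0 : ℝ), 0 < a ∧ a ≤ 1 := by
      filter_upwards [Ioc_mem_nhdsGT (zero_lt_one' ℝ)] with a ha using ha
    filter_upwards [(e1.and (boundary_zero hs D.K hε)).prod_mk
      ((eventually_ge_atTop (2 : ℝ)).and (boundary_top hs1 D.K hε))] with q hq
    obtain ⟨⟨⟨ha, ha1⟩, h0⟩, hb2, h1⟩ := hq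
    obtain ⟨cA, eA⟩ := fubini hs D ha (by linarith : q.1 ≤ q.2)
    have h2 := intervalIntegral.integral_mono_on (μ := volume) (by linarith : -D.L ≤ D.L)
      (f := fun x => s * (∫ l in q.1..q.2,
        l ^ (s - 1) * rtr (LL D.K (D.F x) l * (D.M x - UU D.K (D.F x)))) + c * D.G x)
      (g := fun x => IS s * (s / (s + 1)) ^ (s + 1) * rtr (mpow (D.M x) (s + 1)) +
        2 * (δ / (4 * D.L)))
      (((continuous_const.mul cA).add (continuous_const.mul (cG hs D))).intervalIntegrable _ _)
      (((continuous_const.mul cT).add continuous_const).intervalIntegrable _ _) fun x _ => by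
        have a1 := hloc _ D.K (D.F x) (D.M x) q.1 q.2 (D.band x) hK (D.psdM x) ha ha1 hb2
        have a2 := h0 _ (D.band x)
        have a3 := h1 _ (D.band x)
        unfold Data.G
        linarith
    rw [intervalIntegral.integral_add ((cA.intervalIntegrable _ _).const_mul _)
      (((cG hs D).intervalIntegrable _ _).const_mul _),
      intervalIntegral.integral_add ((cT.intervalIntegrable _ _).const_mul _)
      intervalIntegrable_const, intervalIntegral.integral_const_mul,
      intervalIntegral.integral_const_mul, intervalIntegral.integral_const_mul,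
      intervalIntegral.integral_const, eA, eG, eT, smul_eq_mul] at h2
    have e2 : (D.L - -D.L) * (2 * (δ / (4 * D.L))) = δ := by
      field_simp
      ring
    linarith
  have ek : s * betaS s = (s / (s + 1)) ^ (s + 1) * kS s := by
    have h1 : 0 < (s + 1) ^ (s + 1) := Real.rpow_pos_of_pos (by linarith) _
    have h2 : 0 < s ^ s := Real.rpow_pos_of_pos hs _
    rw [kS, Real.div_rpow hs.le (by linarith), Real.rpow_add_one hs.ne' s]
    field_simp
  rw [div_mul_eq_mul_div, div_le_iff₀ (by positivity), Data.D3]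
  have e3 : s * (IS s * betaS s * rtr (mpow D.K (2 * s + 1))) =
      IS s * ((s / (s + 1)) ^ (s + 1) * kS s) * rtr (mpow D.K (2 * s + 1)) := by
    rw [← ek]; ring
  linarith

lemma Data.D3_nonneg {s : ℝ} (hs : 0 < s) (hs1 : s < 1) {m : ℕ} (D : Data s m) : 0 ≤ D.D3 := by
  obtain ⟨c, hc, h⟩ := pathIneq hs hs1 ‖D.K‖
  refine le_trans (mul_nonneg hc.le (integral_nonneg fun x => ?_)) (h m D le_rfl).2
  have := rtr_nonneg (D.psdM x)
  exact add_nonneg (div_nonneg (fro2_nonneg _) (by linarith)) (fro2_nonneg _)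

end Crest.Agent.R332
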