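import Crest.Agent.R332.Basic
import Crest.Agent.R332.Brouwer
import Crest.Agent.R332.ParamODE

/-! Existence of a Riccati path from `K` to `-K`. -/

set_option autoImplicit false
open scoped Matrix.Norms.L2Operator ComplexOrder MatrixOrder Topology
open Matrix MeasureTheory Filter Set
open Crest.MathPhysics.LiebThirring

namespace Crest.Agent.R332

namespace Ric

variable {n : ℕ}

lemma gron {f f' : ℝ → ℝ} {a b δ K ε : ℝ}
    (hf : ∀ t ∈ Icc a b, HasDerivWithinAt f (f' t) (Icc a b) t) (ha : f a ≤ δ)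
    (hb : ∀ t ∈ Icc a b, f' t ≤ K * f t + ε) :
    ∀ t ∈ Icc a b, f t ≤ gronwallBound δ K ε (t - a) :=
  le_gronwallBound_of_liminf_deriv_right_le (f' := f')
    (fun t ht => (hf t ht).continuousWithinAt)
    (fun x hx r hr => by
      have h := ((hf x (Ico_subset_Icc_self hx)).mono_of_mem_nhdsWithin
        (Icc_mem_nhdsGE_of_mem hx)).liminf_right_slope_le hr
      simpa [slope, vsub_eq_sub] using h)
    ha fun x hx => hb x (Ico_subset_Icc_self hx)

lemma taylor_min (a b : ℝ) :
    |(min a 0) ^ 2 - (min b 0) ^ 2 - 2 * min b 0 * (a - b)| ≤ 1 * (a - b) ^ 2 := by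
  rw [abs_le]
  rcases le_total a 0 with ha | ha <;> rcases le_total b 0 with hb | hb <;>
    simp only [min_eq_left, min_eq_right, ha, hb] <;> constructor <;>
    nlinarith [sq_nonneg (a - b), sq_nonneg a, sq_nonneg b]

/-- The Hermitian part. -/
noncomputable def hp (n : ℕ) : Mat n n →L[ℝ] Mat n n :=
  LinearMap.toContinuousLinearMap
    { toFun := fun X => (1 / 2 : ℝ) • (X + Xᴴ)
      map_add' := fun X Y => by simp only [conjTranspose_add, smul_add]; abel
      map_smul' := fun c X => by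
        simp only [conjTranspose_smul, star_trivial, RingHom.id_apply, smul_add, smul_comm c] }

lemma hp_apply (X : Mat n n) : hp n X = (1 / 2 : ℝ) • (X + Xᴴ) := rfl

lemma herm_smul {X : Mat n n} (c : ℝ) (h : X.IsHermitian) : (c • X).IsHermitian := by
  rw [IsHermitian, conjTranspose_smul, star_trivial, h.eq]

lemma hp_herm (X : Mat n n) : (hp n X).IsHermitian :=
  herm_smul _ (by rw [IsHermitian, conjTranspose_add, conjTranspose_conjTranspose, add_comm])

lemma hp_of_herm {X : Mat n n} (h : X.IsHermitian) : hp n X = X := by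
  rw [hp_apply, h.eq, ← two_smul ℝ X, smul_smul]; simp

lemma herm_UU {K F : Mat n n} (hK : K.IsHermitian) (hF : F.IsHermitian) :
    (UU K F).IsHermitian := by
  rw [IsHermitian, UU, conjTranspose_sub, conjTranspose_mul, conjTranspose_mul, hK.eq, hF.eq]

/-- Conjugate transpose as a real continuous linear map. -/
noncomputable def ctL (n : ℕ) : Mat n n →L[ℝ] Mat n n :=
  LinearMap.toContinuousLinearMap
    { toFun := fun X => Xᴴ
      map_add' := conjTranspose_add
      map_smul' := fun c X => by simp only [conjTranspose_smul, star_trivial, RingHom.id_apply] }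

lemma contDiff_fro2 : ContDiff ℝ 1 (fro2 : Mat n n → ℝ) :=
  (rtrL n).contDiff.comp ((ctL n).contDiff.mul contDiff_id)

/-- The cut-off. -/
noncomputable def chi (K F : Mat n n) : ℝ := Real.smoothTransition (1 + rtr (K * K) - fro2 F)

lemma chi_nonneg (K F : Mat n n) : 0 ≤ chi K F := Real.smoothTransition.nonneg _

lemma chi_le (K F : Mat n n) : chi K F ≤ 1 := Real.smoothTransition.le_one _

lemma chi_zero {K F : Mat n n} (h : 1 + rtr (K * K) ≤ fro2 F) : chi K F = 0 :=
  Real.smoothTransition.zero_of_nonpos (by linarith)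

lemma rtr_UU {K F : Mat n n} (hF : F.IsHermitian) : rtr (UU K F) = rtr (K * K) - fro2 F := by
  rw [UU, rtr_sub, fro2, hF.eq]

lemma chi_one {K F : Mat n n} (h : Band K F) : chi K F = 1 := by
  have := h.rtr_UU_nonneg
  rw [rtr_UU h.hermF] at this
  exact Real.smoothTransition.one_of_one_le (by linarith)

lemma continuous_chi {T : Type*} [TopologicalSpace T] {f g : T → Mat n n} (hf : Continuous f)
    (hg : Continuous g) : Continuous fun p => chi (f p) (g p) :=
  Real.smoothTransition.continuous.comp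
    ((continuous_const.add (continuous_rtr.comp (hf.mul hf))).sub (continuous_fro2.comp hg))

lemma continuousOn_chi (K : Mat n n) {g : ℝ → Mat n n} {s : Set ℝ} (hg : ContinuousOn g s) :
    ContinuousOn (fun p => chi K (g p)) s :=
  (continuous_chi (f := fun _ => K) (g := fun F => F) continuous_const
    continuous_id).comp_continuousOn' hg

lemma continuous_UU {T : Type*} [TopologicalSpace T] {f g : T → Mat n n} (hf : Continuous f)
    (hg : Continuous g) : Continuous fun p => UU (f p) (g p) := (hf.mul hf).sub (hg.mul hg)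

lemma norm_sq_le (F : Mat n n) : ‖F‖ ^ 2 ≤ fro2 F := by
  rw [← fro_sq]; exact pow_le_pow_left₀ (norm_nonneg _) (norm_le_fro F) 2

lemma lip_field (K : Mat n n) : ∃ C, LipschitzWith C fun F : Mat n n => chi K F • UU K F := by
  refine ContDiff.lipschitzWith_of_hasCompactSupport (𝕂 := ℝ) (n := 1) ?_ ?_ one_ne_zero
  · refine HasCompactSupport.intro (isCompact_closedBall (0 : Mat n n) (|rtr (K * K)| + 1))
      fun F hF => ?_
    rw [mem_closedBall_zero_iff, not_le] at hF
    have h1 := norm_sq_le F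
    have h2 := le_abs_self (rtr (K * K))
    have h3 := abs_nonneg (rtr (K * K))
    rw [chi_zero (by nlinarith), zero_smul]
  · exact (Real.smoothTransition.contDiff.comp (contDiff_const.sub contDiff_fro2)).smul
      (contDiff_const.sub (contDiff_id.mul contDiff_id))

lemma norm_field (K F : Mat n n) : ‖chi K F • UU K F‖ ≤ ‖K * K‖ + (1 + |rtr (K * K)|) := by
  by_cases h : 1 + rtr (K * K) ≤ fro2 F
  · rw [chi_zero h, zero_smul, norm_zero]; positivity
  · have h1 := norm_sq_le F
    have h2 := le_abs_self (rtr (K * K))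
    have h3 : ‖UU K F‖ ≤ ‖K * K‖ + ‖F‖ * ‖F‖ :=
      (norm_sub_le _ _).trans (add_le_add le_rfl (norm_mul_le _ _))
    rw [norm_smul, Real.norm_of_nonneg (chi_nonneg _ _)]
    nlinarith [chi_nonneg K F, chi_le K F, norm_nonneg (UU K F)]

lemma rtr_field {K F : Mat n n} (hF : F.IsHermitian) : -rtr (chi K F • UU K F) ≤ 1 := by
  rw [rtr_smul, rtr_UU hF]
  by_cases h : 1 + rtr (K * K) ≤ fro2 F
  · rw [chi_zero h]; norm_num
  · nlinarith [chi_nonneg K F, chi_le K F]

lemma lyap_eq (c : ℝ) (K F : Mat n n) :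
    ((c / 2) • (K + F)) * (K - F) + (K - F) * ((c / 2) • (K + F)) = c • UU K F := by
  rw [smul_mul_assoc, mul_smul_comm, ← smul_add,
    show (K + F) * (K - F) + (K - F) * (K + F) = (2 : ℝ) • UU K F by
      rw [two_smul, UU]; noncomm_ring, smul_smul]
  congr 1
  ring

lemma hd_of_closed {E : Type*} [NormedAddCommGroup E] [NormedSpace ℝ E] {f : ℝ → E} {f' : E}
    {s : Set ℝ} {x : ℝ} (hs : IsClosed s) (h : x ∈ s → HasDerivWithinAt f f' s x) :
    HasDerivWithinAt f f' s x := by
  by_cases hx : x ∈ s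
  · exact h hx
  · exact HasFDerivWithinAt.of_notMem_closure (by rwa [hs.closure_eq])

lemma exists_flow {a b : ℝ} (hab : a ≤ b) (M : Mat n n → ℝ → Mat n n)
    (hMc : Continuous fun q : Mat n n × ℝ => M q.1 q.2) (C : ℝ) (hMb : ∀ K x, ‖M K x‖ ≤ C) :
    ∃ y : Mat n n → ℝ → Mat n n, (∀ X, y X a = hp n X) ∧
      (∀ X, ∀ t ∈ Icc a b, HasDerivWithinAt (y X) (chi (hp n X) (hp n (y X t)) •
        UU (hp n X) (hp n (y X t)) - M (hp n X) t) (Icc a b) t) ∧ Continuous fun X => y X b := by
  have hc : Continuous (hp n) := (hp n).continuous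
  have h0 : Continuous fun q : Mat n n × ℝ × Mat n n => (hp n q.1, hp n q.2.2) := by fun_prop
  have h1 : Continuous fun q : Mat n n × ℝ × Mat n n => (hp n q.1, q.2.1) := by fun_prop
  have h2 : Continuous fun q : Mat n n × ℝ × Mat n n => chi (hp n q.1) (hp n q.2.2) :=
    continuous_chi h0.fst h0.snd
  have h3 : Continuous fun q : Mat n n × ℝ × Mat n n => UU (hp n q.1) (hp n q.2.2) :=
    continuous_UU h0.fst h0.snd
  have h4 : Continuous fun q : Mat n n × ℝ × Mat n n => M (hp n q.1) q.2.1 := hMc.comp' h1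
  have h5 : Continuous fun X : Mat n n => ‖hp n X * hp n X‖ + (1 + |rtr (hp n X * hp n X)|) + C :=
    ((hc.mul hc).norm.add (continuous_const.add (continuous_rtr.comp (hc.mul hc)).abs)).add
      continuous_const
  refine exists_param_flow (E := Mat n n) (P := Mat n n)
    (fun X t Y => chi (hp n X) (hp n Y) • UU (hp n X) (hp n Y) - M (hp n X) t)
    ((h2.smul h3).sub h4) a b hab (fun X => ?_) (fun X₀ => ?_) (fun X => hp n X) hc
  · obtain ⟨c, hc⟩ := lip_field (hp n X)
    exact ⟨c * ‖hp n‖₊ + 0, fun t _ => (hc.comp (hp n).lipschitz).sub (LipschitzWith.const _)⟩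
  · refine ⟨_, ((h5.tendsto X₀).eventually (gt_mem_nhds (lt_add_one _))).mono
      fun X hX t _ Y => le_trans ?_ hX.le⟩
    exact (norm_sub_le _ _).trans (add_le_add (norm_field _ _) (hMb _ _))

end Ric

open Ric

/-- Lyapunov positivity. -/
theorem lyapunov_psd {n : ℕ} {a b : ℝ} {D B M : ℝ → Mat n n}
    (hD : ∀ t ∈ Icc a b, HasDerivWithinAt D (-(B t * D t + D t * B t) + M t) (Icc a b) t)
    (hDh : ∀ t ∈ Icc a b, (D t).IsHermitian) (hB : ContinuousOn B (Icc a b))
    (hBh : ∀ t ∈ Icc a b, (B t).IsHermitian) (hM : ∀ t ∈ Icc a b, (M t).PosSemidef)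
    (h0 : (D a).PosSemidef) : ∀ t ∈ Icc a b, (D t).PosSemidef := by
  obtain ⟨C, hC⟩ := isCompact_Icc.exists_bound_of_continuousOn hB
  have hφ : ∀ t ∈ Icc a b, HasDerivWithinAt (fun y => rtr (cfc (fun x : ℝ => (min x 0) ^ 2) (D y)))
      (rtr (cfc (fun x : ℝ => 2 * min x 0) (D t) * (-(B t * D t + D t * B t) + M t))) (Icc a b) t :=
    fun t ht => hasDerivWithinAt_rtr_cfc (S := univ) (C := 1) (hD t ht)
      (eventually_nhdsWithin_of_forall fun y hy => ⟨hDh y hy, subset_univ _⟩)
      ⟨hDh t ht, subset_univ _⟩ fun a _ b _ => taylor_min a b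
  have ha : rtr (cfc (fun x : ℝ => (min x 0) ^ 2) (D a)) ≤ 0 := by
    rw [rtr_cfc h0.1]
    exact (Finset.sum_eq_zero fun i _ => by simp [h0.eigenvalues_nonneg i]).le
  have key := gron (K := 4 * C) (ε := 0) hφ ha fun t ht => by
    have hP : (cfc (fun x : ℝ => (min x 0) ^ 2) (D t)).PosSemidef :=
      cfc_psd fun x _ => sq_nonneg _
    have hN : (cfc (fun x : ℝ => -(2 * min x 0)) (D t)).PosSemidef :=
      cfc_psd fun x _ => by linarith [min_le_right x 0]
    have e0 : cfc (fun x : ℝ => -(2 * min x 0)) (D t) = -cfc (fun x : ℝ => 2 * min x 0) (D t) :=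
      cfc_neg _ _
    have hx : ∀ x : ℝ, 2 * min x 0 * x = 2 * (min x 0) ^ 2 := fun x => by
      rcases le_total x 0 with h | h
      · rw [min_eq_left h]; ring
      · rw [min_eq_right h]; ring
    have e1 : cfc (fun x : ℝ => 2 * min x 0) (D t) * D t =
        (2 : ℝ) • cfc (fun x : ℝ => (min x 0) ^ 2) (D t) := by
      rw [← cfc_const_mul']
      conv_lhs => rw [← cfc_id'' (hDh t ht), cfc_cfc _ _ (hDh t ht), ← cfc_mul']
      simp only [hx]
    have e2 : D t * cfc (fun x : ℝ => 2 * min x 0) (D t) =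
        (2 : ℝ) • cfc (fun x : ℝ => (min x 0) ^ 2) (D t) := by
      rw [← e1]
      conv_lhs => rw [← cfc_id'' (hDh t ht), cfc_cfc _ _ (hDh t ht), cfc_comm, cfc_id'' (hDh t ht)]
    have h1 := rtr_mul_nonneg hN (hM t ht)
    have h2 := abs_rtr_mul_le_norm (hBh t ht) hP
    have h3 := rtr_nonneg hP
    have h4 := hC t ht
    rw [e0, Matrix.neg_mul, rtr_neg] at h1
    rw [Matrix.mul_add, Matrix.mul_neg, Matrix.mul_add, rtr_add, rtr_neg, rtr_add,
      ← Matrix.mul_assoc, rtr_mul_comm _ (D t), ← Matrix.mul_assoc, ← Matrix.mul_assoc, e1, e2,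
      Matrix.smul_mul, rtr_smul, rtr_mul_comm _ (B t)]
    nlinarith [(abs_le.1 h2).1]
  intro t ht
  have h1 := key t ht
  rw [gronwallBound_ε0_δ0, rtr_cfc (hDh t ht)] at h1
  have h2 := (Finset.sum_eq_zero_iff_of_nonneg fun i _ => sq_nonneg _).1
    (le_antisymm h1 (Finset.sum_nonneg fun i _ => sq_nonneg _))
  refine (hDh t ht).posSemidef_iff_eigenvalues_nonneg.2 fun i => ?_
  have h3 := pow_eq_zero_iff two_ne_zero |>.1 (h2 i (Finset.mem_univ i))
  exact min_eq_right_iff.1 h3

theorem exists_riccati {N : ℕ} (L : ℝ) (hL : 0 < L) (M : Mat N N → ℝ → Mat N N)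
    (hMc : Continuous fun q : Mat N N × ℝ => M q.1 q.2) (hMp : ∀ K x, (M K x).PosSemidef)
    (C : ℝ) (hMb : ∀ K x, ‖M K x‖ ≤ C) (hM0 : ∀ K x, L ≤ |x| → M K x = 0) :
    ∃ (K : Mat N N) (F : ℝ → Mat N N), (∀ x, Band K (F x)) ∧
      (∀ x, HasDerivAt F (UU K (F x) - M K x) x) ∧
      (∀ x, x ≤ -L → F x = K) ∧ (∀ x, L ≤ x → F x = -K) := by
  have hLL : -L ≤ L := by linarith
  have hc : Continuous (hp N) := (hp N).continuous
  obtain ⟨y, hy0, hy, hyc⟩ := exists_flow hLL M hMc C hMb
  have hF : ∀ X, ∀ t ∈ Icc (-L) L, HasDerivWithinAt (fun t => hp N (y X t))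
      (chi (hp N X) (hp N (y X t)) • UU (hp N X) (hp N (y X t)) - M (hp N X) t) (Icc (-L) L) t := by
    intro X t ht
    have h1 := (hp N).hasFDerivAt.comp_hasDerivWithinAt t (hy X t ht)
    rwa [hp_of_herm ((herm_smul _ (herm_UU (hp_herm _) (hp_herm _))).sub (hMp _ _).1)] at h1
  have hF0 : ∀ X, hp N (y X (-L)) = hp N X := fun X => by rw [hy0, hp_of_herm (hp_herm _)]
  have hFc : ∀ X, ContinuousOn (fun t => hp N (y X t)) (Icc (-L) L) :=
    fun X t ht => (hF X t ht).continuousWithinAt
  have hχ : ∀ X, ContinuousOn (fun t => chi (hp N X) (hp N (y X t))) (Icc (-L) L) :=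
    fun X => continuousOn_chi _ (hFc X)
  have hD : ∀ X, ∀ t ∈ Icc (-L) L, (hp N X - hp N (y X t)).PosSemidef := fun X => by
    refine lyapunov_psd (D := fun t => hp N X - hp N (y X t))
      (B := fun t => (chi (hp N X) (hp N (y X t)) / 2) • (hp N X + hp N (y X t)))
      (M := fun t => M (hp N X) t) (fun t ht => ?_) (fun t _ => (hp_herm _).sub (hp_herm _))
      (((hχ X).div_const 2).smul (continuousOn_const.add (hFc X)))
      (fun t _ => herm_smul _ ((hp_herm _).add (hp_herm _))) (fun t _ => hMp _ _) ?_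
    · rw [lyap_eq]
      exact ((hF X t ht).const_sub (hp N X)).congr_deriv (by abel)
    · simpa [hF0] using PosSemidef.zero
  have hT : ∀ X, ‖hp N X - hp N (y X L)‖ ≤ (1 + N * C) * (2 * L) := fun X => by
    refine (norm_le_rtr (hD X L (right_mem_Icc.2 hLL))).trans ?_
    have h1 := gron (f := fun t => rtr (hp N X - hp N (y X t))) (δ := 0) (K := 0) (ε := 1 + N * C)
      (fun t ht => (rtrL N).hasFDerivAt.comp_hasDerivWithinAt t ((hF X t ht).const_sub (hp N X)))
      (by simp [hF0]) (fun t _ => by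
        have h2 := rtr_field (K := hp N X) (hp_herm (y X t))
        have h3 := (le_abs_self _).trans (abs_rtr_le (M (hp N X) t))
        have h4 := mul_le_mul_of_nonneg_left (hMb (hp N X) t) (Nat.cast_nonneg (α := ℝ) N)
        rw [rtrL_apply, rtr_neg, rtr_sub]
        linarith) L (right_mem_Icc.2 hLL)
    rw [gronwallBound_K0] at h1
    dsimp only at h1
    linarith
  obtain ⟨X, hX⟩ := exists_fixed_of_bounded (fun X => (1 / 2 : ℝ) • (hp N X - hp N (y X L)))
    ((hc.sub (hc.comp hyc)).const_smul (1 / 2 : ℝ)) ((1 / 2) * ((1 + N * C) * (2 * L))) fun X => by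
      rw [norm_smul, Real.norm_of_nonneg (by norm_num)]
      exact mul_le_mul_of_nonneg_left (hT X) (by norm_num)
  have hK : hp N X = X := hp_of_herm (hX ▸ herm_smul _ ((hp_herm _).sub (hp_herm _)))
  have hFL : hp N (y X L) = -X := by
    rw [hK] at hX
    have h1 : (2 : ℝ) • ((1 / 2 : ℝ) • (X - hp N (y X L))) = (2 : ℝ) • X := by rw [hX]
    rw [smul_smul, two_smul] at h1
    norm_num at h1
    linear_combination (norm := abel) -h1
  have hXh : X.IsHermitian := hK ▸ hp_herm X
  replace hF := hF X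
  replace hF0 := hF0 X
  replace hFc := hFc X
  replace hχ := hχ X
  replace hD := hD X
  rw [hK] at hF hF0 hχ hD
  have hH : ∀ t, (hp N (y X t)).IsHermitian := fun t => hp_herm _
  generalize hFF : (fun t => hp N (y X t)) = F at hF hFc
  have hFt : ∀ t, hp N (y X t) = F t := fun t => congrFun hFF t
  simp only [hFt] at hF hF0 hχ hD hFL hH
  have hneg : MapsTo (fun t : ℝ => -t) (Icc (-L) L) (Icc (-L) L) := fun t ht =>
    ⟨by linarith [ht.2], by linarith [ht.1]⟩
  have hD' : ∀ t ∈ Icc (-L) L, (X - -F (-t)).PosSemidef := by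
    refine lyapunov_psd (D := fun t => X - -F (-t))
      (B := fun t => (chi X (F (-t)) / 2) • (X + -F (-t)))
      (M := fun t => M X (-t)) (fun t ht => ?_) (fun t _ => hXh.sub (hH _).neg)
      (((hχ.comp continuous_neg.continuousOn hneg).div_const 2).smul
        (continuousOn_const.add (hFc.comp continuous_neg.continuousOn hneg).neg))
      (fun t _ => herm_smul _ (hXh.add (hH _).neg)) (fun t _ => hMp _ _) ?_
    · rw [lyap_eq]
      have h1 := (hF (-t) (hneg ht)).scomp t (hasDerivAt_neg t).hasDerivWithinAt hneg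
      refine (h1.neg.const_sub X).congr_deriv ?_
      rw [show UU X (-F (-t)) = UU X (F (-t)) by simp [UU], neg_one_smul]
      abel
    · simpa [hFL] using PosSemidef.zero
  have hb : ∀ t ∈ Icc (-L) L, Band X (F t) := fun t ht =>
    ⟨hD t ht, by simpa using hD' (-t) (hneg ht)⟩
  have hm : ∀ x, max (-L) (min x L) ∈ Icc (-L) L := fun x =>
    ⟨le_max_left _ _, max_le hLL (min_le_right _ _)⟩
  have hl : ∀ x, x ≤ -L → F (max (-L) (min x L)) = X := fun x hx => by
    rw [max_eq_left ((min_le_left _ _).trans hx), hF0]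
  have hr : ∀ x, L ≤ x → F (max (-L) (min x L)) = -X := fun x hx => by
    rw [min_eq_right hx, max_eq_right hLL, hFL]
  have hi : ∀ x ∈ Icc (-L) L, F (max (-L) (min x L)) = F x := fun x hx => by
    rw [min_eq_left hx.2, max_eq_right hx.1]
  refine ⟨X, fun x => F (max (-L) (min x L)), fun x => hb _ (hm x), fun x => ?_, hl, hr⟩
  have h1 : HasDerivWithinAt (fun x => F (max (-L) (min x L)))
      (UU X (F (max (-L) (min x L))) - M X x) (Iic (-L)) x :=
    hd_of_closed isClosed_Iic fun hx => by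
      rw [hl x hx, hM0 X x (le_abs.2 (Or.inr (by linarith [mem_Iic.1 hx])))]
      exact ((hasDerivWithinAt_const x _ X).congr hl (hl x hx)).congr_deriv (by simp [UU])
  have h2 : HasDerivWithinAt (fun x => F (max (-L) (min x L)))
      (UU X (F (max (-L) (min x L))) - M X x) (Ici L) x :=
    hd_of_closed isClosed_Ici fun hx => by
      rw [hr x hx, hM0 X x (le_abs.2 (Or.inl hx))]
      exact ((hasDerivWithinAt_const x _ (-X)).congr hr (hr x hx)).congr_deriv (by simp [UU])
  have h3 : HasDerivWithinAt (fun x => F (max (-L) (min x L)))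
      (UU X (F (max (-L) (min x L))) - M X x) (Icc (-L) L) x :=
    hd_of_closed isClosed_Icc fun hx => by
      rw [hi x hx]
      exact ((hF x hx).congr hi (hi x hx)).congr_deriv (by rw [chi_one (hb x hx), one_smul])
  have h4 := (h1.union h3).union h2
  rwa [Iic_union_Icc_eq_Iic hLL, Iic_union_Ici, hasDerivWithinAt_univ] at h4

end Crest.Agent.R332
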