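import Crest.Agent.R332.RigidCore
import Crest.Agent.R332.PathIneq
import Crest.Agent.R332.DataExists

/-! Rigidity: vanishing deficits force a soliton sum. -/

set_option autoImplicit false
open scoped Matrix.Norms.L2Operator ComplexOrder MatrixOrder Topology
open Matrix MeasureTheory Filter Set
open Crest.MathPhysics.LiebThirring

namespace Crest.Agent.R332

/-- Nonnegative functions with summable integrals tend to zero almost everywhere. -/
lemma ae_tendsto_zero_of_summable {f : ℕ → ℝ → ℝ} (hi : ∀ j, Integrable (f j))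
    (h0 : ∀ j x, 0 ≤ f j x) (hs : Summable fun j => ∫ x, f j x) :
    ∀ᵐ x, Tendsto (fun j => f j x) atTop (𝓝 0) := by
  have hm : ∀ j, AEMeasurable fun x => ENNReal.ofReal (f j x) := fun j =>
    (hi j).aemeasurable.ennreal_ofReal
  have hfin : ∫⁻ x, ∑' j, ENNReal.ofReal (f j x) ≠ ⊤ := by
    rw [lintegral_tsum hm]
    have : ∀ j, ∫⁻ x, ENNReal.ofReal (f j x) = ENNReal.ofReal (∫ x, f j x) := fun j =>
      (ofReal_integral_eq_lintegral_ofReal (hi j) (ae_of_all _ (h0 j))).symm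
    simp_rw [this]
    rw [← ENNReal.ofReal_tsum_of_nonneg (fun j => integral_nonneg (h0 j)) hs]
    exact ENNReal.ofReal_ne_top
  filter_upwards [ae_lt_top' (AEMeasurable.tsum hm) hfin] with x hx
  have h1 := ENNReal.tendsto_atTop_zero_of_tsum_ne_top hx.ne
  have h2 := (ENNReal.tendsto_toReal ENNReal.zero_ne_top).comp h1
  simpa [Function.comp_def, ENNReal.toReal_ofReal (h0 _ x)] using h2

/-- Cauchy–Schwarz on a bounded interval, in a limit form. -/
lemma tendsto_intervalIntegral_of_sq {n g w : ℕ → ℝ → ℝ} {a b B : ℝ} (hn : ∀ j x, 0 ≤ n j x)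
    (hg0 : ∀ j x, 0 ≤ g j x) (hw0 : ∀ j x, 0 ≤ w j x) (hgi : ∀ j, Integrable (g j))
    (hwi : ∀ j, IntegrableOn (w j) (uIoc a b)) (hB : ∀ j, ∫ x in uIoc a b, w j x ≤ B)
    (hg : Tendsto (fun j => ∫ x, g j x) atTop (𝓝 0)) (h : ∀ j x, n j x ^ 2 ≤ g j x * w j x) :
    Tendsto (fun j => ∫ x in a..b, n j x) atTop (𝓝 0) := by
  rw [Metric.tendsto_nhds]
  intro ε hε
  have hB0 : 0 ≤ B := (integral_nonneg (hw0 0)).trans (hB 0)
  set η : ℝ := ε / (2 * (B + 1)) with hη
  have hη0 : 0 < η := by positivity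
  have hηB : η * B < ε / 2 := by
    rw [hη, div_mul_eq_mul_div, div_lt_div_iff₀ (by positivity) (by positivity)]
    nlinarith
  filter_upwards [hg.eventually (gt_mem_nhds (show 0 < η * (ε / 2) by positivity))] with j hj
  rw [dist_zero_right]
  have hpt : ∀ x, ‖n j x‖ ≤ η * w j x + η⁻¹ * g j x := fun x => by
    rw [Real.norm_of_nonneg (hn j x)]
    have h1 := mul_nonneg hη0.le (hw0 j x)
    have h2 := mul_nonneg (inv_nonneg.2 hη0.le) (hg0 j x)
    refine (pow_le_pow_iff_left₀ (hn j x) (by linarith) two_ne_zero).1 ((h j x).trans ?_)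
    have h3 : η * w j x * (η⁻¹ * g j x) = g j x * w j x := by field_simp
    nlinarith [mul_nonneg (hg0 j x) (hw0 j x), sq_nonneg (η * w j x), sq_nonneg (η⁻¹ * g j x)]
  calc ‖∫ x in a..b, n j x‖ ≤ ∫ x in uIoc a b, ‖n j x‖ :=
        intervalIntegral.norm_integral_le_integral_norm_uIoc
    _ ≤ ∫ x in uIoc a b, (η * w j x + η⁻¹ * g j x) :=
        integral_mono_of_nonneg (ae_of_all _ fun x => norm_nonneg _)
          (((hwi j).const_mul η).add ((hgi j).integrableOn.const_mul _)) (ae_of_all _ hpt)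
    _ = η * (∫ x in uIoc a b, w j x) + η⁻¹ * ∫ x in uIoc a b, g j x := by
        rw [integral_add ((hwi j).const_mul η) ((hgi j).integrableOn.const_mul _),
          integral_const_mul, integral_const_mul]
    _ ≤ η * B + η⁻¹ * ∫ x, g j x :=
        add_le_add (mul_le_mul_of_nonneg_left (hB j) hη0.le) (mul_le_mul_of_nonneg_left
          (setIntegral_le_integral (hgi j) (ae_of_all _ (hg0 j))) (inv_nonneg.2 hη0.le))
    _ < ε := by
        have : η⁻¹ * ∫ x, g j x < ε / 2 := by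
          rw [inv_mul_lt_iff₀ hη0]; exact hj
        linarith

lemma fro2_mpow {n : ℕ} {A : Mat n n} (hA : A.PosSemidef) {t : ℝ} (ht : 0 ≤ t) :
    fro2 (mpow A t) = rtr (mpow A (t + t)) := by
  rw [fro2, (mpow_herm A t).eq, mpow_add hA ht ht]

lemma norm_sq_le_fro2 {m n : ℕ} (A : Mat m n) : ‖A‖ ^ 2 ≤ fro2 A := by
  rw [← fro_sq]; exact pow_le_pow_left₀ (norm_nonneg _) (norm_le_fro A) 2

lemma tendsto_norm_of_fro2 {m n : ℕ → ℕ} {A : ∀ j, Mat (m j) (n j)}
    (h : Tendsto (fun j => fro2 (A j)) atTop (𝓝 0)) : Tendsto (fun j => ‖A j‖) atTop (𝓝 0) := by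
  refine squeeze_zero (fun j => norm_nonneg _) (fun j => norm_le_fro (A j)) ?_
  simpa [fro] using h.sqrt

lemma Data.d1_ge {s : ℝ} (hs : 0 < s) (hs1 : s < 1) {m : ℕ} (D : Data s m) {W : ℝ → Mat m m}
    (hWp : ∀ x, (W x).PosSemidef) (x : ℝ) :
    s / (s + 1) * fro2 (mpow (W x) ((s + 1) / 2) - mpow (D.ρ x) ((s + 1) / (2 * s))) ≤
      D.d1 W x := by
  have h := young_stab hs hs1.le (hWp x) (D.psdρ x)
  rwa [← D.rtr_M_pow hs] at h

lemma Data.rtr_M_pow_le {s : ℝ} (hs : 0 < s) (hs1 : s < 1) {m : ℕ} (D : Data s m)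
    {W : ℝ → Mat m m} (hWp : ∀ x, (W x).PosSemidef) (x : ℝ) :
    rtr (mpow (D.M x) (s + 1)) ≤ 2 * rtr (mpow (W x) (s + 1)) + 2 * (s + 1) / s * D.d1 W x := by
  have h1 := D.d1_ge hs hs1 hWp x
  have h2 := fro2_add_le (mpow (W x) ((s + 1) / 2))
    (-(mpow (W x) ((s + 1) / 2) - mpow (D.ρ x) ((s + 1) / (2 * s))))
  rw [fro2_neg, neg_sub, add_sub_cancel, fro2_mpow (hWp x) (by positivity),
    fro2_mpow (D.psdρ x) (by positivity), add_halves,
    show (s + 1) / (2 * s) + (s + 1) / (2 * s) = (s + 1) / s by field_simp; ring,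
    ← D.rtr_M_pow hs] at h2
  have h3 := mul_le_mul_of_nonneg_left h1 (show 0 ≤ 2 * (s + 1) / s by positivity)
  rw [← mul_assoc, show 2 * (s + 1) / s * (s / (s + 1)) = 2 by field_simp] at h3
  linarith

lemma Data.rtr_M {s : ℝ} (hs : 0 < s) {m : ℕ} (D : Data s m) (x : ℝ) :
    rtr (D.M x) = rtr (mpow (D.ρ x) s⁻¹) :=
  (rtr_cfc_swap (D.Φ x) (fun t => t ^ s⁻¹) (Real.zero_rpow (inv_ne_zero hs.ne'))).symm

lemma Data.rtr_M_le {s : ℝ} (hs : 0 < s) {m : ℕ} (D : Data s m) (x : ℝ) :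
    rtr (D.M x) ≤ m + rtr (mpow (D.M x) (s + 1)) := by
  rw [D.rtr_M hs, D.rtr_M_pow hs, mpow, mpow, rtr_cfc (D.psdρ x).1, rtr_cfc (D.psdρ x).1]
  have : (m : ℝ) = ∑ _i : Fin m, (1 : ℝ) := by simp
  rw [this, ← Finset.sum_add_distrib]
  refine Finset.sum_le_sum fun i _ => ?_
  have h0 := (D.psdρ x).eigenvalues_nonneg i
  rw [show (s + 1) / s = s⁻¹ * (s + 1) by field_simp, Real.rpow_mul h0]
  have h1 := Real.rpow_nonneg h0 s⁻¹
  generalize (D.psdρ x).1.eigenvalues i ^ s⁻¹ = y at h1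
  rcases le_total y 1 with hy | hy
  · linarith [Real.rpow_nonneg h1 (s + 1)]
  · linarith [Real.self_le_rpow_of_one_le hy (show 1 ≤ s + 1 by linarith)]

lemma tendsto_rho {s : ℝ} (hs : 0 < s) (hs1 : s < 1) {m : ℕ} {W : ℝ → Mat m m}
    (hWp : ∀ x, (W x).PosSemidef) (D : ℕ → Data s m) (x : ℝ)
    (h : Tendsto (fun j => (D j).d1 W x) atTop (𝓝 0)) :
    Tendsto (fun j => (D j).ρ x) atTop (𝓝 (mpow (W x) s)) := by
  have h1 : Tendsto (fun j => fro2 (mpow (W x) ((s + 1) / 2) -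
      mpow ((D j).ρ x) ((s + 1) / (2 * s)))) atTop (𝓝 0) := by
    refine squeeze_zero (fun j => fro2_nonneg _) (g := fun j => (s / (s + 1))⁻¹ * (D j).d1 W x)
      (fun j => ?_) (by simpa using h.const_mul _)
    rw [le_inv_mul_iff₀ (by positivity)]
    exact (D j).d1_ge hs hs1 hWp x
  have h2 : Tendsto (fun j => mpow ((D j).ρ x) ((s + 1) / (2 * s))) atTop
      (𝓝 (mpow (W x) ((s + 1) / 2))) := by
    rw [tendsto_iff_norm_sub_tendsto_zero]
    simpa only [norm_sub_rev] using tendsto_norm_of_fro2 (m := fun _ => m) (n := fun _ => m) h1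
  have h3 := tendsto_cfc_of h2 (Eventually.of_forall fun j => mpow_herm _ _) (mpow_herm _ _)
    (Real.continuous_rpow_const (show 0 ≤ 2 * s / (s + 1) by positivity))
  change Tendsto (fun j => mpow (mpow ((D j).ρ x) ((s + 1) / (2 * s))) (2 * s / (s + 1))) atTop
    (𝓝 (mpow (mpow (W x) ((s + 1) / 2)) (2 * s / (s + 1)))) at h3
  rw [mpow_mpow (hWp x), show (s + 1) / 2 * (2 * s / (s + 1)) = s by field_simp] at h3
  refine h3.congr fun j => ?_
  rw [mpow_mpow ((D j).psdρ x), show (s + 1) / (2 * s) * (2 * s / (s + 1)) = 1 by field_simp,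
    mpow_one ((D j).psdρ x).1]

theorem rigid {s : ℝ} (hs : 0 < s) (hs1 : s < 1) {m : ℕ} (W : ℝ → Mat m m)
    (hWp : ∀ x, (W x).PosSemidef) (hWi : Integrable fun x => rtr (mpow (W x) (s + 1)))
    (D : ℕ → Data s m) (δ : ℕ → ℝ) (hδ : Summable δ) (hi : ∀ j, Integrable ((D j).d1 W))
    (h1 : ∀ j, ∫ x, (D j).d1 W x ≤ δ j) (h2 : ∀ j, ∫ x, (D j).d2 x ≤ δ j)
    (h3 : ∀ j, (D j).D3 ≤ δ j) :
    ∃ (U : Matrix.unitaryGroup (Fin m) ℂ) (a c : Fin m → ℝ), (∀ i, 0 ≤ a i) ∧
      ∀ᵐ x : ℝ, W x = (U : Mat m m) *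
        Matrix.diagonal (fun i => ((soliton s⁻¹ (a i) (c i) x : ℝ) : ℂ)) * star (U : Mat m m) := by
  have hδ0 := hδ.tendsto_atTop_zero
  obtain ⟨Δ, hΔ⟩ : ∃ Δ, ∀ j, δ j ≤ Δ := by
    obtain ⟨Δ, hΔ⟩ := hδ0.bddAbove_range
    exact ⟨Δ, fun j => hΔ ⟨j, rfl⟩⟩
  -- (a) uniform bound for `∫ tr M^p`
  set C₀ : ℝ := 2 * (∫ x, rtr (mpow (W x) (s + 1))) + 2 * (s + 1) / s * Δ with hC₀
  have hMi := fun j => ((D j).d2_integral hs).2.1
  have hd2i := fun j => ((D j).d2_integral hs).1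
  have hM : ∀ j, ∫ x, rtr (mpow ((D j).M x) (s + 1)) ≤ C₀ := fun j => by
    refine (integral_mono (hMi j) ((hWi.const_mul 2).add ((hi j).const_mul _))
      ((D j).rtr_M_pow_le hs hs1 hWp)).trans ?_
    simp only [Pi.add_apply]
    rw [integral_add (hWi.const_mul 2) ((hi j).const_mul _), integral_const_mul,
      integral_const_mul, hC₀]
    have := mul_le_mul_of_nonneg_left ((h1 j).trans (hΔ j))
      (show 0 ≤ 2 * (s + 1) / s by positivity)
    linarith
  -- (b) uniform bound for `K`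
  have hk := kS_pos hs
  have hκ : ∀ j, ‖(D j).K‖ ≤ max 1 (C₀ / kS s) := fun j => by
    rcases le_total ‖(D j).K‖ 1 with h | h
    · exact h.trans (le_max_left _ _)
    · refine le_trans ?_ (le_max_right _ _)
      have a1 := Real.self_le_rpow_of_one_le h (show 1 ≤ 2 * s + 1 by linarith)
      have a2 := norm_rpow_le_rtr_mpow (D j).psdK (show 0 < 2 * s + 1 by linarith)
      have a3 := (D j).D3_nonneg hs hs1
      rw [Data.D3] at a3
      rw [le_div_iff₀ hk]
      nlinarith [hM j]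
  obtain ⟨c, hc, hP⟩ := pathIneq hs hs1 (max 1 (C₀ / kS s))
  have hGi := fun j => (hP m (D j) (hκ j)).1
  have hG : ∀ j, ∫ x, (D j).G x ≤ c⁻¹ * δ j := fun j => by
    rw [le_inv_mul_iff₀ hc]; exact (hP m (D j) (hκ j)).2.trans (h3 j)
  have hM0 : ∀ j x, 0 ≤ rtr ((D j).M x) := fun j x => rtr_nonneg ((D j).psdM x)
  have hGa : ∀ j x, 0 ≤ fro2 ((s / (s + 1)) • (D j).M x - UU (D j).K ((D j).F x)) /
      (1 + rtr ((D j).M x)) := fun j x => div_nonneg (fro2_nonneg _) (by linarith [hM0 j x])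
  have hG0 : ∀ j x, 0 ≤ (D j).G x := fun j x => add_nonneg (hGa j x) (fro2_nonneg _)
  have hG1 : ∀ j x, fro2 ((s / (s + 1)) • (D j).M x - UU (D j).K ((D j).F x)) ≤
      (D j).G x * (1 + rtr ((D j).M x)) := fun j x => by
    rw [← div_le_iff₀ (by linarith [hM0 j x])]
    exact le_add_of_nonneg_right (fro2_nonneg _)
  -- (c) almost everywhere convergence
  have hd10 := fun j => (D j).d1_nonneg hs hs1 hWp
  have ae1 := ae_tendsto_zero_of_summable hi hd10
    (Summable.of_nonneg_of_le (fun j => integral_nonneg (hd10 j)) h1 hδ)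
  have aeG := ae_tendsto_zero_of_summable hGi hG0
    (Summable.of_nonneg_of_le (fun j => integral_nonneg (hG0 j)) hG (hδ.mul_left _))
  obtain ⟨x₀, hx1, hxG⟩ := (ae1.and aeG).exists
  have hρ := tendsto_rho hs hs1 hWp D x₀ hx1
  have hMx : Tendsto (fun j => rtr ((D j).M x₀)) atTop (𝓝 (rtr (mpow (mpow (W x₀) s) s⁻¹))) := by
    simp only [Data.rtr_M hs]
    exact (continuous_rtr.tendsto _).comp (tendsto_cfc_of hρ
      (Eventually.of_forall fun j => ((D j).psdρ x₀).1) (mpow_herm _ _)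
      (Real.continuous_rpow_const (inv_nonneg.2 hs.le)))
  obtain ⟨U, a, c', ha, hU⟩ := rigid_core hs hs1 D _ hκ x₀ _ hρ
    (tendsto_norm_of_fro2 (squeeze_zero (fun j => fro2_nonneg _) (fun j => hG1 j x₀)
      (by simpa using hxG.mul (hMx.const_add 1))))
    (tendsto_norm_of_fro2 (squeeze_zero (fun j => fro2_nonneg _)
      (fun j => le_add_of_nonneg_left (hGa j x₀)) hxG))
    (fun a b => tendsto_intervalIntegral_of_sq (g := fun j => (D j).d2) (w := fun _ _ => 1)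
      (fun j x => norm_nonneg _) (fun j x => fro2_nonneg _) (fun _ _ => zero_le_one) hd2i
      (fun _ => intervalIntegrable_const.def') (fun _ => le_rfl)
      (squeeze_zero (fun j => integral_nonneg fun x => fro2_nonneg _) h2 hδ0)
      (fun j x => by rw [mul_one]; exact norm_sq_le_fro2 _))
    (fun a b => tendsto_intervalIntegral_of_sq (g := fun j => (D j).G)
      (w := fun j x => (1 + m) + rtr (mpow ((D j).M x) (s + 1)))
      (B := (∫ _ in uIoc a b, (1 + m : ℝ)) + C₀)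
      (fun j x => norm_nonneg _) hG0
      (fun j x => add_nonneg (by positivity) (rtr_nonneg (mpow_psd ((D j).psdM x) _))) hGi
      (fun j => intervalIntegrable_const.def'.add (hMi j).integrableOn)
      (fun j => by
        rw [integral_add intervalIntegrable_const.def' (hMi j).integrableOn]
        have := (setIntegral_le_integral (s := uIoc a b) (hMi j) (ae_of_all _ fun x =>
          rtr_nonneg (mpow_psd ((D j).psdM x) _))).trans (hM j)
        linarith)
      (squeeze_zero (fun j => integral_nonneg (hG0 j)) hG (by simpa using hδ0.const_mul c⁻¹))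
      (fun j x => (norm_sq_le_fro2 _).trans ((hG1 j x).trans
        (mul_le_mul_of_nonneg_left (by linarith [(D j).rtr_M_le hs x]) (hG0 j x)))))
  refine ⟨U, a, c', ha, ?_⟩
  filter_upwards [ae1] with x hx
  rw [← hU x _ (tendsto_rho hs hs1 hWp D x hx), mpow_mpow (hWp x), mul_inv_cancel₀ hs.ne',
    mpow_one (hWp x).1]

end Crest.Agent.R332
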