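import Crest.Agent.R332.RigidPoint

/-! Rigidity: propagation from one point by Gronwall. -/

set_option autoImplicit false
open scoped Matrix.Norms.L2Operator ComplexOrder MatrixOrder Topology
open Matrix MeasureTheory Filter Set
open Crest.MathPhysics.LiebThirring

namespace Crest.Agent.R332

/-- One-sided Gronwall inequality with an `L¹` error. -/
theorem gronwall_L1_right {E : Type*} [NormedAddCommGroup E] [NormedSpace ℝ E] {y y' : ℝ → E}
    {e : ℝ → ℝ} {C : ℝ} (hC : 0 ≤ C) (hy : ∀ x, HasDerivAt y (y' x) x) (he : Continuous e)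
    (he0 : ∀ x, 0 ≤ e x) (h : ∀ x, ‖y' x‖ ≤ C * ‖y x‖ + e x) {x₀ x : ℝ} (hx : x₀ ≤ x) :
    ‖y x‖ ≤ Real.exp (C * (x - x₀)) * (‖y x₀‖ + ∫ t in x₀..x, e t) := by
  have key : ∀ η : ℝ, 0 < η → ‖y x‖ ≤
      Real.exp (C * (x - x₀)) * (‖y x₀‖ + (∫ t in x₀..x, e t) + η * (x - x₀)) := by
    intro η hη
    have hB : ∀ z, HasDerivAt
        (fun z => Real.exp (C * (z - x₀)) * (‖y x₀‖ + (∫ t in x₀..z, e t) + η * (z - x₀)))
        (C * (Real.exp (C * (z - x₀)) * (‖y x₀‖ + (∫ t in x₀..z, e t) + η * (z - x₀))) +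
          Real.exp (C * (z - x₀)) * (e z + η)) z := by
      intro z
      have h1 : HasDerivAt (fun z => Real.exp (C * (z - x₀))) (Real.exp (C * (z - x₀)) * C) z := by
        have := (((hasDerivAt_id z).sub_const x₀).const_mul C).exp
        simpa using this
      have h2 : HasDerivAt (fun z => ∫ t in x₀..z, e t) (e z) z :=
        (he.integral_hasStrictDerivAt x₀ z).hasDerivAt
      have h3 : HasDerivAt (fun z => η * (z - x₀)) η z := by
        simpa using ((hasDerivAt_id z).sub_const x₀).const_mul η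
      exact (h1.mul ((h2.const_add ‖y x₀‖).add h3)).congr_deriv (by simp only [Pi.add_apply]; ring)
    refine image_norm_le_of_norm_deriv_right_lt_deriv_boundary (f := y) (f' := y') (a := x₀)
      (b := x) (fun z _ => (hy z).continuousAt.continuousWithinAt)
      (fun z _ => (hy z).hasDerivWithinAt) (by simp) hB ?_ ⟨hx, le_rfl⟩
    intro z hz hzB
    rw [← hzB]
    have h1 : 1 ≤ Real.exp (C * (z - x₀)) := Real.one_le_exp (mul_nonneg hC (sub_nonneg.2 hz.1))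
    have h2 : e z + η ≤ Real.exp (C * (z - x₀)) * (e z + η) :=
      le_mul_of_one_le_left (by linarith [he0 z]) h1
    linarith [h z]
  have hlim : Tendsto (fun η : ℝ =>
      Real.exp (C * (x - x₀)) * (‖y x₀‖ + (∫ t in x₀..x, e t) + η * (x - x₀))) (𝓝[>] 0)
      (𝓝 (Real.exp (C * (x - x₀)) * (‖y x₀‖ + (∫ t in x₀..x, e t) + 0 * (x - x₀)))) := by
    refine tendsto_nhdsWithin_of_tendsto_nhds (Continuous.tendsto ?_ 0)
    fun_prop
  have := ge_of_tendsto hlim (eventually_nhdsWithin_of_forall key)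
  simpa using this

/-- Two-sided Gronwall inequality with an `L¹` error. -/
theorem gronwall_L1 {E : Type*} [NormedAddCommGroup E] [NormedSpace ℝ E] {y y' : ℝ → E}
    {e : ℝ → ℝ} {C : ℝ} (hC : 0 ≤ C) (hy : ∀ x, HasDerivAt y (y' x) x) (he : Continuous e)
    (he0 : ∀ x, 0 ≤ e x) (h : ∀ x, ‖y' x‖ ≤ C * ‖y x‖ + e x) (x₀ x : ℝ) :
    ‖y x‖ ≤ Real.exp (C * |x - x₀|) * (‖y x₀‖ + |∫ t in x₀..x, e t|) := by
  rcases le_total x₀ x with hx | hx
  · have := gronwall_L1_right hC hy he he0 h hx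
    rwa [abs_of_nonneg (sub_nonneg.2 hx),
      abs_of_nonneg (intervalIntegral.integral_nonneg hx fun t _ => he0 t)]
  · have hy2 : ∀ t, HasDerivAt (fun t => y (-t)) (-y' (-t)) t := by
      intro t
      have := (hy (-t)).scomp t (hasDerivAt_neg t)
      simpa [Function.comp_def] using this
    have := gronwall_L1_right (y := fun t => y (-t)) (y' := fun t => -y' (-t))
      (e := fun t => e (-t)) hC hy2 (he.comp continuous_neg) (fun t => he0 _)
      (fun t => by simpa using h (-t)) (neg_le_neg hx)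
    rw [intervalIntegral.integral_comp_neg] at this
    simp only [neg_neg] at this
    rw [abs_of_nonpos (sub_nonpos.2 hx), intervalIntegral.integral_symm, abs_neg,
      abs_of_nonneg (intervalIntegral.integral_nonneg hx fun t _ => he0 t)]
    convert this using 3
    ring

lemma exists_tanh_eq {t : ℝ} (ht : |t| < 1) : ∃ u, Real.tanh u = t :=
  ⟨Real.artanh t, Real.tanh_artanh (abs_lt.1 ht)⟩

lemma hasDerivAt_tanh' (x : ℝ) : HasDerivAt Real.tanh (1 - Real.tanh x ^ 2) x := by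
  have hc := (Real.cosh_pos x).ne'
  have h := (Real.hasDerivAt_sinh x).div (Real.hasDerivAt_cosh x) hc
  have e : (Real.sinh / Real.cosh) = Real.tanh := by
    funext y; simp [Real.tanh_eq_sinh_div_cosh]
  rw [e] at h
  refine h.congr_deriv ?_
  rw [Real.tanh_eq_sinh_div_cosh]
  field_simp

lemma one_sub_tanh_sq (x : ℝ) : 1 - Real.tanh x ^ 2 = 1 / Real.cosh x ^ 2 := by
  have hc := (Real.cosh_pos x).ne'
  rw [Real.tanh_eq_sinh_div_cosh]
  field_simp
  rw [Real.cosh_sq]; ring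

/-- The scalar channel through prescribed data at `x₀`. -/
theorem scalar_channel {s : ℝ} (hs : 0 < s) (x₀ f₀ w : ℝ) (hw : 0 ≤ w) :
    ∃ (a c : ℝ) (f ψ : ℝ → ℝ), 0 ≤ a ∧ f x₀ = f₀ ∧ ψ x₀ = 1 ∧
      (∀ x, HasDerivAt f (-s⁻¹ * (f₀ ^ 2 + s / (s + 1) * w ^ s⁻¹ - f x ^ 2)) x) ∧
      (∀ x, HasDerivAt ψ (f x * ψ x) x) ∧
      (∀ x, |f x| ≤ √(f₀ ^ 2 + s / (s + 1) * w ^ s⁻¹)) ∧
      ∀ x, (ψ x ^ 2 * w) ^ s⁻¹ = soliton s⁻¹ a c x := by
  have hr : 0 < s⁻¹ := inv_pos.2 hs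
  rcases hw.eq_or_lt with rfl | hw
  · have hz : (0 : ℝ) ^ s⁻¹ = 0 := Real.zero_rpow hr.ne'
    refine ⟨0, 0, fun _ => f₀, fun x => Real.exp (f₀ * (x - x₀)), le_rfl, rfl, by simp, ?_, ?_,
      ?_, ?_⟩
    · intro x
      simpa [hz] using hasDerivAt_const x f₀
    · intro x
      have := (((hasDerivAt_id x).sub_const x₀).const_mul f₀).exp
      simpa [mul_comm] using this
    · intro x
      simp [hz, Real.sqrt_sq_eq_abs]
    · intro x
      simp [hz, soliton]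
  · set q : ℝ := s / (s + 1) * w ^ s⁻¹ with hq
    have hq0 : 0 < q := by positivity
    set a : ℝ := √(f₀ ^ 2 + q) with ha
    have ha2 : a ^ 2 = f₀ ^ 2 + q := Real.sq_sqrt (by positivity)
    have ha0 : 0 < a := Real.sqrt_pos.2 (by positivity)
    have hfa : |-f₀ / a| < 1 := by
      rw [abs_div, abs_neg, abs_of_pos ha0, div_lt_one ha0]
      exact abs_lt_of_sq_lt_sq (by linarith) ha0.le
    obtain ⟨u, hu⟩ := exists_tanh_eq hfa
    set c : ℝ := x₀ - u / (s⁻¹ * a) with hc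
    have hcu : s⁻¹ * a * (x₀ - c) = u := by rw [hc]; field_simp; ring
    have hlin : ∀ x, HasDerivAt (fun x => s⁻¹ * a * (x - c)) (s⁻¹ * a) x := fun x => by
      simpa using ((hasDerivAt_id x).sub_const c).const_mul (s⁻¹ * a)
    refine ⟨a, c, fun x => -a * Real.tanh (s⁻¹ * a * (x - c)),
      fun x => (Real.cosh (s⁻¹ * a * (x - c)) / Real.cosh u) ^ (-s), ha0.le, ?_, ?_, ?_, ?_, ?_, ?_⟩
    · simp only [hcu, hu]; field_simp
    · simp only [hcu]; rw [div_self (Real.cosh_pos u).ne', Real.one_rpow]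
    · intro x
      have := ((hasDerivAt_tanh' _).comp x (hlin x)).const_mul (-a)
      refine this.congr_deriv ?_
      rw [← ha2]; ring
    · intro x
      have h1 := ((Real.hasDerivAt_cosh _).comp x (hlin x)).div_const (Real.cosh u)
      have hpos : 0 < Real.cosh (s⁻¹ * a * (x - c)) / Real.cosh u :=
        div_pos (Real.cosh_pos _) (Real.cosh_pos _)
      have h2 := h1.rpow_const (p := -s) (Or.inl hpos.ne')
      refine h2.congr_deriv ?_
      simp only [Function.comp]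
      rw [Real.rpow_sub_one hpos.ne', Real.tanh_eq_sinh_div_cosh]
      have := (Real.cosh_pos (s⁻¹ * a * (x - c))).ne'
      have := (Real.cosh_pos u).ne'
      field_simp
    · intro x
      rw [abs_mul, abs_neg, abs_of_pos ha0]
      exact mul_le_of_le_one_right ha0.le (Real.abs_tanh_lt_one _).le
    · intro x
      have hpos : 0 < Real.cosh (s⁻¹ * a * (x - c)) / Real.cosh u :=
        div_pos (Real.cosh_pos _) (Real.cosh_pos _)
      have hwr : w ^ s⁻¹ = (s⁻¹ + 1) * a ^ 2 / Real.cosh u ^ 2 := by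
        have h1 := one_sub_tanh_sq u
        rw [hu] at h1
        have h2 : q = a ^ 2 / Real.cosh u ^ 2 := by
          have : a ^ 2 / Real.cosh u ^ 2 = a ^ 2 * (1 / Real.cosh u ^ 2) := by ring
          rw [this, ← h1]; field_simp; linarith
        rw [mul_div_assoc, ← h2, hq]; field_simp; ring
      rw [Real.mul_rpow (by positivity) hw.le, hwr, ← Real.rpow_natCast, ← Real.rpow_mul hpos.le,
        ← Real.rpow_mul hpos.le]
      have e : -s * ((2 : ℕ) : ℝ) * s⁻¹ = -((2 : ℕ) : ℝ) := by field_simp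
      rw [e, Real.rpow_neg hpos.le, Real.rpow_natCast, soliton]
      have := (Real.cosh_pos (s⁻¹ * a * (x - c))).ne'
      have := (Real.cosh_pos u).ne'
      field_simp

/-- Gronwall bound, uniformly on the interval between `x₀` and `x`. -/
lemma gronwall_L1_unif {E : Type*} [NormedAddCommGroup E] [NormedSpace ℝ E] {y y' : ℝ → E}
    {e : ℝ → ℝ} {C : ℝ} (hC : 0 ≤ C) (hy : ∀ x, HasDerivAt y (y' x) x) (he : Continuous e)
    (he0 : ∀ x, 0 ≤ e x) (h : ∀ x, ‖y' x‖ ≤ C * ‖y x‖ + e x) (x₀ x : ℝ) {t : ℝ}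
    (ht : t ∈ uIcc x₀ x) :
    ‖y t‖ ≤ Real.exp (C * |x - x₀|) * (‖y x₀‖ + |∫ t in x₀..x, e t|) := by
  refine (gronwall_L1 hC hy he he0 h x₀ t).trans ?_
  have h1 : |t - x₀| ≤ |x - x₀| := abs_sub_left_of_mem_uIcc ht
  have h2 : |∫ t in x₀..t, e t| ≤ |∫ t in x₀..x, e t| :=
    intervalIntegral.abs_integral_mono_interval
      (uIoc_subset_uIoc_of_uIcc_subset_uIcc (uIcc_subset_uIcc_left ht))
      (Eventually.of_forall he0) (he.intervalIntegrable _ _)
  gcongr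

/-- real diagonal matrices, as a continuous linear map -/
noncomputable def diagL (m : ℕ) : (Fin m → ℝ) →L[ℝ] Mat m m :=
  LinearMap.toContinuousLinearMap
    { toFun := fun d => diagonal fun i => (d i : ℂ)
      map_add' := fun d d' => by simp [diagonal_add]
      map_smul' := fun c d => by
        ext i j
        by_cases h : i = j
        · subst h; simp
        · simp [h] }

lemma diagL_apply {m : ℕ} (d : Fin m → ℝ) : diagL m d = diagonal fun i => (d i : ℂ) := rfl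

lemma diagL_mul {m : ℕ} (d d' : Fin m → ℝ) : diagL m d * diagL m d' = diagL m (d * d') := by
  simp [diagL_apply, diagonal_mul_diagonal]

lemma diagL_conjT {m : ℕ} (d : Fin m → ℝ) : (diagL m d)ᴴ = diagL m d := by
  simp only [diagL_apply, diagonal_conjTranspose]
  congr 1
  funext i
  simp

lemma diagL_one {m : ℕ} : diagL m 1 = 1 := by simp [diagL_apply]

lemma norm_le_one_of_unitary {m : ℕ} {U : Mat m m} (hU : Uᴴ * U = 1) : ‖U‖ ≤ 1 := by
  have h := Matrix.l2_opNorm_conjTranspose_mul_self U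
  rw [hU] at h
  have h1 : ‖(1 : Mat m m)‖ ≤ 1 := norm_one_le
  nlinarith [norm_nonneg U]

lemma Y_bound {s : ℝ} (hs : 0 < s) {m : ℕ} (D : Data s m) {κ A : ℝ} (hκ : ‖D.K‖ ≤ κ)
    (E : Mat D.N m) (ff : ℝ → Mat m m) (qq : Mat m m)
    (hff : ∀ x, HasDerivAt ff (-s⁻¹ • (qq - ff x * ff x)) x) (hA : ∀ x, ‖ff x‖ ≤ A)
    (x₀ x : ℝ) {t : ℝ} (ht : t ∈ uIcc x₀ x) :
    ‖D.F t * E - E * ff t‖ ≤ Real.exp (s⁻¹ * (κ + A) * |x - x₀|) *
      (‖D.F x₀ * E - E * ff x₀‖ + (s⁻¹ * ‖D.K * D.K * E - E * qq‖ * |x - x₀| +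
        (1 + s⁻¹) * ‖E‖ * |∫ t in x₀..x, ‖(s / (s + 1)) • D.M t - UU D.K (D.F t)‖|)) := by
  have hr : 0 < s⁻¹ := inv_pos.2 hs
  have hκ0 : 0 ≤ κ := (norm_nonneg _).trans hκ
  have hA0 : 0 ≤ A := (norm_nonneg _).trans (hA 0)
  set err : ℝ → Mat D.N D.N := fun t => (s / (s + 1)) • D.M t - UU D.K (D.F t) with herr
  have cerr : Continuous err := by
    have h1 := D.cM hs
    have h2 := D.cF
    exact (h1.const_smul (s / (s + 1))).sub (continuous_const.sub (h2.matrix_mul h2))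
  have hM : ∀ t, D.M t = (1 + s⁻¹) • (err t + UU D.K (D.F t)) := by
    intro t
    have : (1 + s⁻¹) * (s / (s + 1)) = 1 := by field_simp
    simp only [herr, sub_add_cancel, smul_smul, this, one_smul]
  set Y : ℝ → Mat D.N m := fun t => D.F t * E - E * ff t with hY
  have hder : ∀ t, HasDerivAt Y (-s⁻¹ • (D.K * D.K * E - E * qq) +
      s⁻¹ • (D.F t * Y t + Y t * ff t) - (1 + s⁻¹) • (err t * E)) t := by
    intro t
    have h1 := (hd_mul (D.hF t) (hasDerivAt_const t E)).sub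
      (hd_mul (hasDerivAt_const t E) (hff t))
    refine h1.congr_deriv ?_
    change (UU D.K (D.F t) - D.M t) * E + _ - _ = _
    rw [hM t]
    generalize err t = e
    simp only [hY, UU, Matrix.mul_zero, Matrix.zero_mul, Matrix.sub_mul, Matrix.mul_sub,
      Matrix.add_mul, Matrix.smul_mul, Matrix.mul_smul, Matrix.mul_assoc]
    module
  have hb := gronwall_L1_unif (C := s⁻¹ * (κ + A)) (y := Y)
    (e := fun t => s⁻¹ * ‖D.K * D.K * E - E * qq‖ + (1 + s⁻¹) * ‖E‖ * ‖err t‖) (by positivity) hder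
    (by fun_prop) (fun t => by positivity) (fun t => by
      have hF : ‖D.F t‖ ≤ κ := (D.band t).norm_le.trans hκ
      have a1 : ‖D.F t * Y t‖ ≤ κ * ‖Y t‖ :=
        (norm_mul_le' _ _).trans (mul_le_mul_of_nonneg_right hF (norm_nonneg _))
      have a2 : ‖Y t * ff t‖ ≤ ‖Y t‖ * A :=
        (norm_mul_le' _ _).trans (mul_le_mul_of_nonneg_left (hA t) (norm_nonneg _))
      have a3 : ‖err t * E‖ ≤ ‖err t‖ * ‖E‖ := norm_mul_le' _ _
      have a4 := norm_add_le (D.F t * Y t) (Y t * ff t)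
      refine (norm_sub_le _ _).trans ((add_le_add_left (norm_add_le _ _) _).trans ?_)
      rw [norm_smul, norm_smul, norm_smul, Real.norm_eq_abs, Real.norm_eq_abs, Real.norm_eq_abs,
        abs_neg, abs_of_pos hr, abs_of_pos (by positivity : 0 < 1 + s⁻¹)]
      have a5 : s⁻¹ * ‖D.F t * Y t + Y t * ff t‖ ≤ s⁻¹ * ((κ + A) * ‖Y t‖) :=
        mul_le_mul_of_nonneg_left (by linarith) hr.le
      have a6 : (1 + s⁻¹) * ‖err t * E‖ ≤ (1 + s⁻¹) * (‖err t‖ * ‖E‖) :=
        mul_le_mul_of_nonneg_left a3 (by positivity)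
      linarith) x₀ x ht
  refine hb.trans ?_
  gcongr
  have c2 : Continuous fun t => (1 + s⁻¹) * ‖E‖ * ‖err t‖ := continuous_const.mul cerr.norm
  rw [intervalIntegral.integral_add (continuous_const.intervalIntegrable _ _)
    (c2.intervalIntegrable _ _), intervalIntegral.integral_const,
    intervalIntegral.integral_const_mul]
  refine (abs_add_le _ _).trans (le_of_eq ?_)
  rw [smul_eq_mul, abs_mul, abs_mul ((1 + s⁻¹) * ‖E‖), abs_of_nonneg (by positivity : 0 ≤ s⁻¹ * _),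
    abs_of_nonneg (by positivity : 0 ≤ (1 + s⁻¹) * ‖E‖)]
  ring

lemma Z_bound {s : ℝ} {m : ℕ} (D : Data s m) {κ B η : ℝ} (hκ : ‖D.K‖ ≤ κ)
    (U : Mat m m) (hU : ‖U‖ ≤ 1) (ff Ψ : ℝ → Mat m m) (cff : Continuous ff)
    (hffH : ∀ x, (ff x)ᴴ = ff x) (hΨ : ∀ x, HasDerivAt Ψ (Ψ x * ff x) x) (x₀ x : ℝ)
    (hΨ0 : Ψ x₀ = 1) (hB : ∀ t ∈ uIcc x₀ x, ‖Ψ t‖ ≤ B)
    (hη : ∀ t ∈ uIcc x₀ x, ‖D.F t * ((D.Φ x₀)ᴴ * U) - (D.Φ x₀)ᴴ * U * ff t‖ ≤ η) :
    ‖Uᴴ * D.Φ x - Ψ x * ((D.Φ x₀)ᴴ * U)ᴴ‖ ≤ Real.exp (κ * |x - x₀|) *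
      (|∫ t in x₀..x, ‖D.Φ' t - D.Φ t * D.F t‖| + B * η * |x - x₀|) := by
  have hκ0 : 0 ≤ κ := (norm_nonneg _).trans hκ
  set E : Mat D.N m := (D.Φ x₀)ᴴ * U with hE
  set Y : ℝ → Mat D.N m := fun t => D.F t * E - E * ff t with hY
  set Z : ℝ → Mat m D.N := fun t => Uᴴ * D.Φ t - Ψ t * Eᴴ with hZ
  have cΨ : Continuous Ψ := continuous_iff_continuousAt.2 fun x => (hΨ x).continuousAt
  have cY : Continuous Y :=
    (D.cF.matrix_mul continuous_const).sub (continuous_const.matrix_mul cff)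
  have cR : Continuous fun t => D.Φ' t - D.Φ t * D.F t := D.cΦ'.sub (D.cΦ.matrix_mul D.cF)
  have hder : ∀ t, HasDerivAt Z (Uᴴ * (D.Φ' t - D.Φ t * D.F t) + Z t * D.F t + Ψ t * (Y t)ᴴ) t := by
    intro t
    have h1 := (hd_mul (hasDerivAt_const t Uᴴ) (D.hΦ t)).sub
      (hd_mul (hΨ t) (hasDerivAt_const t Eᴴ))
    refine h1.congr_deriv ?_
    have hF : (D.F t)ᴴ = D.F t := (D.band t).hermF
    simp only [hY, hZ, Matrix.mul_zero, Matrix.zero_mul, Matrix.sub_mul, Matrix.mul_sub,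
      conjTranspose_sub, conjTranspose_mul, hF, hffH, Matrix.mul_assoc]
    abel
  have hb := gronwall_L1 (C := κ) (y := Z)
    (e := fun t => ‖D.Φ' t - D.Φ t * D.F t‖ + ‖Ψ t‖ * ‖Y t‖) hκ0 hder
    (cR.norm.add (cΨ.norm.mul cY.norm)) (fun t => by positivity) (fun t => by
      have hF : ‖D.F t‖ ≤ κ := (D.band t).norm_le.trans hκ
      have a1 : ‖Z t * D.F t‖ ≤ ‖Z t‖ * κ :=
        (norm_mul_le' _ _).trans (mul_le_mul_of_nonneg_left hF (norm_nonneg _))
      have a2 : ‖Ψ t * (Y t)ᴴ‖ ≤ ‖Ψ t‖ * ‖Y t‖ := by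
        rw [← norm_conjT (Y t)]; exact norm_mul_le' _ _
      have a3 : ‖Uᴴ * (D.Φ' t - D.Φ t * D.F t)‖ ≤ ‖D.Φ' t - D.Φ t * D.F t‖ :=
        (norm_mul_le' _ _).trans (mul_le_of_le_one_left (norm_nonneg _) (by rwa [norm_conjT]))
      refine (norm_add_le _ _).trans ((add_le_add_left (norm_add_le _ _) _).trans ?_)
      linarith) x₀ x
  have hZ0 : Z x₀ = 0 := by simp [hZ, hE, hΨ0]
  rw [hZ0, norm_zero, zero_add] at hb
  refine hb.trans ?_
  gcongr
  have c2 : Continuous fun t => ‖Ψ t‖ * ‖Y t‖ := cΨ.norm.mul cY.norm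
  rw [intervalIntegral.integral_add (cR.norm.intervalIntegrable _ _) (c2.intervalIntegrable _ _)]
  refine (abs_add_le _ _).trans (add_le_add_right ?_ _)
  refine intervalIntegral.norm_integral_le_of_norm_le_const (f := fun t => ‖Ψ t‖ * ‖Y t‖) ?_
  intro t ht
  have ht' := uIoc_subset_uIcc ht
  rw [Real.norm_eq_abs, abs_of_nonneg (by positivity)]
  exact mul_le_mul (hB t ht') (hη t ht') (norm_nonneg _) ((norm_nonneg _).trans (hB t ht'))

theorem rigid_core {s : ℝ} (hs : 0 < s) (hs1 : s < 1) {m : ℕ} (D : ℕ → Data s m) (κ : ℝ)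
    (hκ : ∀ j, ‖(D j).K‖ ≤ κ) (x₀ : ℝ) (ρ₀ : Mat m m)
    (h0 : Tendsto (fun j => (D j).ρ x₀) atTop (𝓝 ρ₀))
    (h1 : Tendsto (fun j => ‖(s / (s + 1)) • (D j).M x₀ - UU (D j).K ((D j).F x₀)‖) atTop (𝓝 0))
    (h2 : Tendsto (fun j => ‖(D j).F x₀ * ((D j).K * (D j).K) - (D j).K * (D j).K * (D j).F x₀‖)
      atTop (𝓝 0))
    (h3 : ∀ a b, Tendsto (fun j => ∫ x in a..b, ‖(D j).Φ' x - (D j).Φ x * (D j).F x‖)
      atTop (𝓝 0))
    (h4 : ∀ a b, Tendsto (fun j => ∫ x in a..b,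
      ‖(s / (s + 1)) • (D j).M x - UU (D j).K ((D j).F x)‖) atTop (𝓝 0)) :
    ∃ (U : Matrix.unitaryGroup (Fin m) ℂ) (a c : Fin m → ℝ), (∀ i, 0 ≤ a i) ∧
      ∀ (x : ℝ) (R : Mat m m), Tendsto (fun j => (D j).ρ x) atTop (𝓝 R) →
        mpow R s⁻¹ = (U : Mat m m) *
          Matrix.diagonal (fun i => ((soliton s⁻¹ (a i) (c i) x : ℝ) : ℂ)) *
            star (U : Mat m m) := by
  have hr : 0 < s⁻¹ := inv_pos.2 hs
  have hκ0 : 0 ≤ κ := (norm_nonneg _).trans (hκ 0)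
  set 𝒰 : Ultrafilter ℕ := Ultrafilter.of atTop with h𝒰
  have hle : (𝒰 : Filter ℕ) ≤ atTop := Ultrafilter.of_le _
  obtain ⟨U, w, f₀, hU1, hU2, hw, hρ, hf, hq⟩ := rigid_point (r := s⁻¹) (θ := s / (s + 1))
    (κ := κ + κ * κ) (one_lt_inv₀ hs |>.2 hs1) (by positivity) (fun j => (D j).N)
    (fun j => ((D j).Φ x₀)ᴴ) (fun j => (D j).F x₀) (fun j => (D j).K * (D j).K)
    (fun j => ((D j).band x₀).hermF)
    (fun j => by
      have := (D j).psdK.1
      rw [Matrix.IsHermitian, conjTranspose_mul, this])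
    (fun j => (((D j).band x₀).norm_le.trans (hκ j)).trans (le_add_of_nonneg_right (by positivity)))
    (fun j => ((norm_mul_le' _ _).trans (mul_le_mul (hκ j) (hκ j) (norm_nonneg _) hκ0)).trans
      (le_add_of_nonneg_left hκ0)) ρ₀ 𝒰
    (by simp only [conjTranspose_conjTranspose]; exact h0.mono_left hle)
    (by simp only [conjTranspose_conjTranspose]; exact h1.mono_left hle) (h2.mono_left hle)
  choose a c f ψ ha hf0 hψ0 hfd hψd hfb hsol using fun i => scalar_channel hs x₀ (f₀ i) (w i) (hw i)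
  refine ⟨⟨U, Matrix.mem_unitaryGroup_iff.2 hU1⟩, a, c, ha, fun x R hR => ?_⟩
  set q : Fin m → ℝ := fun i => f₀ i ^ 2 + s / (s + 1) * w i ^ s⁻¹ with hqdef
  set ff : ℝ → Mat m m := fun x => diagL m fun i => f i x with hffdef
  set Ψ : ℝ → Mat m m := fun x => diagL m fun i => ψ i x with hΨdef
  have hff : ∀ x, HasDerivAt ff (-s⁻¹ • (diagL m q - ff x * ff x)) x := by
    intro x
    have := (diagL m).hasFDerivAt.comp_hasDerivAt x (hasDerivAt_pi.2 fun i => hfd i x)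
    refine this.congr_deriv ?_
    rw [hffdef, diagL_mul, ← map_sub, ← map_smul]
    congr 1
    funext i
    simp [hqdef, sq]
  have hΨ : ∀ x, HasDerivAt Ψ (Ψ x * ff x) x := by
    intro x
    have := (diagL m).hasFDerivAt.comp_hasDerivAt x (hasDerivAt_pi.2 fun i => hψd i x)
    refine this.congr_deriv ?_
    rw [hΨdef, hffdef, diagL_mul]
    congr 1
    funext i
    simp [mul_comm]
  have cff : Continuous ff := continuous_iff_continuousAt.2 fun x => (hff x).continuousAt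
  have cΨ : Continuous Ψ := continuous_iff_continuousAt.2 fun x => (hΨ x).continuousAt
  have hA : ∀ x, ‖ff x‖ ≤ ‖diagL m‖ * ‖fun i => √(q i)‖ := by
    intro x
    refine ((diagL m).le_opNorm _).trans (mul_le_mul_of_nonneg_left ?_ (norm_nonneg _))
    refine (pi_norm_le_iff_of_nonneg (norm_nonneg _)).2 fun i => ?_
    refine le_trans ?_ (norm_le_pi_norm (fun i => √(q i)) i)
    exact (hfb i x).trans (le_abs_self _)
  set A := ‖diagL m‖ * ‖fun i => √(q i)‖ with hAdef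
  obtain ⟨B, hB⟩ := (isCompact_uIcc (a := x₀) (b := x)).exists_bound_of_continuousOn cΨ.continuousOn
  have hΨ0 : Ψ x₀ = 1 := by
    rw [hΨdef, ← diagL_one]
    simp only [hψ0]
    rfl
  have hff0 : ff x₀ = diagonal fun i => (f₀ i : ℂ) := by
    simp only [hffdef, hf0, diagL_apply]
  set E : ∀ j, Mat (D j).N m := fun j => ((D j).Φ x₀)ᴴ * U with hEdef
  have hEE : Tendsto (fun j => (E j)ᴴ * E j) 𝒰 (𝓝 (diagL m w)) := by
    have h5 : Tendsto (fun j => Uᴴ * (D j).ρ x₀ * U) 𝒰 (𝓝 (Uᴴ * ρ₀ * U)) :=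
      ((h0.mono_left hle).const_mul _).mul_const _
    have e1 : Uᴴ * ρ₀ * U = diagL m w := by
      rw [hρ, diagL_apply]
      simp only [← Matrix.mul_assoc, hU2, Matrix.one_mul]
      rw [Matrix.mul_assoc, hU2, Matrix.mul_one]
    rw [e1] at h5
    refine h5.congr fun j => ?_
    simp [hEdef, Data.ρ, Matrix.mul_assoc]
  have hEn : Tendsto (fun j => ‖E j‖) 𝒰 (𝓝 (√‖diagL m w‖)) := by
    refine hEE.norm.sqrt.congr fun j => ?_
    rw [Matrix.l2_opNorm_conjTranspose_mul_self, Real.sqrt_mul_self (norm_nonneg _)]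
  set η : ℕ → ℝ := fun j => Real.exp (s⁻¹ * (κ + A) * |x - x₀|) *
      (‖(D j).F x₀ * E j - E j * ff x₀‖ +
        (s⁻¹ * ‖(D j).K * (D j).K * E j - E j * diagL m q‖ * |x - x₀| +
        (1 + s⁻¹) * ‖E j‖ *
          |∫ t in x₀..x, ‖(s / (s + 1)) • (D j).M t - UU (D j).K ((D j).F t)‖|)) with hηdef
  have hη : Tendsto η 𝒰 (𝓝 0) := by
    have t1 : Tendsto (fun j => ‖(D j).F x₀ * E j - E j * ff x₀‖) 𝒰 (𝓝 0) := by
      rw [hff0]; exact hf
    have t2 : Tendsto (fun j => ‖(D j).K * (D j).K * E j - E j * diagL m q‖) 𝒰 (𝓝 0) := hq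
    have t3 := ((h4 x₀ x).mono_left hle).abs
    have := (t1.add (((t2.const_mul s⁻¹).mul_const |x - x₀|).add
      ((hEn.const_mul (1 + s⁻¹)).mul t3))).const_mul (Real.exp (s⁻¹ * (κ + A) * |x - x₀|))
    simpa using this
  set Z : ∀ j, Mat m (D j).N := fun j => Uᴴ * (D j).Φ x - Ψ x * (E j)ᴴ with hZdef
  have hZ : Tendsto (fun j => ‖Z j‖) 𝒰 (𝓝 0) := by
    have t3 := ((h3 x₀ x).mono_left hle).abs
    have := (t3.add ((hη.const_mul B).mul_const |x - x₀|)).const_mul (Real.exp (κ * |x - x₀|))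
    simp only [abs_zero, mul_zero, zero_mul, add_zero] at this
    refine squeeze_zero (fun j => norm_nonneg _) (fun j => ?_) this
    exact Z_bound (D j) (hκ j) U (norm_le_one_of_unitary hU2) ff Ψ cff
      (fun x => diagL_conjT _) hΨ x₀ x hΨ0 hB
      fun t ht => Y_bound hs (D j) (hκ j) (E j) ff (diagL m q) hff hA x₀ x ht
  have hlim1 : Tendsto (fun j => Uᴴ * (D j).ρ x * U) 𝒰 (𝓝 (Uᴴ * R * U)) :=
    ((hR.mono_left hle).const_mul _).mul_const _
  have hlim2 : Tendsto (fun j => Uᴴ * (D j).ρ x * U) 𝒰 (𝓝 (Ψ x * diagL m w * Ψ x)) := by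
    have t1 : Tendsto (fun j => Ψ x * ((E j)ᴴ * E j) * Ψ x) 𝒰 (𝓝 (Ψ x * diagL m w * Ψ x)) :=
      (hEE.const_mul _).mul_const _
    have t2 : Tendsto (fun j => Uᴴ * (D j).ρ x * U - Ψ x * ((E j)ᴴ * E j) * Ψ x) 𝒰 (𝓝 0) := by
      rw [tendsto_zero_iff_norm_tendsto_zero]
      have := (hZ.mul hZ).add ((hZ.mul (hEn.mul_const ‖Ψ x‖)).const_mul 2)
      simp only [mul_zero, zero_mul, add_zero] at this
      refine squeeze_zero (fun j => norm_nonneg _) (fun j => ?_) this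
      have hΨH : (Ψ x)ᴴ = Ψ x := diagL_conjT _
      have e : Uᴴ * (D j).ρ x * U - Ψ x * ((E j)ᴴ * E j) * Ψ x =
          Z j * (Z j)ᴴ + Z j * (E j * Ψ x) + (Z j * (E j * Ψ x))ᴴ := by
        simp only [hZdef, Data.ρ, conjTranspose_sub, conjTranspose_mul, conjTranspose_conjTranspose,
          hΨH, Matrix.sub_mul, Matrix.mul_sub, Matrix.mul_assoc]
        abel
      have a1 : ‖Z j * (Z j)ᴴ‖ ≤ ‖Z j‖ * ‖Z j‖ := by
        have := norm_mul_le' (Z j) (Z j)ᴴ
        rwa [norm_conjT] at this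
      have a2 : ‖Z j * (E j * Ψ x)‖ ≤ ‖Z j‖ * (‖E j‖ * ‖Ψ x‖) :=
        (norm_mul_le' _ _).trans (mul_le_mul_of_nonneg_left (norm_mul_le' _ _) (norm_nonneg _))
      rw [e]
      refine (norm_add_le _ _).trans ((add_le_add_left (norm_add_le _ _) _).trans ?_)
      rw [norm_conjT]
      linarith
    simpa using t2.add t1
  have heq : Uᴴ * R * U = diagL m fun i => ψ i x ^ 2 * w i := by
    rw [tendsto_nhds_unique hlim1 hlim2, hΨdef, diagL_mul, diagL_mul]
    congr 1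
    funext i
    simp only [Pi.mul_apply]
    ring
  have hR' : R = U * diagL m (fun i => ψ i x ^ 2 * w i) * Uᴴ := by
    rw [← heq]
    simp only [← Matrix.mul_assoc, hU1, Matrix.one_mul]
    rw [Matrix.mul_assoc, hU1, Matrix.mul_one]
  rw [hR', mpow, cfc_conj hU1 (diagL_conjT _), diagL_apply, cfc_diagonal]
  simp only [hsol]
  rfl

end Crest.Agent.R332
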