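import Crest.Agent.R332.Basic

/-! Rigidity at one point: approximate joint eigenvectors. -/

set_option autoImplicit false
open scoped Matrix.Norms.L2Operator ComplexOrder MatrixOrder Topology
open Matrix MeasureTheory Filter Set
open Crest.MathPhysics.LiebThirring

namespace Crest.Agent.R332

namespace RP

variable {l : Filter ℕ} {a b c : ℕ → ℕ}

/-- a family of matrices of varying sizes tends to zero in norm -/
def Z (l : Filter ℕ) {a b : ℕ → ℕ} (X : ∀ j, Mat (a j) (b j)) : Prop :=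
  Tendsto (fun j => ‖X j‖) l (𝓝 0)

/-- a family of matrices of varying sizes is eventually bounded -/
def Bd (l : Filter ℕ) {a b : ℕ → ℕ} (X : ∀ j, Mat (a j) (b j)) : Prop :=
  ∃ C : ℝ, ∀ᶠ j in l, ‖X j‖ ≤ C

lemma Z.add {X Y : ∀ j, Mat (a j) (b j)} (hX : Z l X) (hY : Z l Y) :
    Z l (fun j => X j + Y j) := by
  refine squeeze_zero (fun j => norm_nonneg _) (fun j => norm_add_le _ _) ?_
  simpa using Tendsto.add hX hY

lemma Z.sub {X Y : ∀ j, Mat (a j) (b j)} (hX : Z l X) (hY : Z l Y) :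
    Z l (fun j => X j - Y j) := by
  refine squeeze_zero (fun j => norm_nonneg _) (fun j => norm_sub_le _ _) ?_
  simpa using Tendsto.add hX hY

lemma Z.smul {X : ∀ j, Mat (a j) (b j)} (t : ℝ) (hX : Z l X) : Z l (fun j => t • X j) := by
  unfold Z
  simp_rw [norm_smul]
  simpa using Tendsto.const_mul ‖t‖ hX

lemma Z.congr {X Y : ∀ j, Mat (a j) (b j)} (hX : Z l X) (h : ∀ j, X j = Y j) : Z l Y := by
  have : X = Y := funext h
  rwa [← this]

lemma Z.mul_left {X : ∀ j, Mat (a j) (b j)} {Y : ∀ j, Mat (b j) (c j)} (hX : Bd l X)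
    (hY : Z l Y) : Z l (fun j => X j * Y j) := by
  obtain ⟨C, hC⟩ := hX
  refine squeeze_zero' (Eventually.of_forall fun j => norm_nonneg _) (g := fun j => C * ‖Y j‖)
    ?_ (by simpa using Tendsto.const_mul C hY)
  filter_upwards [hC] with j hj
  exact (norm_mul_le' _ _).trans (mul_le_mul_of_nonneg_right hj (norm_nonneg _))

lemma Z.mul_right {X : ∀ j, Mat (a j) (b j)} {Y : ∀ j, Mat (b j) (c j)} (hX : Z l X)
    (hY : Bd l Y) : Z l (fun j => X j * Y j) := by
  obtain ⟨C, hC⟩ := hY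
  refine squeeze_zero' (Eventually.of_forall fun j => norm_nonneg _) (g := fun j => ‖X j‖ * C)
    ?_ (by simpa using Tendsto.mul_const C hX)
  filter_upwards [hC] with j hj
  exact (norm_mul_le' _ _).trans (mul_le_mul_of_nonneg_left hj (norm_nonneg _))

lemma Bd.mul {X : ∀ j, Mat (a j) (b j)} {Y : ∀ j, Mat (b j) (c j)} (hX : Bd l X)
    (hY : Bd l Y) : Bd l (fun j => X j * Y j) := by
  obtain ⟨C, hC⟩ := hX
  obtain ⟨D, hD⟩ := hY
  refine ⟨C * D, ?_⟩
  filter_upwards [hC, hD] with j h1 h2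
  exact (norm_mul_le' _ _).trans
    (mul_le_mul h1 h2 (norm_nonneg _) ((norm_nonneg _).trans h1))

lemma Bd.conjT {X : ∀ j, Mat (a j) (b j)} (hX : Bd l X) : Bd l (fun j => (X j)ᴴ) := by
  obtain ⟨C, hC⟩ := hX
  refine ⟨C, ?_⟩
  filter_upwards [hC] with j h1
  rwa [norm_conjT]

lemma Bd.const {m n : ℕ} (X : Mat m n) : Bd l (a := fun _ => m) (b := fun _ => n) (fun _ => X) :=
  ⟨‖X‖, Eventually.of_forall fun _ => le_rfl⟩

lemma Z.of_tendsto {m n : ℕ} {X : ℕ → Mat m n} {X₀ : Mat m n} (h : Tendsto X l (𝓝 X₀)) :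
    Z l (a := fun _ => m) (b := fun _ => n) (fun j => X j - X₀) :=
  tendsto_iff_norm_sub_tendsto_zero.1 h

lemma Z.eq_zero [l.NeBot] {m n : ℕ} {X : Mat m n}
    (h : Z l (a := fun _ => m) (b := fun _ => n) (fun _ => X)) : X = 0 := by
  have := tendsto_nhds_unique h tendsto_const_nhds
  exact norm_eq_zero.1 this.symm

lemma Bd.of_tendsto {m n : ℕ} {X : ℕ → Mat m n} {X₀ : Mat m n} (h : Tendsto X l (𝓝 X₀)) :
    Bd l (a := fun _ => m) (b := fun _ => n) X := by
  refine ⟨‖X₀‖ + 1, ?_⟩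
  have := h.norm
  exact this.eventually (eventually_le_nhds (by linarith))

lemma herm_of_tendsto [l.NeBot] {m : ℕ} {X : ℕ → Mat m m} {X₀ : Mat m m}
    (h : Tendsto X l (𝓝 X₀)) (hX : ∀ j, (X j).IsHermitian) : X₀.IsHermitian := by
  have h2 : Tendsto (fun j => (X j)ᴴ) l (𝓝 X₀ᴴ) :=
    ((continuous_id.matrix_conjTranspose).tendsto X₀).comp h
  simp_rw [fun j => (hX j).eq] at h2
  exact tendsto_nhds_unique h2 h

lemma psd_of_tendsto [l.NeBot] {m : ℕ} {X : ℕ → Mat m m} {X₀ : Mat m m}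
    (h : Tendsto X l (𝓝 X₀)) (hX : ∀ j, (X j).PosSemidef) : X₀.PosSemidef := by
  refine Matrix.PosSemidef.of_dotProduct_mulVec_nonneg (herm_of_tendsto h fun j => (hX j).1)
    fun x => ?_
  have hc : Continuous fun A : Mat m m => star x ⬝ᵥ (A *ᵥ x) := by fun_prop
  exact ge_of_tendsto' ((hc.tendsto X₀).comp h) fun j => (hX j).dotProduct_mulVec_nonneg x

/-- two commuting Hermitian matrices are functions of one Hermitian matrix -/
lemma exists_common {m : ℕ} {ρ A : Mat m m} (hρ : ρ.PosSemidef) (hA : A.IsHermitian)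
    (hc : ρ * A = A * ρ) : ∃ (H : Mat m m) (g φ : ℝ → ℝ), H.IsHermitian ∧ (∀ x, 0 ≤ g x) ∧
      ρ = cfc g H ∧ A = cfc φ H := by
  classical
  have hSρ : (spectrum ℝ ρ).Finite := Matrix.finite_real_spectrum
  have hSA : (spectrum ℝ A).Finite := Matrix.finite_real_spectrum
  have hfin : ((fun p : (ℝ × ℝ) × (ℝ × ℝ) => (p.1.1 - p.1.2) / (p.2.1 - p.2.2)) ''
      ((spectrum ℝ A ×ˢ spectrum ℝ A) ×ˢ (spectrum ℝ ρ ×ˢ spectrum ℝ ρ))).Finite :=
    ((hSA.prod hSA).prod (hSρ.prod hSρ)).image _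
  obtain ⟨T, hT⟩ := hfin.exists_notMem
  have hgen : ∀ x ∈ spectrum ℝ A, ∀ y ∈ spectrum ℝ ρ, ∀ y' ∈ spectrum ℝ ρ,
      x + T * y - T * y' ∈ spectrum ℝ A → y' = y := by
    intro x hx y hy y' hy' h
    by_contra hne
    refine hT ⟨((x + T * y - T * y', x), (y, y')), ⟨⟨h, hx⟩, ⟨hy, hy'⟩⟩, ?_⟩
    have : y - y' ≠ 0 := sub_ne_zero.2 (Ne.symm hne)
    simp only
    field_simp
    ring
  let g : ℝ → ℝ := fun h =>
    if hh : ∃ y ∈ spectrum ℝ ρ, h - T * y ∈ spectrum ℝ A then hh.choose else 0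
  have hg0 : ∀ x, 0 ≤ g x := by
    intro x
    simp only [g]
    split_ifs with hh
    · exact spec_nonneg hρ hh.choose_spec.1
    · exact le_rfl
  have hg : ∀ x ∈ spectrum ℝ A, ∀ y ∈ spectrum ℝ ρ, g (x + T * y) = y := by
    intro x hx y hy
    have hh : ∃ y' ∈ spectrum ℝ ρ, x + T * y - T * y' ∈ spectrum ℝ A := ⟨y, hy, by simpa using hx⟩
    simp only [g, dif_pos hh]
    exact hgen x hx y hy _ hh.choose_spec.1 hh.choose_spec.2
  set H : Mat m m := A + T • ρ with hH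
  have hHh : H.IsHermitian := hA.add (by
    have := cfc_herm (fun x => T * x) ρ
    rwa [cfc_const_mul', cfc_id'' hρ.1] at this)
  let P : ℝ → Mat m m := fun y => cfc (fun t => if t = y then 1 else 0) ρ
  have hPA : ∀ y, P y * A = A * P y := fun y => cfc_intertwine hρ.1 hρ.1 hc _
  have hρP : ∀ y, ρ * P y = y • P y := by
    intro y
    have e1 : ρ * P y = cfc (fun t => t * (if t = y then 1 else 0)) ρ := by
      rw [cfc_mul', cfc_id'' hρ.1]
    rw [e1, ← cfc_const_mul']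
    refine cfc_congr' fun t _ => ?_
    split_ifs with h <;> simp [h]
  have hsum : ∑ y ∈ hSρ.toFinset, P y = 1 := by
    have := cfc_sum (fun y t : ℝ => if t = y then (1 : ℝ) else 0) ρ hSρ.toFinset
      (fun _ _ => contOn_spec _ _)
    rw [← this]
    have e : (1 : Mat m m) = cfc (fun _ : ℝ => (1 : ℝ)) ρ := by rw [cfc_const' 1 hρ.1, one_smul]
    rw [e]
    refine cfc_congr' fun t ht => ?_
    simp [Finset.sum_apply, ht]
  have key : ∀ y ∈ spectrum ℝ ρ, cfc g H * P y = ρ * P y := by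
    intro y hy
    have hY : cfc (fun x => x + T * y) A = A + (T * y) • (1 : Mat m m) := by
      rw [cfc_add', cfc_id'' hA, cfc_const' _ hA]
    have hint : H * P y = P y * cfc (fun x => x + T * y) A := by
      rw [hY, hH, Matrix.add_mul, Matrix.mul_add, hPA, Matrix.smul_mul, hρP, Matrix.mul_smul,
        Matrix.mul_one, smul_smul]
    rw [cfc_intertwine hHh (cfc_herm _ _) hint g, cfc_cfc _ _ hA, hρP,
      cfc_congr' (g := fun _ => y) (fun x hx => hg x hx y hy), cfc_const' _ hA, Matrix.mul_smul,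
      Matrix.mul_one]
  have hρg : ρ = cfc g H := by
    calc ρ = ρ * ∑ y ∈ hSρ.toFinset, P y := by rw [hsum, Matrix.mul_one]
      _ = cfc g H * ∑ y ∈ hSρ.toFinset, P y := by
        rw [Finset.mul_sum, Finset.mul_sum]
        exact Finset.sum_congr rfl fun y hy => (key y (by simpa using hy)).symm
      _ = cfc g H := by rw [hsum, Matrix.mul_one]
  refine ⟨H, g, fun x => x - T * g x, hHh, hg0, hρg, ?_⟩
  rw [cfc_sub', cfc_id'' hHh, cfc_const_mul', ← hρg, hH]
  simp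

lemma cfc_mul_eigU {m : ℕ} {H : Mat m m} (hH : H.IsHermitian) (φ : ℝ → ℝ) :
    cfc φ H * eigU hH = eigU hH * diagonal fun i => (φ (hH.eigenvalues i) : ℂ) := by
  rw [cfc_eq_diag hH, Matrix.mul_assoc, eigU_conj_mul, Matrix.mul_one]

end RP

open RP in
/-- `E j : N_j × m` matrices with `E*E → ρ`, `F j`, `Q j` bounded Hermitian, asymptotically commuting,
with `θ (E E*)^r - (Q - F²) → 0`.  Along an ultrafilter, in a suitable constant unitary basis `U`
of `ℂ^m`, the columns of `E U` are approximate joint eigenvectors of `F` and `Q`. -/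
theorem rigid_point {r θ κ : ℝ} (hr : 1 < r) (hθ : 0 < θ) {m : ℕ} (N : ℕ → ℕ)
    (E : ∀ j, Mat (N j) m) (F Q : ∀ j, Mat (N j) (N j)) (hF : ∀ j, (F j).IsHermitian)
    (hQ : ∀ j, (Q j).IsHermitian) (hFκ : ∀ j, ‖F j‖ ≤ κ) (hQκ : ∀ j, ‖Q j‖ ≤ κ)
    (ρ : Mat m m) (𝒰 : Ultrafilter ℕ) (h0 : Tendsto (fun j => (E j)ᴴ * E j) 𝒰 (𝓝 ρ))
    (h1 : Tendsto (fun j => ‖θ • mpow (E j * (E j)ᴴ) r - (Q j - F j * F j)‖) 𝒰 (𝓝 0))
    (h2 : Tendsto (fun j => ‖F j * Q j - Q j * F j‖) 𝒰 (𝓝 0)) :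
    ∃ (U : Mat m m) (w f : Fin m → ℝ), U * Uᴴ = 1 ∧ Uᴴ * U = 1 ∧ (∀ i, 0 ≤ w i) ∧
      ρ = U * diagonal (fun i => (w i : ℂ)) * Uᴴ ∧
      Tendsto (fun j => ‖F j * (E j * U) - E j * U * diagonal (fun i => (f i : ℂ))‖) 𝒰 (𝓝 0) ∧
      Tendsto (fun j => ‖Q j * (E j * U) -
        E j * U * diagonal (fun i => ((f i ^ 2 + θ * w i ^ r : ℝ) : ℂ))‖) 𝒰 (𝓝 0) := by
  have hρjP : ∀ j, ((E j)ᴴ * E j).PosSemidef := fun j => posSemidef_conjTranspose_mul_self _
  have hρ : ρ.PosSemidef := psd_of_tendsto h0 hρjP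
  have bF : Bd (𝒰 : Filter ℕ) F := ⟨κ, Eventually.of_forall hFκ⟩
  have bE : Bd (𝒰 : Filter ℕ) (b := fun _ => m) E := by
    obtain ⟨C, hC⟩ := Bd.of_tendsto h0
    refine ⟨√C, ?_⟩
    filter_upwards [hC] with j hj
    rw [Matrix.l2_opNorm_conjTranspose_mul_self] at hj
    exact Real.le_sqrt_of_sq_le (by rwa [sq])
  have z1 : Z (𝒰 : Filter ℕ) fun j => θ • mpow (E j * (E j)ᴴ) r - (Q j - F j * F j) := h1
  have z2 : Z (𝒰 : Filter ℕ) fun j => F j * Q j - Q j * F j := h2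
  -- commutator of `F` with `M`
  have zC : Z (𝒰 : Filter ℕ)
      fun j => F j * mpow (E j * (E j)ᴴ) r - mpow (E j * (E j)ᴴ) r * F j := by
    refine ((((z1.mul_left bF).sub (z1.mul_right bF)).add z2).smul θ⁻¹).congr fun j => ?_
    rw [eq_comm, ← inv_smul_smul₀ hθ.ne' (F j * mpow (E j * (E j)ᴴ) r - _)]
    congr 1
    simp only [Matrix.mul_sub, Matrix.sub_mul, Matrix.mul_smul, Matrix.smul_mul, smul_sub,
      Matrix.mul_assoc]
    abel
  have hME : ∀ j (t : ℝ), mpow (E j * (E j)ᴴ) t * E j = E j * mpow ((E j)ᴴ * E j) t :=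
    fun j t => cfc_mul_self (E j) _
  have hsplit : ∀ {n : ℕ} {X : Mat n n}, X.PosSemidef → mpow X r = mpow X (r - 1) * X := by
    intro n X hX
    have := mpow_add hX (a := r - 1) (b := 1) (by linarith) zero_le_one
    rwa [sub_add_cancel, mpow_one hX.1] at this
  have hM : ∀ j, mpow (E j * (E j)ᴴ) r = E j * mpow ((E j)ᴴ * E j) (r - 1) * (E j)ᴴ := by
    intro j
    rw [hsplit (posSemidef_self_mul_conjTranspose _), ← Matrix.mul_assoc, hME]
  -- the compressed operators converge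
  have bA : Bd (𝒰 : Filter ℕ) (a := fun _ => m) (b := fun _ => m)
      fun j => (E j)ᴴ * F j * E j := (bE.conjT.mul bF).mul bE
  obtain ⟨A, hA⟩ : ∃ A : Mat m m, Tendsto (fun j => (E j)ᴴ * F j * E j) 𝒰 (𝓝 A) := by
    obtain ⟨C, hC⟩ := bA
    haveI : ProperSpace (Mat m m) := FiniteDimensional.proper ℂ (Mat m m)
    obtain ⟨A, -, hA⟩ := (isCompact_closedBall (0 : Mat m m) C).ultrafilter_le_nhds
      (𝒰.map fun j => (E j)ᴴ * F j * E j) (by
        rw [Ultrafilter.coe_map, le_principal_iff, mem_map]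
        filter_upwards [hC] with j hj
        simpa using hj)
    exact ⟨A, hA⟩
  have hAh : A.IsHermitian := herm_of_tendsto hA fun j => isHermitian_conjTranspose_mul_mul _ (hF j)
  have tpow : ∀ t : ℝ, 0 ≤ t →
      Tendsto (fun j => mpow ((E j)ᴴ * E j) t) 𝒰 (𝓝 (mpow ρ t)) := fun t ht =>
    tendsto_cfc_of h0 (Eventually.of_forall fun j => (hρjP j).1) hρ.1
      (Real.continuous_rpow_const ht)
  have zr := Z.of_tendsto (tpow r (by linarith))
  have zr1 := Z.of_tendsto (tpow (r - 1) (by linarith))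
  have zA := Z.of_tendsto hA
  have z0 := Z.of_tendsto h0
  have z3 : Z (𝒰 : Filter ℕ) (b := fun _ => m)
      fun j => F j * E j * mpow ρ r - E j * (mpow ρ (r - 1) * A) := by
    refine ((((zC.mul_right bE).sub (zr.mul_left (bF.mul bE))).add
      ((zr1.mul_right bA).mul_left bE)).add
      ((zA.mul_left (Bd.const (mpow ρ (r - 1)))).mul_left bE)).congr fun j => ?_
    have e1 : F j * mpow (E j * (E j)ᴴ) r * E j = F j * E j * mpow ((E j)ᴴ * E j) r := by
      rw [Matrix.mul_assoc, hME, Matrix.mul_assoc]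
    have e2 : mpow (E j * (E j)ᴴ) r * F j * E j =
        E j * (mpow ((E j)ᴴ * E j) (r - 1) * ((E j)ᴴ * F j * E j)) := by
      rw [hM]; simp only [Matrix.mul_assoc]
    rw [Matrix.sub_mul, e1, e2]
    simp only [Matrix.mul_sub, Matrix.sub_mul]
    abel
  have hcomm_r : mpow ρ r * A = A * mpow ρ r := by
    have z4 : Z (𝒰 : Filter ℕ) (a := fun _ => m) (b := fun _ => m)
        fun _ => A * mpow ρ r - ρ * (mpow ρ (r - 1) * A) := by
      refine (((z3.mul_left bE.conjT).sub (zA.mul_right (Bd.const (mpow ρ r)))).add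
        (z0.mul_right (Bd.const (mpow ρ (r - 1) * A)))).congr fun j => ?_
      simp only [Matrix.mul_sub, Matrix.sub_mul, Matrix.mul_assoc]
      abel
    have h4 := sub_eq_zero.1 z4.eq_zero
    have e : ρ * mpow ρ (r - 1) = mpow ρ r := by
      have := mpow_add hρ (a := 1) (b := r - 1) zero_le_one (by linarith)
      rw [add_sub_cancel, mpow_one hρ.1] at this
      exact this.symm
    rw [h4, ← Matrix.mul_assoc, e]
  have hcomm : ρ * A = A * ρ := by
    have := cfc_intertwine (mpow_herm ρ r) (mpow_herm ρ r) hcomm_r (fun x => x ^ r⁻¹)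
    change mpow (mpow ρ r) r⁻¹ * A = A * mpow (mpow ρ r) r⁻¹ at this
    rwa [mpow_mpow hρ, mul_inv_cancel₀ (by linarith), mpow_one hρ.1] at this
  have hcA : ∀ φ : ℝ → ℝ, cfc φ ρ * A = A * cfc φ ρ := cfc_intertwine hρ.1 hρ.1 hcomm
  set R : Mat m m := cfc (fun t : ℝ => (t ^ r)⁻¹) ρ with hR
  set D : Mat m m := cfc (fun t : ℝ => t ^ (r - 1) * (t ^ r)⁻¹) ρ with hD
  set ff : Mat m m := D * A with hff
  have hffh : ff.IsHermitian := by
    rw [Matrix.IsHermitian, hff, conjTranspose_mul, hAh.eq, (cfc_herm _ _).eq, hcA]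
  have hffc : ρ * ff = ff * ρ := by
    have e : ρ * D = D * ρ := by
      have := cfc_comm (fun x => x) (fun t : ℝ => t ^ (r - 1) * (t ^ r)⁻¹) ρ
      rwa [cfc_id'' hρ.1] at this
    rw [hff, ← Matrix.mul_assoc, e, Matrix.mul_assoc, hcomm, Matrix.mul_assoc]
  have hffe : mpow ρ (r - 1) * A * R = ff := by
    rw [Matrix.mul_assoc, hR, ← hcA, ← Matrix.mul_assoc, hff, hD, cfc_mul']
    rfl
  have hPi : ρ * (1 - mpow ρ r * R) = 0 := by
    have e : ρ * (1 - mpow ρ r * R) = cfc (fun t : ℝ => t * (1 - t ^ r * (t ^ r)⁻¹)) ρ := by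
      rw [cfc_mul', cfc_sub', cfc_mul', cfc_id'' hρ.1, cfc_const' 1 hρ.1, one_smul]
      rfl
    rw [e, cfc_congr' (g := fun _ => 0), cfc_const' 0 hρ.1, zero_smul]
    intro t ht
    rcases (spec_nonneg hρ ht).eq_or_lt with h | h
    · simp [← h]
    · rw [mul_inv_cancel₀ (Real.rpow_pos_of_pos h r).ne']; simp
  have z5 : Z (𝒰 : Filter ℕ) (b := fun _ => m) fun j => E j * (1 - mpow ρ r * R) := by
    have z6 : Z (𝒰 : Filter ℕ) (a := fun _ => m) (b := fun _ => m)
        fun j => (E j * (1 - mpow ρ r * R))ᴴ * (E j * (1 - mpow ρ r * R)) := by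
      refine ((z0.mul_right (Bd.const (1 - mpow ρ r * R))).mul_left
        (Bd.const (1 - mpow ρ r * R)ᴴ)).congr fun j => ?_
      rw [Matrix.sub_mul, hPi, sub_zero, conjTranspose_mul]
      simp only [Matrix.mul_assoc]
    unfold Z at z6 ⊢
    simp_rw [Matrix.l2_opNorm_conjTranspose_mul_self] at z6
    have := z6.sqrt
    simp_rw [Real.sqrt_mul_self (norm_nonneg _), Real.sqrt_zero] at this
    exact this
  have z7 : Z (𝒰 : Filter ℕ) (b := fun _ => m) fun j => F j * E j - E j * ff := by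
    refine ((z5.mul_left bF).add (z3.mul_right (Bd.const R))).congr fun j => ?_
    rw [← hffe]
    simp only [Matrix.mul_sub, Matrix.sub_mul, Matrix.mul_assoc, Matrix.mul_one]
    abel
  have z8 : Z (𝒰 : Filter ℕ) (b := fun _ => m)
      fun j => Q j * E j - E j * (ff * ff + θ • mpow ρ r) := by
    refine (((((zr.mul_left bE).smul θ).sub (z1.mul_right bE)).add (z7.mul_left bF)).add
      (z7.mul_right (Bd.const ff))).congr fun j => ?_
    simp only [Matrix.mul_sub, Matrix.sub_mul, Matrix.mul_add, Matrix.mul_assoc, Matrix.smul_mul,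
      Matrix.mul_smul, hME, smul_sub]
    abel
  obtain ⟨H, g, φ, hH, hg0, hρg, hφ⟩ := exists_common hρ hffh hffc
  refine ⟨eigU hH, fun i => g (hH.eigenvalues i), fun i => φ (hH.eigenvalues i), eigU_mul_conj hH,
    eigU_conj_mul hH, fun i => hg0 _, ?_, ?_, ?_⟩
  · rw [← cfc_eq_diag hH g]; exact hρg
  · refine (z7.mul_right (Bd.const (eigU hH))).congr fun j => ?_
    rw [Matrix.sub_mul, hφ, Matrix.mul_assoc (E j), cfc_mul_eigU, Matrix.mul_assoc,
      Matrix.mul_assoc]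
  · refine (z8.mul_right (Bd.const (eigU hH))).congr fun j => ?_
    have e : ff * ff + θ • mpow ρ r = cfc (fun x => φ x ^ 2 + θ * g x ^ r) H := by
      rw [cfc_add', cfc_const_mul', hφ, hρg, mpow, cfc_cfc _ _ hH, ← cfc_mul']
      simp_rw [sq]
    rw [Matrix.sub_mul, e, Matrix.mul_assoc (E j), cfc_mul_eigU, Matrix.mul_assoc,
      Matrix.mul_assoc]

end Crest.Agent.R332
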